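import Vale.Agent.H29.QAC.Bten

set_option linter.unusedSectionVars false

namespace Vale.Agent.H29.QAC

open Matrix Finset

section Block

variable {U : Type} [Fintype U] [DecidableEq U]

/-- reflection about a product vector -/
def rf (w : U → Bool → ℂ) : Matrix (U → Bool) (U → Bool) ℂ :=
  1 - (2 : ℂ) • tens (fun q => rk (w q) (w q))

/-- real diagonal one-qubit matrix -/
def dg (ζ : Bool → ℝ) : Matrix Bool Bool ℂ := Matrix.diagonal (fun a => (ζ a : ℂ))

theorem rk_mul_rk {ι : Type} [Fintype ι] (a b c d : ι → ℂ) :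
    rk a b * rk c d = ip b c • rk a d := by
  ext i j
  simp only [Matrix.mul_apply, rk, ip, Matrix.smul_apply, smul_eq_mul, Finset.sum_mul]
  refine Finset.sum_congr rfl fun k _ => by ring

theorem rk_conjTranspose {ι : Type} (a b : ι → ℂ) : (rk a b)ᴴ = rk b a := by
  ext i j
  simp [rk, Matrix.conjTranspose_apply, mul_comm]

theorem trace_rk {ι : Type} [Fintype ι] (a b : ι → ℂ) : (rk a b).trace = ip b a := by
  simp only [Matrix.trace, Matrix.diag_apply, rk, ip]
  exact Finset.sum_congr rfl fun i _ => mul_comm _ _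

theorem dg_conjTranspose (ζ : Bool → ℝ) : (dg ζ)ᴴ = dg ζ := by
  rw [dg, Matrix.diagonal_conjTranspose]
  congr 1
  funext a
  simp

theorem ip_unit {ι : Type} [Fintype ι] {a : ι → ℂ} (h : nrm a = 1) : ip a a = 1 := by
  rw [ip_self, h]; simp

theorem rf_conjTranspose (w : U → Bool → ℂ) : (rf w)ᴴ = rf w := by
  simp only [rf, Matrix.conjTranspose_sub, Matrix.conjTranspose_one, Matrix.conjTranspose_smul,
    tens_conjTranspose, rk_conjTranspose]
  norm_num

theorem tw_sq {w : U → Bool → ℂ} (hw : ∀ q, nrm (w q) = 1) :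
    tens (fun q => rk (w q) (w q)) * tens (fun q => rk (w q) (w q))
      = tens (fun q => rk (w q) (w q)) := by
  rw [tens_mul]
  congr 1
  funext q
  rw [rk_mul_rk, ip_unit (hw q), one_smul]

theorem rf_sq {w : U → Bool → ℂ} (hw : ∀ q, nrm (w q) = 1) : rf w * rf w = 1 := by
  have h := tw_sq hw
  simp only [rf, sub_mul, mul_sub, one_mul, mul_one, smul_mul_assoc, mul_smul_comm, h]
  module

theorem rf_conj (w : U → Bool → ℂ) (Z : U → Matrix Bool Bool ℂ) :
    rf w * tens Z * rf w = tens Z - (2 : ℂ) • tens (fun q => rk (w q) (w q) * Z q)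
      - (2 : ℂ) • tens (fun q => Z q * rk (w q) (w q))
      + (4 : ℂ) • tens (fun q => rk (w q) (w q) * Z q * rk (w q) (w q)) := by
  simp only [rf, sub_mul, mul_sub, one_mul, mul_one, smul_mul_assoc, mul_smul_comm, tens_mul]
  module

/-- vector `Z w` for a real diagonal `Z` -/
def zw (ζ : Bool → ℝ) (w : Bool → ℂ) : Bool → ℂ := fun a => (ζ a : ℂ) * w a

/-- `⟨w, Z w⟩` -/
noncomputable def tau (ζ : Bool → ℝ) (w : Bool → ℂ) : ℝ := ζ true * ‖w true‖ ^ 2 + ζ false * ‖w false‖ ^ 2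

theorem dg_mul_rk (ζ : Bool → ℝ) (a b : Bool → ℂ) : dg ζ * rk a b = rk (zw ζ a) b := by
  ext i j
  simp [dg, rk, zw, Matrix.diagonal_mul, mul_assoc]

theorem rk_mul_dg (ζ : Bool → ℝ) (a b : Bool → ℂ) : rk a b * dg ζ = rk a (zw ζ b) := by
  ext i j
  simp only [dg, rk, zw, Matrix.mul_diagonal, star_mul']
  have : star (ζ j : ℂ) = (ζ j : ℂ) := by simp
  rw [this]
  ring

theorem star_mul_self_eq (z : ℂ) : star z * z = ((‖z‖ ^ 2 : ℝ) : ℂ) := by
  rw [← Complex.normSq_eq_norm_sq, Complex.normSq_eq_conj_mul_self]; simp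

theorem ip_zw (ζ : Bool → ℝ) (w : Bool → ℂ) : ip w (zw ζ w) = (tau ζ w : ℂ) := by
  simp only [ip, zw, Fintype.sum_bool, tau]
  push_cast
  have h1 := star_mul_self_eq (w true)
  have h2 := star_mul_self_eq (w false)
  push_cast at h1 h2
  rw [← h1, ← h2]; ring

theorem ip_zw' (ζ : Bool → ℝ) (w : Bool → ℂ) : ip (zw ζ w) w = (tau ζ w : ℂ) := by
  rw [← ip_star, ip_zw]; simp

theorem tens_smul (c : U → ℂ) (F : U → Matrix Bool Bool ℂ) :
    tens (fun q => c q • F q) = (∏ q, c q) • tens F := by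
  ext y z
  simp [tens, Finset.prod_mul_distrib]

/-- basis vector `|0⟩` -/
def e0 : Bool → ℂ := fun a => if a = false then 1 else 0

theorem nrm_e0 : nrm e0 = 1 := by
  simp [nrm, e0]

/-- replace the factors on `R` by `trace • |0⟩⟨0|` -/
noncomputable def red (R : U → Prop) [DecidablePred R] (F : U → Matrix Bool Bool ℂ) :
    U → Matrix Bool Bool ℂ :=
  fun q => if R q then (F q).trace • rk e0 e0 else F q

/-- the reduced conjugated signed operator -/
noncomputable def redSigma (R : U → Prop) [DecidablePred R] (ζ : U → Bool → ℝ)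
    (w : U → Bool → ℂ) : Matrix (U → Bool) (U → Bool) ℂ :=
  tens (red R fun q => dg (ζ q)) - (2 : ℂ) • tens (red R fun q => rk (w q) (w q) * dg (ζ q))
      - (2 : ℂ) • tens (red R fun q => dg (ζ q) * rk (w q) (w q))
      + (4 : ℂ) • tens (red R fun q => rk (w q) (w q) * dg (ζ q) * rk (w q) (w q))

/-- vectors of the decomposition -/
noncomputable def wv (R : U → Prop) [DecidablePred R] (w : U → Bool → ℂ) : U → Bool → ℂ :=
  fun q => if R q then e0 else w q

noncomputable def gv (R : U → Prop) [DecidablePred R] (ζ : U → Bool → ℝ) (w : U → Bool → ℂ) :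
    U → Bool → ℂ :=
  fun q => if R q then e0 else zw (ζ q) (w q)

noncomputable def alp (R : U → Prop) [DecidablePred R] (ζ : U → Bool → ℝ) (w : U → Bool → ℂ) : ℝ :=
  ∏ q, if R q then tau (ζ q) (w q) else 1

noncomputable def ome (R : U → Prop) [DecidablePred R] (ζ : U → Bool → ℝ) (w : U → Bool → ℂ) : ℝ :=
  ∏ q, if R q then 1 else tau (ζ q) (w q)

theorem redSigma_eq (R : U → Prop) [DecidablePred R] (ζ : U → Bool → ℝ) {w : U → Bool → ℂ}
    (hw : ∀ q, nrm (w q) = 1) (h0 : ∃ q, R q ∧ ζ q true + ζ q false = 0) :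
    redSigma R ζ w =
      rk ((-2 * (alp R ζ w : ℂ)) • pvec (wv R w))
          (pvec (gv R ζ w) - (ome R ζ w : ℂ) • pvec (wv R w))
      + rk (pvec (gv R ζ w) - (ome R ζ w : ℂ) • pvec (wv R w))
          ((-2 * (alp R ζ w : ℂ)) • pvec (wv R w)) := by
  have e1 : tens (red R fun q => dg (ζ q)) = 0 := by
    obtain ⟨q, hR, hq⟩ := h0
    ext y z
    simp only [tens, Matrix.zero_apply]
    refine Finset.prod_eq_zero (Finset.mem_univ q) ?_
    have : (dg (ζ q)).trace = 0 := by
      simp only [dg, Matrix.trace, Matrix.diag_apply, Matrix.diagonal_apply_eq, Fintype.sum_bool]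
      exact_mod_cast hq
    simp [red, hR, this]
  have e2 : tens (red R fun q => rk (w q) (w q) * dg (ζ q))
      = (alp R ζ w : ℂ) • rk (pvec (wv R w)) (pvec (gv R ζ w)) := by
    rw [← tens_rk]
    have : (alp R ζ w : ℂ) = ∏ q, ((if R q then tau (ζ q) (w q) else 1 : ℝ) : ℂ) := by
      rw [alp]; push_cast; rfl
    rw [this, ← tens_smul]
    congr 1
    funext q
    simp only [red, wv, gv]
    split_ifs with h
    · rw [rk_mul_dg, trace_rk, ip_zw']
    · rw [rk_mul_dg]; simp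
  have e3 : tens (red R fun q => dg (ζ q) * rk (w q) (w q))
      = (alp R ζ w : ℂ) • rk (pvec (gv R ζ w)) (pvec (wv R w)) := by
    rw [← tens_rk]
    have : (alp R ζ w : ℂ) = ∏ q, ((if R q then tau (ζ q) (w q) else 1 : ℝ) : ℂ) := by
      rw [alp]; push_cast; rfl
    rw [this, ← tens_smul]
    congr 1
    funext q
    simp only [red, wv, gv]
    split_ifs with h
    · rw [dg_mul_rk, trace_rk, ip_zw]
    · rw [dg_mul_rk]; simp
  have e4 : tens (red R fun q => rk (w q) (w q) * dg (ζ q) * rk (w q) (w q))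
      = ((alp R ζ w : ℂ) * (ome R ζ w : ℂ)) • rk (pvec (wv R w)) (pvec (wv R w)) := by
    rw [← tens_rk]
    have : (alp R ζ w : ℂ) * (ome R ζ w : ℂ) = ∏ q, (tau (ζ q) (w q) : ℂ) := by
      rw [alp, ome]
      push_cast
      rw [← Finset.prod_mul_distrib]
      refine Finset.prod_congr rfl fun q _ => ?_
      split_ifs <;> simp
    rw [this, ← tens_smul]
    congr 1
    funext q
    have e : rk (w q) (w q) * dg (ζ q) * rk (w q) (w q)
        = (tau (ζ q) (w q) : ℂ) • rk (w q) (w q) := by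
      rw [mul_assoc, dg_mul_rk, rk_mul_rk, ip_zw]
    simp only [red, wv, e]
    split_ifs with h
    · rw [Matrix.trace_smul, trace_rk, ip_unit (hw q)]; simp
    · rfl
  rw [redSigma, e1, e2, e3, e4]
  ext y z
  simp only [Matrix.add_apply, Matrix.sub_apply, Matrix.zero_apply, Matrix.smul_apply, rk,
    smul_eq_mul, Pi.sub_apply, Pi.smul_apply, star_sub, star_mul', star_neg]
  have s1 : star (alp R ζ w : ℂ) = (alp R ζ w : ℂ) := by simp
  have s2 : star (ome R ζ w : ℂ) = (ome R ζ w : ℂ) := by simp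
  have s3 : star (2 : ℂ) = 2 := by simp
  simp only [s1, s2, s3]
  ring

theorem nrm_wv (R : U → Prop) [DecidablePred R] {w : U → Bool → ℂ} (hw : ∀ q, nrm (w q) = 1) :
    nrm (pvec (wv R w)) = 1 := by
  rw [nrm_pvec]
  refine Finset.prod_eq_one fun q _ => ?_
  simp only [wv]
  split_ifs
  · exact nrm_e0
  · exact hw q

theorem nrm_hv_sq (R : U → Prop) [DecidablePred R] (ζ : U → Bool → ℝ) {w : U → Bool → ℂ}
    (hw : ∀ q, nrm (w q) = 1) :
    nrm (pvec (gv R ζ w) - (ome R ζ w : ℂ) • pvec (wv R w)) ^ 2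
      = nrm (pvec (gv R ζ w)) ^ 2 - ome R ζ w ^ 2 := by
  have hwg : ip (pvec (wv R w)) (pvec (gv R ζ w)) = (ome R ζ w : ℂ) := by
    rw [ip_pvec, ome]
    push_cast
    refine Finset.prod_congr rfl fun q _ => ?_
    simp only [wv, gv]
    split_ifs
    · rw [ip_unit nrm_e0]; simp
    · rw [ip_zw]
  have hgw : ip (pvec (gv R ζ w)) (pvec (wv R w)) = (ome R ζ w : ℂ) := by
    rw [← ip_star, hwg]; simp
  have hww := ip_unit (nrm_wv R hw)
  have hgg := ip_self (pvec (gv R ζ w))
  have key : ip (pvec (gv R ζ w) - (ome R ζ w : ℂ) • pvec (wv R w))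
      (pvec (gv R ζ w) - (ome R ζ w : ℂ) • pvec (wv R w))
      = ((nrm (pvec (gv R ζ w)) ^ 2 - ome R ζ w ^ 2 : ℝ) : ℂ) := by
    have expand : ∀ (g v : (U → Bool) → ℂ) (o : ℝ), ip (g - (o : ℂ) • v) (g - (o : ℂ) • v)
        = ip g g - o * ip g v - o * ip v g + o * o * ip v v := by
      intro g v o
      simp only [ip, Pi.sub_apply, Pi.smul_apply, smul_eq_mul, star_sub, star_mul',
        Finset.mul_sum, ← Finset.sum_sub_distrib, ← Finset.sum_add_distrib]
      refine Finset.sum_congr rfl fun i _ => ?_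
      have : star (o : ℂ) = (o : ℂ) := by simp
      rw [this]; ring
    rw [expand, hgg, hgw, hwg, hww]
    push_cast
    ring
  rw [ip_self] at key
  exact_mod_cast key

theorem nuc_redSigma (R : U → Prop) [DecidablePred R] (ζ : U → Bool → ℝ) {w : U → Bool → ℂ}
    (hw : ∀ q, nrm (w q) = 1) (h0 : ∃ q, R q ∧ ζ q true + ζ q false = 0) :
    NucLe (redSigma R ζ w)
      (4 * |alp R ζ w| * Real.sqrt (nrm (pvec (gv R ζ w)) ^ 2 - ome R ζ w ^ 2)) := by
  have hn : nrm (pvec (gv R ζ w) - (ome R ζ w : ℂ) • pvec (wv R w))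
      = Real.sqrt (nrm (pvec (gv R ζ w)) ^ 2 - ome R ζ w ^ 2) := by
    rw [← nrm_hv_sq R ζ hw, Real.sqrt_sq (nrm_nonneg _)]
  refine ⟨Bool, inferInstance,
    fun k => if k then (-2 * (alp R ζ w : ℂ)) • pvec (wv R w)
      else pvec (gv R ζ w) - (ome R ζ w : ℂ) • pvec (wv R w),
    fun k => if k then pvec (gv R ζ w) - (ome R ζ w : ℂ) • pvec (wv R w)
      else (-2 * (alp R ζ w : ℂ)) • pvec (wv R w), ?_, ?_⟩
  · rw [redSigma_eq R ζ hw h0, Fintype.sum_bool]
    simp
  · rw [Fintype.sum_bool]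
    simp only [if_true, Bool.false_eq_true, if_false]
    rw [hn, nrm_smul, nrm_wv R hw]
    have : ‖(-2 * (alp R ζ w : ℂ))‖ = 2 * |alp R ζ w| := by
      rw [norm_mul, Complex.norm_real]; simp
    rw [this]
    apply le_of_eq
    ring

end Block

end Vale.Agent.H29.QAC
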