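import Vale.Agent.H29.QAC.Tens

set_option linter.unusedSectionVars false

namespace Vale.Agent.H29.QAC

open Matrix Finset

section Bten

variable {V β : Type} [Fintype V] [DecidableEq V] [Fintype β] [DecidableEq β]

/-- the qubits of block `b` -/
abbrev Fib (blk : V → β) (b : β) : Type := {q : V // blk q = b}

/-- block product operator -/
def bten (blk : V → β) (M : ∀ b, Matrix (Fib blk b → Bool) (Fib blk b → Bool) ℂ) :
    Matrix (V → Bool) (V → Bool) ℂ :=
  fun y z => ∏ b, M b (fun q => y q.1) (fun q => z q.1)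

/-- block product vector -/
def bvec (blk : V → β) (a : ∀ b, (Fib blk b → Bool) → ℂ) : (V → Bool) → ℂ :=
  fun y => ∏ b, a b (fun q => y q.1)

/-- splitting of a configuration into its block configurations -/
def split (blk : V → β) : (V → Bool) ≃ (∀ b, Fib blk b → Bool) where
  toFun w b q := w q.1
  invFun u q := u (blk q) ⟨q, rfl⟩
  left_inv w := rfl
  right_inv u := by
    funext b q
    obtain ⟨q, rfl⟩ := q
    rfl

theorem sum_prod_fib (blk : V → β) {R : Type} [CommRing R] (g : ∀ b, (Fib blk b → Bool) → R) :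
    ∑ w : V → Bool, ∏ b, g b (fun q => w q.1) = ∏ b, ∑ u, g b u := by
  rw [← sum_prod_fun (V := β) g]
  exact Fintype.sum_equiv (split blk) _ _ (fun w => rfl)

theorem prod_fib (blk : V → β) {R : Type} [CommRing R] (f : V → R) :
    ∏ q, f q = ∏ b, ∏ q : Fib blk b, f q.1 := by
  rw [← Finset.prod_fiberwise Finset.univ blk f]
  refine Finset.prod_congr rfl fun b _ => ?_
  rw [Finset.prod_subtype (Finset.univ.filter fun q => blk q = b) (p := fun q => blk q = b)]
  intro q
  simp

theorem sum_fib (blk : V → β) {R : Type} [AddCommMonoid R] (f : V → R) :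
    ∑ q, f q = ∑ b, ∑ q : Fib blk b, f q.1 := by
  rw [← Finset.sum_fiberwise Finset.univ blk f]
  refine Finset.sum_congr rfl fun b _ => ?_
  rw [Finset.sum_subtype (Finset.univ.filter fun q => blk q = b) (p := fun q => blk q = b)]
  intro q
  simp

theorem tens_eq_bten (blk : V → β) (F : V → Matrix Bool Bool ℂ) :
    tens F = bten blk (fun b => tens (fun q : Fib blk b => F q.1)) := by
  ext y z
  simp only [tens, bten]
  exact prod_fib blk (fun q => F q (y q) (z q))

theorem bten_mul (blk : V → β) (M N : ∀ b, Matrix (Fib blk b → Bool) (Fib blk b → Bool) ℂ) :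
    bten blk M * bten blk N = bten blk (fun b => M b * N b) := by
  ext y z
  simp only [bten, Matrix.mul_apply, ← Finset.prod_mul_distrib]
  exact sum_prod_fib blk (fun b u => M b (fun q => y q.1) u * N b u (fun q => z q.1))

theorem bten_one (blk : V → β) : bten blk (fun _ => 1) = 1 := by
  rw [← tens_one, tens_eq_bten blk]
  congr 1
  funext b
  rw [← tens_one]

theorem trace_bten (blk : V → β) (M : ∀ b, Matrix (Fib blk b → Bool) (Fib blk b → Bool) ℂ) :
    (bten blk M).trace = ∏ b, (M b).trace := by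
  simp only [Matrix.trace, bten, Matrix.diag_apply]
  exact sum_prod_fib blk (fun b u => M b u u)

theorem bten_conjTranspose (blk : V → β)
    (M : ∀ b, Matrix (Fib blk b → Bool) (Fib blk b → Bool) ℂ) :
    (bten blk M)ᴴ = bten blk (fun b => (M b)ᴴ) := by
  ext y z
  simp [bten, Matrix.conjTranspose_apply]

theorem bten_rk (blk : V → β) (a b : ∀ c, (Fib blk c → Bool) → ℂ) :
    bten blk (fun c => rk (a c) (b c)) = rk (bvec blk a) (bvec blk b) := by
  ext y z
  simp [bten, rk, bvec, Finset.prod_mul_distrib]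

theorem ip_bvec (blk : V → β) (a b : ∀ c, (Fib blk c → Bool) → ℂ) :
    ip (bvec blk a) (bvec blk b) = ∏ c, ip (a c) (b c) := by
  simp only [ip, bvec, star_prod, ← Finset.prod_mul_distrib]
  exact sum_prod_fib blk (fun c u => star (a c u) * b c u)

theorem nrm_bvec (blk : V → β) (a : ∀ c, (Fib blk c → Bool) → ℂ) :
    nrm (bvec blk a) = ∏ c, nrm (a c) := by
  have h := ip_bvec blk a a
  rw [ip_self] at h
  simp only [ip_self] at h
  have h2 : nrm (bvec blk a) ^ 2 = (∏ c, nrm (a c)) ^ 2 := by
    rw [← Finset.prod_pow]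
    exact_mod_cast h
  exact (sq_eq_sq₀ (nrm_nonneg _) (Finset.prod_nonneg fun c _ => nrm_nonneg _)).mp h2

theorem nrm_pvec (a : V → Bool → ℂ) : nrm (pvec a) = ∏ q, nrm (a q) := by
  have h := ip_pvec a a
  rw [ip_self] at h
  simp only [ip_self] at h
  have h2 : nrm (pvec a) ^ 2 = (∏ c, nrm (a c)) ^ 2 := by
    rw [← Finset.prod_pow]
    exact_mod_cast h
  exact (sq_eq_sq₀ (nrm_nonneg _) (Finset.prod_nonneg fun c _ => nrm_nonneg _)).mp h2

theorem bten_sum (blk : V → β) {κ : β → Type} [∀ b, Fintype (κ b)]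
    (M : ∀ b, κ b → Matrix (Fib blk b → Bool) (Fib blk b → Bool) ℂ) :
    bten blk (fun b => ∑ k, M b k) = ∑ f : (∀ b, κ b), bten blk (fun b => M b (f b)) := by
  ext y z
  simp only [bten, Matrix.sum_apply]
  exact (sum_prod_fun (V := β) (fun b k => M b k (fun q => y q.1) (fun q => z q.1))).symm

theorem nuc_bten (blk : V → β) {σ : ∀ b, Matrix (Fib blk b → Bool) (Fib blk b → Bool) ℂ}
    {r : β → ℝ} (h : ∀ b, NucLe (σ b) (r b)) : NucLe (bten blk σ) (∏ b, r b) := by
  choose κ hκ a c h1 h2 using h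
  refine ⟨∀ b, κ b, inferInstance, fun f => bvec blk (fun b => a b (f b)),
    fun f => bvec blk (fun b => c b (f b)), ?_, ?_⟩
  · have : σ = fun b => ∑ k, rk (a b k) (c b k) := funext h1
    rw [this, bten_sum]
    exact Finset.sum_congr rfl fun f _ => bten_rk blk _ _
  · simp only [nrm_bvec, ← Finset.prod_mul_distrib]
    rw [sum_prod_fun (V := β) (fun b k => nrm (a b k) * nrm (c b k))]
    exact Finset.prod_le_prod
      (fun b _ => Finset.sum_nonneg fun k _ => mul_nonneg (nrm_nonneg _) (nrm_nonneg _))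
      (fun b _ => h2 b)

end Bten

end Vale.Agent.H29.QAC
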