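import Mathlib

set_option linter.unusedSectionVars false
set_option linter.unusedSimpArgs false

namespace Vale.Agent.H29.QAC

open Finset

/-- Chebyshev polynomials as functions -/
noncomputable def ch : ℕ → ℝ → ℝ
  | 0, _ => 1
  | 1, x => x
  | (n + 2), x => 2 * x * ch (n + 1) x - ch n x

theorem ch_cos (θ : ℝ) : ∀ n : ℕ, ch n (Real.cos θ) = Real.cos (n * θ)
  | 0 => by simp [ch]
  | 1 => by simp [ch]
  | (n + 2) => by
    rw [ch, ch_cos θ (n + 1), ch_cos θ n]
    have h1 : ((n + 2 : ℕ) : ℝ) * θ = ((n + 1 : ℕ) : ℝ) * θ + θ := by push_cast; ring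
    have h2 : (n : ℝ) * θ = ((n + 1 : ℕ) : ℝ) * θ - θ := by push_cast; ring
    rw [h1, h2, Real.cos_add, Real.cos_sub]
    ring

theorem ch_cosh (θ : ℝ) : ∀ n : ℕ, ch n (Real.cosh θ) = Real.cosh (n * θ)
  | 0 => by simp [ch]
  | 1 => by simp [ch]
  | (n + 2) => by
    rw [ch, ch_cosh θ (n + 1), ch_cosh θ n]
    have h1 : ((n + 2 : ℕ) : ℝ) * θ = ((n + 1 : ℕ) : ℝ) * θ + θ := by push_cast; ring
    have h2 : (n : ℝ) * θ = ((n + 1 : ℕ) : ℝ) * θ - θ := by push_cast; ring
    rw [h1, h2, Real.cosh_add, Real.cosh_sub]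
    ring

theorem abs_ch_le {x : ℝ} (h1 : -1 ≤ x) (h2 : x ≤ 1) (n : ℕ) : |ch n x| ≤ 1 := by
  rw [← Real.cos_arccos h1 h2, ch_cos]
  exact Real.abs_cos_le_one _

section Comb

variable {Ω : Type} [Fintype Ω] {G : ℕ}

/-- restricted moment -/
noncomputable def am (E : Fin G → Ω → Prop) [∀ g ω, Decidable (E g ω)] (ψ : Ω → ℂ) (x0 : ℝ)
    (j : ℕ) (S : Finset (Fin G)) : ℂ :=
  ∑ ω, if (∀ g ∈ S, ¬ E g ω) then
    ((ch j (x0 - 2 * ((univ.filter fun g => E g ω).card : ℝ) / G) : ℝ) : ℂ) * ψ ω else 0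

theorem am_rec (E : Fin G → Ω → Prop) [∀ g ω, Decidable (E g ω)] (ψ : Ω → ℂ) (x0 : ℝ)
    (j : ℕ) (S : Finset (Fin G)) :
    am E ψ x0 (j + 2) S = 2 * (x0 : ℂ) * am E ψ x0 (j + 1) S
      - 4 / G * ∑ g, (am E ψ x0 (j + 1) S - am E ψ x0 (j + 1) (insert g S))
      - am E ψ x0 j S := by
  have key : ∀ (f : Ω → ℂ), ∑ g : Fin G, ((∑ ω, if (∀ g ∈ S, ¬ E g ω) then f ω else 0)
      - (∑ ω, if (∀ g' ∈ insert g S, ¬ E g' ω) then f ω else 0))
      = ∑ ω, if (∀ g ∈ S, ¬ E g ω) then ((univ.filter fun g => E g ω).card : ℂ) * f ω else 0 := by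
    intro f
    simp only [← Finset.sum_sub_distrib]
    rw [Finset.sum_comm]
    refine Finset.sum_congr rfl fun ω _ => ?_
    by_cases h : ∀ g ∈ S, ¬ E g ω
    · have : ∀ g : Fin G, ((if (∀ g ∈ S, ¬ E g ω) then f ω else 0)
          - if (∀ g' ∈ insert g S, ¬ E g' ω) then f ω else 0)
          = if E g ω then f ω else 0 := by
        intro g
        rw [if_pos h]
        by_cases hg : E g ω
        · have : ¬ (∀ g' ∈ insert g S, ¬ E g' ω) := fun h' =>
            h' g (Finset.mem_insert_self _ _) hg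
          simp [this, hg]
        · have : (∀ g' ∈ insert g S, ¬ E g' ω) := by
            intro g' hg'
            rcases Finset.mem_insert.mp hg' with rfl | h2
            · exact hg
            · exact h g' h2
          rw [if_pos this, if_neg hg, sub_self]
      rw [Finset.sum_congr rfl (fun g _ => this g), ← Finset.sum_filter, Finset.sum_const,
        nsmul_eq_mul, if_pos h]
    · have h' : ∀ g : Fin G, ¬ (∀ g' ∈ insert g S, ¬ E g' ω) := by
        intro g hg
        exact h fun g' h2 => hg g' (Finset.mem_insert_of_mem h2)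
      simp [h, h']
  have k2 := key (fun ω => ((ch (j + 1) (x0 - 2 * ((univ.filter fun g => E g ω).card : ℝ) / G) : ℝ) : ℂ) * ψ ω)
  simp only [am] at *
  rw [k2, Finset.mul_sum, Finset.mul_sum, ← Finset.sum_sub_distrib, ← Finset.sum_sub_distrib]
  refine Finset.sum_congr rfl fun ω _ => ?_
  split_ifs with h
  · rw [ch]; push_cast; ring
  · simp

theorem am_one (E : Fin G → Ω → Prop) [∀ g ω, Decidable (E g ω)] (ψ : Ω → ℂ) (x0 : ℝ)
    (S : Finset (Fin G)) :
    am E ψ x0 1 S = (x0 : ℂ) * am E ψ x0 0 S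
      - 2 / G * ∑ g, (am E ψ x0 0 S - am E ψ x0 0 (insert g S)) := by
  have key : ∀ (f : Ω → ℂ), ∑ g : Fin G, ((∑ ω, if (∀ g ∈ S, ¬ E g ω) then f ω else 0)
      - (∑ ω, if (∀ g' ∈ insert g S, ¬ E g' ω) then f ω else 0))
      = ∑ ω, if (∀ g ∈ S, ¬ E g ω) then ((univ.filter fun g => E g ω).card : ℂ) * f ω else 0 := by
    intro f
    simp only [← Finset.sum_sub_distrib]
    rw [Finset.sum_comm]
    refine Finset.sum_congr rfl fun ω _ => ?_
    by_cases h : ∀ g ∈ S, ¬ E g ω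
    · have : ∀ g : Fin G, ((if (∀ g ∈ S, ¬ E g ω) then f ω else 0)
          - if (∀ g' ∈ insert g S, ¬ E g' ω) then f ω else 0)
          = if E g ω then f ω else 0 := by
        intro g
        rw [if_pos h]
        by_cases hg : E g ω
        · have : ¬ (∀ g' ∈ insert g S, ¬ E g' ω) := fun h' =>
            h' g (Finset.mem_insert_self _ _) hg
          simp [this, hg]
        · have : (∀ g' ∈ insert g S, ¬ E g' ω) := by
            intro g' hg'
            rcases Finset.mem_insert.mp hg' with rfl | h2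
            · exact hg
            · exact h g' h2
          rw [if_pos this, if_neg hg, sub_self]
      rw [Finset.sum_congr rfl (fun g _ => this g), ← Finset.sum_filter, Finset.sum_const,
        nsmul_eq_mul, if_pos h]
    · have h' : ∀ g : Fin G, ¬ (∀ g' ∈ insert g S, ¬ E g' ω) := by
        intro g hg
        exact h fun g' h2 => hg g' (Finset.mem_insert_of_mem h2)
      simp [h, h']
  have k2 := key (fun ω => ((ch 0 (x0 - 2 * ((univ.filter fun g => E g ω).card : ℝ) / G) : ℝ) : ℂ) * ψ ω)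
  simp only [am] at *
  rw [k2, Finset.mul_sum, Finset.mul_sum, ← Finset.sum_sub_distrib]
  refine Finset.sum_congr rfl fun ω _ => ?_
  split_ifs with h
  · simp only [ch]; push_cast; ring
  · simp

theorem am_bound (hG : 0 < G) (E : Fin G → Ω → Prop) [∀ g ω, Decidable (E g ω)] (ψ : Ω → ℂ)
    {x0 τ : ℝ} (hx0 : 0 ≤ x0) (hx2 : x0 ≤ 2) (hτ : 0 ≤ τ) (k : ℕ)
    (h : ∀ S : Finset (Fin G), S.card ≤ k →
      ‖∑ ω, if (∀ g ∈ S, ¬ E g ω) then ψ ω else 0‖ ≤ τ) :
    ∀ j : ℕ, (∀ S : Finset (Fin G), S.card + j ≤ k → ‖am E ψ x0 j S‖ ≤ 13 ^ j * τ) ∧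
      (∀ S : Finset (Fin G), S.card + (j + 1) ≤ k → ‖am E ψ x0 (j + 1) S‖ ≤ 13 ^ (j + 1) * τ) := by
  have hGr : (0 : ℝ) < G := by exact_mod_cast hG
  have hsum : ∀ (c b : ℝ) (a : Finset (Fin G) → ℂ) (S : Finset (Fin G)), 0 ≤ c → 0 ≤ b →
      (∀ S' : Finset (Fin G), S'.card ≤ S.card + 1 → ‖a S'‖ ≤ b) →
      ‖(c / G : ℂ) * ∑ g, (a S - a (insert g S))‖ ≤ c * (2 * b) := by
    intro c b a S hc hb ha
    have h1 : ‖∑ g : Fin G, (a S - a (insert g S))‖ ≤ G * (2 * b) := by
      refine (norm_sum_le _ _).trans ?_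
      have : ∀ g ∈ (univ : Finset (Fin G)), ‖a S - a (insert g S)‖ ≤ 2 * b := by
        intro g _
        refine (norm_sub_le _ _).trans ?_
        have h1 := ha S (by omega)
        have h2 := ha (insert g S) (Finset.card_insert_le _ _)
        linarith
      refine (Finset.sum_le_card_nsmul _ _ _ this).trans ?_
      simp [nsmul_eq_mul]
    rw [norm_mul, norm_div]
    simp only [Complex.norm_real, Complex.norm_natCast, Real.norm_eq_abs, abs_of_nonneg hc]
    calc c / G * ‖∑ g : Fin G, (a S - a (insert g S))‖ ≤ c / G * (G * (2 * b)) :=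
          mul_le_mul_of_nonneg_left h1 (by positivity)
      _ = c * (2 * b) := by field_simp
  have h0 : ∀ S : Finset (Fin G), S.card ≤ k → ‖am E ψ x0 0 S‖ ≤ τ := by
    intro S hS
    have := h S hS
    simpa [am, ch] using this
  intro j
  induction j with
  | zero =>
    refine ⟨fun S hS => by simpa using h0 S (by omega), fun S hS => ?_⟩
    rw [am_one]
    have h1 := hsum 2 τ (fun S' => if S'.card ≤ k then am E ψ x0 0 S' else 0) S (by norm_num) hτ
      (fun S' hS' => by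
        have : S'.card ≤ k := by omega
        simp only [this, if_true]; exact h0 S' this)
    have e1 : S.card ≤ k := by omega
    have e2 : ∀ g, (insert g S).card ≤ k := fun g => (Finset.card_insert_le _ _).trans (by omega)
    simp only [e1, e2, if_true] at h1
    have h2 : ‖(x0 : ℂ) * am E ψ x0 0 S‖ ≤ 2 * τ := by
      rw [norm_mul, Complex.norm_real, Real.norm_eq_abs, abs_of_nonneg hx0]
      exact mul_le_mul hx2 (h0 S e1) (norm_nonneg _) (by norm_num)
    refine (norm_sub_le _ _).trans ?_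
    push_cast at h1
    linarith
  | succ j ih =>
    refine ⟨ih.2, fun S hS => ?_⟩
    rw [am_rec]
    have hb : (0 : ℝ) ≤ 13 ^ (j + 1) * τ := by positivity
    have h1 := hsum 4 (13 ^ (j + 1) * τ)
      (fun S' => if S'.card + (j + 1) ≤ k then am E ψ x0 (j + 1) S' else 0) S (by norm_num) hb
      (fun S' hS' => by
        have : S'.card + (j + 1) ≤ k := by omega
        simp only [this, if_true]; exact ih.2 S' this)
    have e1 : S.card + (j + 1) ≤ k := by omega
    have e2 : ∀ g, (insert g S).card + (j + 1) ≤ k := fun g => by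
      have := Finset.card_insert_le g S
      omega
    simp only [e1, e2, if_true] at h1
    have h2 : ‖2 * (x0 : ℂ) * am E ψ x0 (j + 1) S‖ ≤ 4 * (13 ^ (j + 1) * τ) := by
      rw [norm_mul, norm_mul, Complex.norm_real, Real.norm_eq_abs, abs_of_nonneg hx0]
      have := ih.2 S e1
      have h3 : ‖(2 : ℂ)‖ * x0 ≤ 4 := by simp; linarith
      exact mul_le_mul h3 this (norm_nonneg _) (by norm_num)
    have h3 := ih.1 S (by omega)
    have h4 : ‖2 * (x0 : ℂ) * am E ψ x0 (j + 1) S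
      - 4 / G * ∑ g, (am E ψ x0 (j + 1) S - am E ψ x0 (j + 1) (insert g S))
      - am E ψ x0 j S‖ ≤ 4 * (13 ^ (j + 1) * τ) + 4 * (2 * (13 ^ (j + 1) * τ)) + 13 ^ j * τ := by
      refine (norm_sub_le _ _).trans (add_le_add ((norm_sub_le _ _).trans (add_le_add h2 ?_)) h3)
      push_cast at h1
      exact h1
    refine h4.trans ?_
    have h13 : (13 : ℝ) ^ (j + 1 + 1) = 13 * 13 ^ (j + 1) := by ring
    have h13' : (13 : ℝ) ^ (j + 1) = 13 * 13 ^ j := by ring
    have hj : (0 : ℝ) ≤ 13 ^ j * τ := by positivity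
    rw [h13, h13']
    nlinarith

theorem comb_main (hG : 0 < G) (E : Fin G → Ω → Prop) [∀ g ω, Decidable (E g ω)] (ψ : Ω → ℂ)
    (ω0 : Ω) (h00 : ∀ g, ¬ E g ω0) (hne : ∀ ω, ω ≠ ω0 → ∃ g, E g ω)
    {τ : ℝ} (hτ : 0 ≤ τ) (k : ℕ) (hψ : ∑ ω, ‖ψ ω‖ ≤ 1)
    (h : ∀ S : Finset (Fin G), S.card ≤ k →
      ‖∑ ω, if (∀ g ∈ S, ¬ E g ω) then ψ ω else 0‖ ≤ τ) :
    ‖ψ ω0‖ * Real.cosh (k / Real.sqrt G) ≤ 13 ^ k * τ + 1 := by
  classical
  have hGr : (1 : ℝ) ≤ G := by exact_mod_cast hG
  set x0 := Real.cosh (1 / Real.sqrt G) with hx0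
  have hs : (1 / Real.sqrt G) ^ 2 = 1 / G := by
    rw [div_pow, Real.sq_sqrt (by linarith)]; norm_num
  have hx_le : x0 ≤ 1 + 1 / G := by
    have h1 : x0 ≤ Real.exp ((1 / Real.sqrt G) ^ 2 / 2) := Real.cosh_le_exp_half_sq _
    rw [hs] at h1
    have h2 : Real.exp (1 / G / 2) ≤ 1 + 1 / G := by
      have h3 : (1 / (G : ℝ) / 2) ≤ 1 := by
        have : 1 / (G : ℝ) ≤ 1 := by rw [div_le_one (by linarith)]; exact hGr
        linarith
      have h4 : |1 / (G : ℝ) / 2| ≤ 1 := by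
        rw [abs_of_nonneg (by positivity)]; exact h3
      have h5 := Real.abs_exp_sub_one_le h4
      rw [abs_of_nonneg (a := 1 / (G : ℝ) / 2) (by positivity)] at h5
      have h6 := le_abs_self (Real.exp (1 / (G : ℝ) / 2) - 1)
      linarith
    exact h1.trans h2
  have hx1 : 1 ≤ x0 := Real.one_le_cosh _
  have hinv : 1 / (G : ℝ) ≤ 1 := by rw [div_le_one (by linarith)]; exact hGr
  have hb := (am_bound hG E ψ (x0 := x0) (τ := τ) (by linarith) (by linarith) hτ k h k).1 ∅
    (by simp)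
  have e : am E ψ x0 k ∅ = ((Real.cosh (k / Real.sqrt G) : ℝ) : ℂ) * ψ ω0
      + ∑ ω ∈ univ.erase ω0,
        ((ch k (x0 - 2 * ((univ.filter fun g => E g ω).card : ℝ) / G) : ℝ) : ℂ) * ψ ω := by
    rw [am, ← Finset.add_sum_erase _ _ (Finset.mem_univ ω0)]
    congr 1
    · have : (univ.filter fun g => E g ω0) = ∅ := by
        ext g; simp [h00 g]
      simp only [this, Finset.card_empty]
      simp only [Finset.notMem_empty, false_imp_iff, implies_true, if_true]
      congr 2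
      rw [hx0]
      norm_num
      rw [show Real.cosh (Real.sqrt (G : ℝ))⁻¹ = Real.cosh (1 / Real.sqrt G) by rw [one_div],
        ch_cosh]
      congr 1
      ring
    · refine Finset.sum_congr rfl fun ω _ => ?_
      simp
  have hrest : ‖∑ ω ∈ univ.erase ω0,
        ((ch k (x0 - 2 * ((univ.filter fun g => E g ω).card : ℝ) / G) : ℝ) : ℂ) * ψ ω‖ ≤ 1 := by
    refine (norm_sum_le _ _).trans (le_trans ?_ hψ)
    refine le_trans (Finset.sum_le_sum (g := fun ω => ‖ψ ω‖) fun ω hω => ?_)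
      (Finset.sum_le_sum_of_subset_of_nonneg (Finset.erase_subset _ _) fun _ _ _ => norm_nonneg _)
    rw [norm_mul, Complex.norm_real, Real.norm_eq_abs]
    have hcard : 1 ≤ (univ.filter fun g => E g ω).card := by
      obtain ⟨g, hg⟩ := hne ω (Finset.ne_of_mem_erase hω)
      exact Finset.card_pos.mpr ⟨g, by simp [hg]⟩
    have hcard2 : (univ.filter fun g => E g ω).card ≤ G := by
      refine (Finset.card_le_univ _).trans ?_
      simp
    have c1 : (1 : ℝ) ≤ ((univ.filter fun g => E g ω).card : ℝ) := by exact_mod_cast hcard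
    have c2 : ((univ.filter fun g => E g ω).card : ℝ) ≤ G := by exact_mod_cast hcard2
    have d1 : 2 / (G : ℝ) ≤ 2 * ((univ.filter fun g => E g ω).card : ℝ) / G := by
      apply div_le_div_of_nonneg_right _ (by linarith)
      linarith
    have d2 : 2 * ((univ.filter fun g => E g ω).card : ℝ) / G ≤ 2 := by
      rw [div_le_iff₀ (by linarith)]
      linarith
    have d3 : 2 / (G : ℝ) = 1 / G + 1 / G := by ring
    have hpos : 0 < 1 / (G : ℝ) := by positivity
    have := abs_ch_le (x := x0 - 2 * ((univ.filter fun g => E g ω).card : ℝ) / G)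
      (by linarith) (by linarith) k
    exact mul_le_of_le_one_left (norm_nonneg _) this
  have e2 : ((Real.cosh (k / Real.sqrt G) : ℝ) : ℂ) * ψ ω0 = am E ψ x0 k ∅
      - ∑ ω ∈ univ.erase ω0,
        ((ch k (x0 - 2 * ((univ.filter fun g => E g ω).card : ℝ) / G) : ℝ) : ℂ) * ψ ω := by
    rw [e]; ring
  have e3 : ‖((Real.cosh (k / Real.sqrt G) : ℝ) : ℂ) * ψ ω0‖
      = ‖ψ ω0‖ * Real.cosh (k / Real.sqrt G) := by
    rw [norm_mul, Complex.norm_real, Real.norm_eq_abs, abs_of_pos (Real.cosh_pos _), mul_comm]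
  rw [← e3, e2]
  exact (norm_sub_le _ _).trans (add_le_add hb hrest)

end Comb

end Vale.Agent.H29.QAC
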