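import Vale.Agent.H29.QAC.ThreeLayer
import Vale.Agent.H29.QACDefs.Defs

set_option linter.unusedSectionVars false
set_option linter.unusedSimpArgs false

namespace Vale.Agent.H29.QAC

open Matrix Finset Vale.Agent.H29.QACDefs

section NF

variable {V : Type} [Fintype V] [DecidableEq V]

/-- product of `d` reflection layers -/
inductive RL : ℕ → Matrix (V → Bool) (V → Bool) ℂ → Prop
  | zero : RL 0 1
  | succ {d : ℕ} {M : Matrix (V → Bool) (V → Bool) ℂ} (h : RL d M) (u : V → Bool → ℂ)
      (hu : ∀ q, nrm (u q) = 1) (l : List (Finset V)) (hl : Good l) : RL (d + 1) (LP u l * M)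

theorem Good.nil : Good ([] : List (Finset V)) := ⟨by simp, List.Pairwise.nil⟩

theorem RL.pad {d : ℕ} {M : Matrix (V → Bool) (V → Bool) ℂ} (h : RL d M) : RL (d + 1) M := by
  have := RL.succ h (fun _ => e0) (fun _ => nrm_e0) [] Good.nil
  rwa [LP_nil, Matrix.one_mul] at this

theorem RL.pad_le {d e : ℕ} {M : Matrix (V → Bool) (V → Bool) ℂ} (h : RL d M) (hde : d ≤ e) :
    RL e M := by
  induction hde with
  | refl => exact h
  | step _ ih => exact ih.pad

/-- local unitaries times reflection layers -/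
def NF (d : ℕ) (M : Matrix (V → Bool) (V → Bool) ℂ) : Prop :=
  ∃ a : V → Matrix Bool Bool ℂ, (∀ q, (a q)ᴴ * a q = 1) ∧ ∃ R, RL d R ∧ M = tens a * R

theorem LP_congr {u v : V → Bool → ℂ} (l : List (Finset V))
    (h : ∀ D ∈ l, ∀ q ∈ D, u q = v q) : LP u l = LP v l := by
  unfold LP
  congr 1
  apply List.map_congr_left
  intro D hD
  rw [Rf, Rf, Pt, Pt]
  congr 3
  funext q
  simp only [Om]
  split_ifs with hq
  · rw [h D hD q hq]
  · rfl

theorem unit_mul_self {a : Matrix Bool Bool ℂ} (h : aᴴ * a = 1) : a * aᴴ = 1 :=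
  mul_eq_one_comm.mp h

theorem rk_conj {ι : Type} [Fintype ι] (a : Matrix ι ι ℂ) (v w : ι → ℂ) :
    a * rk v w = rk (a *ᵥ v) w := by
  ext i j
  simp only [Matrix.mul_apply, rk, Matrix.mulVec, dotProduct, Finset.sum_mul]
  exact Finset.sum_congr rfl fun k _ => by ring

theorem rk_conj' {ι : Type} [Fintype ι] (a : Matrix ι ι ℂ) (v w : ι → ℂ) :
    rk v w * a = rk v (aᴴ *ᵥ w) := by
  ext i j
  simp only [Matrix.mul_apply, rk, Matrix.mulVec, dotProduct, Matrix.conjTranspose_apply,
    star_sum, star_mul', star_star, Finset.mul_sum]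
  exact Finset.sum_congr rfl fun k _ => by ring

theorem Rf_tens {a : V → Matrix Bool Bool ℂ} (ha : ∀ q, (a q)ᴴ * a q = 1)
    (v : V → Bool → ℂ) (D : Finset V) :
    Rf v D * tens a = tens a * Rf (fun q => (a q)ᴴ *ᵥ v q) D := by
  have h : Pt v D * tens a = tens a * Pt (fun q => (a q)ᴴ *ᵥ v q) D := by
    rw [Pt, Pt, tens_mul, tens_mul]
    congr 1; funext q
    simp only [Om]
    split_ifs with hq
    · rw [rk_conj', rk_conj, Matrix.mulVec_mulVec, unit_mul_self (ha q), Matrix.one_mulVec]
    · simp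
  simp only [Rf, sub_mul, mul_sub, one_mul, mul_one, smul_mul_assoc, mul_smul_comm, h]

theorem LP_tens {a : V → Matrix Bool Bool ℂ} (ha : ∀ q, (a q)ᴴ * a q = 1)
    (v : V → Bool → ℂ) (l : List (Finset V)) :
    LP v l * tens a = tens a * LP (fun q => (a q)ᴴ *ᵥ v q) l := by
  induction l with
  | nil => simp [LP_nil]
  | cons D l ih =>
    rw [LP_cons, LP_cons, Matrix.mul_assoc, ih, ← Matrix.mul_assoc, Rf_tens ha, Matrix.mul_assoc]

theorem nrm_conj_mulVec {a : Matrix Bool Bool ℂ} (ha : aᴴ * a = 1) {v : Bool → ℂ}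
    (hv : nrm v = 1) : nrm (aᴴ *ᵥ v) = 1 := by
  rw [nrm_of_unitary (by rw [conjTranspose_conjTranspose]; exact unit_mul_self ha), hv]

theorem mul_unit {a b : Matrix Bool Bool ℂ} (ha : aᴴ * a = 1) (hb : bᴴ * b = 1) :
    (a * b)ᴴ * (a * b) = 1 := by
  rw [Matrix.conjTranspose_mul, Matrix.mul_assoc, ← Matrix.mul_assoc aᴴ, ha, Matrix.one_mul, hb]

theorem NF.tens_mul_left {d : ℕ} {M : Matrix (V → Bool) (V → Bool) ℂ} (h : NF d M)
    {b : V → Matrix Bool Bool ℂ} (hb : ∀ q, (b q)ᴴ * b q = 1) : NF d (tens b * M) := by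
  obtain ⟨a, ha, R, hR, rfl⟩ := h
  refine ⟨fun q => b q * a q, fun q => mul_unit (hb q) (ha q), R, hR, ?_⟩
  rw [← Matrix.mul_assoc, tens_mul]

theorem NF.LP_mul_left {d : ℕ} {M : Matrix (V → Bool) (V → Bool) ℂ} (h : NF d M)
    {v : V → Bool → ℂ} (hv : ∀ q, nrm (v q) = 1) {l : List (Finset V)} (hl : Good l) :
    NF (d + 1) (LP v l * M) := by
  obtain ⟨a, ha, R, hR, rfl⟩ := h
  refine ⟨a, ha, LP (fun q => (a q)ᴴ *ᵥ v q) l * R,
    RL.succ hR _ (fun q => nrm_conj_mulVec (ha q) (hv q)) l hl, ?_⟩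
  rw [← Matrix.mul_assoc, LP_tens ha, Matrix.mul_assoc]

end NF

section Gates

variable {N : ℕ}

/-- the state `|1⟩` -/
def e1 : Bool → ℂ := fun a => if a then 1 else 0

/-- the state `|−⟩` -/
noncomputable def em : Bool → ℂ := fun a => if a then -(Real.sqrt (1 / 2) : ℂ) else (Real.sqrt (1 / 2) : ℂ)

theorem nrm_e1 : nrm e1 = 1 := by simp [nrm, e1]

theorem nrm_em : nrm em = 1 := by
  have h : nrm em ^ 2 = 1 := by
    rw [nrm_sq_bool]
    simp only [em, if_true, Bool.false_eq_true, if_false, norm_neg, Complex.norm_real,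
      Real.norm_eq_abs, sq_abs]
    rw [Real.sq_sqrt (by norm_num)]; norm_num
  have h0 := nrm_nonneg em
  nlinarith

theorem rk_em : rk em em = fun i j => if i = j then (1 / 2 : ℂ) else -(1 / 2) := by
  have h : (Real.sqrt (1 / 2) : ℂ) * (Real.sqrt (1 / 2) : ℂ) = 1 / 2 := by
    rw [← Complex.ofReal_mul, Real.mul_self_sqrt (by norm_num)]; norm_num
  have h2 : star ((Real.sqrt (1 / 2) : ℝ) : ℂ) = (Real.sqrt (1 / 2) : ℂ) := by simp
  funext i j
  cases i <;> cases j <;> simp only [rk, em, if_true, Bool.false_eq_true, if_false, star_neg, h2,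
    neg_mul, mul_neg, neg_neg, h] <;> simp

/-- vectors of a Toffoli gate -/
noncomputable def tv (t : Fin N) (q : Fin N) : Bool → ℂ := if q = t then em else e1

theorem nrm_tv (t q : Fin N) : nrm (tv t q) = 1 := by
  unfold tv; split_ifs
  · exact nrm_em
  · exact nrm_e1

theorem mat_one (q : Fin N) (U : Matrix Bool Bool ℂ) (hU : U ∈ Matrix.unitaryGroup Bool ℂ) :
    (Gate.one q U hU).mat = tens (fun r => if r = q then U else 1) := by
  ext y z
  simp only [Gate.mat, tens]
  rw [← Finset.mul_prod_erase univ _ (Finset.mem_univ q)]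
  simp only [if_true]
  by_cases h : ∀ r, r ≠ q → y r = z r
  · rw [if_pos h, Finset.prod_eq_one, mul_one]
    intro r hr
    have hne := Finset.ne_of_mem_erase hr
    rw [if_neg hne, h r hne, Matrix.one_apply_eq]
  · rw [if_neg h]
    push Not at h
    obtain ⟨r, hne, hr⟩ := h
    rw [Finset.prod_eq_zero (Finset.mem_erase.mpr ⟨hne, Finset.mem_univ r⟩), mul_zero]
    rw [if_neg hne, Matrix.one_apply_ne hr]

theorem mat_tof (C : Finset (Fin N)) (t : Fin N) (hC : C.Nonempty) (ht : t ∉ C) :
    (Gate.tof C t hC ht).mat = Rf (tv t) (insert t C) := by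
  have hP : ∀ y z : Fin N → Bool, Pt (tv t) (insert t C) y z
      = if (∀ r, r ≠ t → y r = z r) ∧ (∀ c ∈ C, z c = true)
        then (if y t = z t then (1 / 2 : ℂ) else -(1 / 2)) else 0 := by
    intro y z
    rw [Pt, tens, ← Finset.mul_prod_erase univ _ (Finset.mem_univ t)]
    have h0 : Om (fun q => q ∈ insert t C) (tv t) t (y t) (z t)
        = if y t = z t then (1 / 2 : ℂ) else -(1 / 2) := by
      have hm : t ∈ insert t C := Finset.mem_insert_self t C
      have h1 : Om (fun q => q ∈ insert t C) (tv t) t = rk em em := by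
        rw [Om, if_pos hm, tv, if_pos rfl]
      rw [h1, rk_em]
    rw [h0]
    by_cases h : (∀ r, r ≠ t → y r = z r) ∧ (∀ c ∈ C, z c = true)
    · rw [if_pos h, Finset.prod_eq_one, mul_one]
      intro r hr
      have hne := Finset.ne_of_mem_erase hr
      by_cases hrC : r ∈ C
      · have hm : r ∈ insert t C := Finset.mem_insert_of_mem hrC
        simp only [Om, hm, if_true, tv, if_neg hne, rk, e1]
        rw [h.1 r hne, h.2 r hrC]
        simp
      · have hm : r ∉ insert t C := by simp [hne, hrC]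
        simp only [Om, hm, if_false]
        rw [h.1 r hne, Matrix.one_apply_eq]
    · rw [if_neg h]
      rw [not_and_or] at h
      rcases h with h | h
      · push Not at h
        obtain ⟨r, hne, hr⟩ := h
        rw [Finset.prod_eq_zero (Finset.mem_erase.mpr ⟨hne, Finset.mem_univ r⟩), mul_zero]
        by_cases hrC : r ∈ C
        · have hm : r ∈ insert t C := Finset.mem_insert_of_mem hrC
          simp only [Om, hm, if_true, tv, if_neg hne, rk, e1]
          cases h1 : y r <;> cases h2 : z r <;> simp_all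
        · have hm : r ∉ insert t C := by simp [hne, hrC]
          simp only [Om, hm, if_false]
          exact Matrix.one_apply_ne hr
      · push Not at h
        obtain ⟨r, hrC, hr⟩ := h
        have hne : r ≠ t := fun h => ht (h ▸ hrC)
        rw [Finset.prod_eq_zero (Finset.mem_erase.mpr ⟨hne, Finset.mem_univ r⟩), mul_zero]
        have hm : r ∈ insert t C := Finset.mem_insert_of_mem hrC
        simp only [Om, hm, if_true, tv, if_neg hne, rk, e1]
        cases h2 : z r <;> simp_all
  ext y z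
  show (if y = flipLab C t z then (1 : ℂ) else 0) = _
  simp only [Rf, Matrix.sub_apply, Matrix.smul_apply, hP, smul_eq_mul]
  by_cases hc : ∀ c ∈ C, z c = true
  · have hflip : flipLab C t z = Function.update z t (!(z t)) := by
      have : decide (∀ c ∈ C, z c = true) = true := by simpa using hc
      rw [flipLab, this, Bool.xor_true]
    have hu : ∀ b, (y = Function.update z t b) ↔ ((∀ r, r ≠ t → y r = z r) ∧ y t = b) := by
      intro b
      constructor
      · intro h
        constructor
        · intro r hr; rw [h, Function.update_of_ne hr]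
        · rw [h, Function.update_self]
      · rintro ⟨h1, h2⟩
        funext r
        by_cases hr : r = t
        · subst hr; rw [h2, Function.update_self]
        · rw [h1 r hr, Function.update_of_ne hr]
    have h1 : (1 : Matrix (Fin N → Bool) (Fin N → Bool) ℂ) y z
        = if (∀ r, r ≠ t → y r = z r) ∧ y t = z t then 1 else 0 := by
      rw [Matrix.one_apply]
      have := hu (z t)
      rw [Function.update_eq_self] at this
      by_cases hyz : y = z
      · rw [if_pos hyz, if_pos (this.mp hyz)]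
      · rw [if_neg hyz, if_neg (fun h => hyz (this.mpr h))]
    rw [h1, hflip]
    by_cases h2 : ∀ r, r ≠ t → y r = z r
    · have e1 : (y = Function.update z t (!(z t))) ↔ y t = !(z t) := by
        rw [hu]; exact ⟨fun h => h.2, fun h => ⟨h2, h⟩⟩
      have e2 : ((∀ r, r ≠ t → y r = z r) ∧ y t = z t) ↔ y t = z t :=
        ⟨fun h => h.2, fun h => ⟨h2, h⟩⟩
      have e3 : ((∀ r, r ≠ t → y r = z r) ∧ (∀ c ∈ C, z c = true)) := ⟨h2, hc⟩
      rw [if_pos e3]
      by_cases h3 : y t = z t
      · have h4 : ¬ (y t = !(z t)) := by rw [h3]; cases z t <;> simp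
        rw [if_neg (fun h => h4 (e1.mp h)), if_pos (e2.mpr h3), if_pos h3]; norm_num
      · have h4 : y t = !(z t) := by cases h5 : y t <;> cases h6 : z t <;> simp_all
        rw [if_pos (e1.mpr h4), if_neg (fun h => h3 (e2.mp h)), if_neg h3]; norm_num
    · have e1 : ¬ (y = Function.update z t (!(z t))) := fun h => h2 ((hu _).mp h).1
      rw [if_neg e1, if_neg (fun h => h2 h.1), if_neg (fun h => h2 h.1)]; norm_num
  · have hflip : flipLab C t z = z := by
      have : decide (∀ c ∈ C, z c = true) = false := by simpa using hc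
      rw [flipLab, this, Bool.xor_false, Function.update_eq_self]
    have e3 : ¬ ((∀ r, r ≠ t → y r = z r) ∧ (∀ c ∈ C, z c = true)) := fun h => hc h.2
    rw [hflip, if_neg e3, mul_zero, sub_zero, Matrix.one_apply]

end Gates

end Vale.Agent.H29.QAC
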