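import Vale.Agent.H29.QAC.Circ

set_option linter.unusedSectionVars false
set_option linter.unusedSimpArgs false

namespace Vale.Agent.H29.QAC

open Matrix Finset Vale.Agent.H29.QACDefs

section Layers

variable {N : ℕ}

theorem Rf_congr {u v : Fin N → Bool → ℂ} (D : Finset (Fin N)) (h : ∀ q ∈ D, u q = v q) :
    Rf u D = Rf v D := by
  have := LP_congr (u := u) (v := v) [D] (by simpa using h)
  simpa [LP] using this

theorem layer_form (gs : List (Gate N)) (hd : gs.Pairwise (fun g h => Disjoint g.supp h.supp)) :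
    ∃ (b : Fin N → Matrix Bool Bool ℂ) (v : Fin N → Bool → ℂ) (l : List (Finset (Fin N))),
      (∀ q, (b q)ᴴ * b q = 1) ∧ (∀ q, nrm (v q) = 1) ∧ Good l ∧
      (∀ D ∈ l, ∃ g ∈ gs, g.multi = true ∧ D = g.supp) ∧
      (gs.map Gate.mat).prod = tens b * LP v l := by
  induction gs with
  | nil =>
    refine ⟨fun _ => 1, fun _ => e0, [], fun _ => by simp, fun _ => nrm_e0, Good.nil,
      by simp, ?_⟩
    rw [tens_one, LP_nil]; simp
  | cons g gs ih =>
    rw [List.pairwise_cons] at hd
    obtain ⟨b, v, l, hb, hv, hl, hsub, hprod⟩ := ih hd.2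
    rw [List.map_cons, List.prod_cons, hprod]
    cases g with
    | one q U hU =>
      have hU' : Uᴴ * U = 1 := (Matrix.mem_unitaryGroup_iff').mp hU
      refine ⟨fun r => (if r = q then U else 1) * b r, v, l, fun r => ?_, hv, hl, ?_, ?_⟩
      · refine mul_unit ?_ (hb r)
        split_ifs
        · exact hU'
        · simp
      · intro D hD
        obtain ⟨g, hg, h⟩ := hsub D hD
        exact ⟨g, by simp [hg], h⟩
      · rw [mat_one, ← Matrix.mul_assoc, tens_mul]
    | tof C t hC ht =>
      set D : Finset (Fin N) := insert t C with hD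
      set w : Fin N → Bool → ℂ := fun q => (b q)ᴴ *ᵥ tv t q with hw
      have hdis : ∀ E ∈ l, Disjoint D E := by
        intro E hE
        obtain ⟨g, hg, _, rfl⟩ := hsub E hE
        exact hd.1 g hg
      refine ⟨b, fun q => if q ∈ D then w q else v q, D :: l, hb, fun q => ?_, ⟨?_, ?_⟩, ?_, ?_⟩
      · show nrm (if q ∈ D then w q else v q) = 1
        split_ifs
        · exact nrm_conj_mulVec (hb q) (nrm_tv t q)
        · exact hv q
      · intro E hE
        rcases List.mem_cons.mp hE with rfl | hE
        · exact ⟨t, Finset.mem_insert_self _ _⟩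
        · exact hl.ne E hE
      · exact List.pairwise_cons.mpr ⟨hdis, hl.disj⟩
      · intro E hE
        rcases List.mem_cons.mp hE with rfl | hE
        · exact ⟨Gate.tof C t hC ht, by simp, rfl, rfl⟩
        · obtain ⟨g, hg, h⟩ := hsub E hE
          exact ⟨g, by simp [hg], h⟩
      · have h1 : LP (fun q => if q ∈ D then w q else v q) l = LP v l := by
          apply LP_congr
          intro E hE q hq
          have : q ∉ D := fun h => Finset.disjoint_left.mp (hdis E hE) h hq
          simp [this]
        have h2 : Rf (fun q => if q ∈ D then w q else v q) D = Rf w D := by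
          apply Rf_congr
          intro q hq
          simp [hq]
        rw [mat_tof, LP_cons, h1, h2, ← Matrix.mul_assoc, Rf_tens hb, Matrix.mul_assoc]

theorem circ_NF_aux (c : List (Layer N)) : ∀ (d : ℕ) (M : Matrix (Lab N) (Lab N) ℂ), NF d M →
    NF (d + entDepth c) (circMat c * M) := by
  induction c with
  | nil =>
    intro d M h
    simpa [circMat, entDepth] using h
  | cons L c ih =>
    intro d M h
    obtain ⟨b, v, l, hb, hv, hl, hsub, hprod⟩ := layer_form L.gates L.disj
    have e : circMat (L :: c) * M = circMat c * (L.mat * M) := by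
      rw [circMat, Matrix.mul_assoc]
    rw [e]
    by_cases hL : L.entangling = true
    · have h1 : NF (d + 1) (L.mat * M) := by
        rw [Layer.mat, hprod, Matrix.mul_assoc]
        exact (h.LP_mul_left hv hl).tens_mul_left hb
      have h2 := ih (d + 1) _ h1
      have e2 : d + entDepth (L :: c) = d + 1 + entDepth c := by
        simp only [entDepth, List.filter_cons_of_pos hL, List.length_cons]; ring
      rw [e2]; exact h2
    · have hl0 : l = [] := by
        rw [List.eq_nil_iff_forall_not_mem]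
        intro D hD
        obtain ⟨g, hg, hm, _⟩ := hsub D hD
        exact hL (by rw [Layer.entangling, List.any_eq_true]; exact ⟨g, hg, hm⟩)
      have h1 : NF d (L.mat * M) := by
        rw [Layer.mat, hprod, hl0, LP_nil, Matrix.mul_one]
        exact h.tens_mul_left hb
      have h2 := ih d _ h1
      have e2 : d + entDepth (L :: c) = d + entDepth c := by
        simp only [entDepth, List.filter_cons_of_neg hL]
      rw [e2]; exact h2

theorem NF_one : NF 0 (1 : Matrix (Lab N) (Lab N) ℂ) :=
  ⟨fun _ => 1, fun _ => by simp, 1, RL.zero, by rw [tens_one, Matrix.mul_one]⟩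

theorem circ_NF (c : List (Layer N)) : NF (entDepth c) (circMat c) := by
  have := circ_NF_aux c 0 1 NF_one
  simpa using this

theorem circ_three (c : List (Layer N)) (h : entDepth c ≤ 3) :
    ∃ (a : Fin N → Matrix Bool Bool ℂ) (u1 u2 u3 : Fin N → Bool → ℂ)
      (l1 l2 l3 : List (Finset (Fin N))), (∀ q, (a q)ᴴ * a q = 1) ∧
      (∀ q, nrm (u1 q) = 1) ∧ (∀ q, nrm (u2 q) = 1) ∧ (∀ q, nrm (u3 q) = 1) ∧
      Good l1 ∧ Good l2 ∧ Good l3 ∧
      circMat c = tens a * (LP u3 l3 * LP u2 l2 * LP u1 l1) := by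
  obtain ⟨a, ha, R, hR, hc⟩ := circ_NF c
  have hR3 := hR.pad_le h
  clear hR
  cases hR3 with
  | succ hR2 u3 hu3 l3 hl3 =>
    cases hR2 with
    | succ hR1 u2 hu2 l2 hl2 =>
      cases hR1 with
      | succ hR0 u1 hu1 l1 hl1 =>
        cases hR0 with
        | zero =>
          refine ⟨a, u1, u2, u3, l1, l2, l3, ha, hu1, hu2, hu3, hl1, hl2, hl3, ?_⟩
          rw [hc, Matrix.mul_one, Matrix.mul_assoc]

end Layers

section Prob

variable {n N : ℕ}

theorem Qo_diag (o : Fin N) (b : Bool) :
    tens (Qo o (ev b)) = Matrix.diagonal (fun y : Fin N → Bool => if y o = b then (1 : ℂ) else 0) := by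
  ext y z
  rw [tens, ← Finset.mul_prod_erase univ _ (Finset.mem_univ o), Matrix.diagonal_apply]
  have h1 : Qo o (ev b) o (y o) (z o) = if y o = b ∧ z o = b then 1 else 0 := by
    simp only [Qo, if_true, rk, ev, Pi.single_apply]
    by_cases h1 : y o = b <;> by_cases h2 : z o = b <;> simp [h1, h2]
  rw [h1]
  by_cases h : y = z
  · subst h
    rw [if_pos rfl, Finset.prod_eq_one, mul_one]
    · by_cases h : y o = b <;> simp [h]
    · intro q hq
      rw [Qo, if_neg (Finset.ne_of_mem_erase hq), Matrix.one_apply_eq]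
  · rw [if_neg h]
    by_cases ho : y o = z o
    · obtain ⟨q, hq⟩ := Function.ne_iff.mp h
      have hqo : q ≠ o := fun h' => hq (h' ▸ ho)
      rw [Finset.prod_eq_zero (Finset.mem_erase.mpr ⟨hqo, Finset.mem_univ q⟩), mul_zero]
      rw [Qo, if_neg hqo, Matrix.one_apply_ne hq]
    · rw [if_neg, zero_mul]
      rintro ⟨h1, h2⟩
      exact ho (h1.trans h2.symm)

theorem outProb_eq (c : List (Layer N)) (o : Fin N) (x : Fin n → Bool) (b : Bool) :
    ((outProb c o x b : ℝ) : ℂ)
      = ((circMat c)ᴴ * tens (Qo o (ev b)) * circMat c) (start x) (start x) := by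
  have h1 : ((circMat c)ᴴ * tens (Qo o (ev b)) * circMat c) (start x) (start x)
      = ip (Pi.single (start x) 1)
          (((circMat c)ᴴ * tens (Qo o (ev b)) * circMat c) *ᵥ Pi.single (start x) 1) := by
    simp [ip, Pi.single_apply, Matrix.mulVec_single]
  rw [h1, ip_conj_mul, Qo_diag, outProb]
  simp only [ip, Matrix.mulVec_diagonal]
  push_cast
  refine Finset.sum_congr rfl fun y _ => ?_
  split_ifs
  · rw [one_mul, star_mul_self_eq]
  · simp

/-- the sign of the parity -/
noncomputable def sg (x : Fin n → Bool) : ℝ := if par x = true then -1 else 1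

theorem prod_start (hn : n ≤ N) (x : Fin n → Bool) :
    ∏ q : Fin N, zet (fun q => q ∈ (univ.filter fun q : Fin N => (q : ℕ) < n))
      (fun _ => false) q (start x q) = sg x / 2 ^ n := by
  have h1 : ∏ i : Fin n, (if x i = true then -(1 / 2 : ℝ) else 1 / 2)
      = ∏ q : Fin N, zet (fun q => q ∈ (univ.filter fun q : Fin N => (q : ℕ) < n))
      (fun _ => false) q (start x q) := by
    refine Finset.prod_of_injOn (Fin.castLE hn) (fun i _ j _ h => by simpa using h)
      (fun i _ => by simp) ?_ ?_
    · intro q _ hq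
      have : ¬ (q : ℕ) < n := by
        intro h
        apply hq
        exact ⟨⟨q, h⟩, by simp, by ext; simp⟩
      have hmem : q ∉ (univ.filter fun q : Fin N => (q : ℕ) < n) := by simp [this]
      simp only [zet, hmem, if_false, start, this, dif_neg, not_false_iff, if_true]
    · intro i _
      have h : ((Fin.castLE hn i : Fin N) : ℕ) < n := by simp
      have hmem : Fin.castLE hn i ∈ (univ.filter fun q : Fin N => (q : ℕ) < n) := by simp
      have hs : start (N := N) x (Fin.castLE hn i) = x i := by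
        simp [start]
      simp only [zet, hmem, if_true, hs]
  rw [← h1]
  have h2 : ∀ i : Fin n, (if x i = true then -(1 / 2 : ℝ) else 1 / 2)
      = (1 / 2) * (if x i = true then -1 else 1) := by
    intro i; split_ifs <;> norm_num
  simp only [h2]
  rw [Finset.prod_mul_distrib, Finset.prod_const, Finset.card_univ, Fintype.card_fin]
  have h3 : ∏ i : Fin n, (if x i = true then (-1 : ℝ) else 1) = sg x := by
    rw [Finset.prod_ite]
    simp only [Finset.prod_const, one_pow, mul_one, sg, par]
    by_cases h : Odd (univ.filter fun i => x i = true).card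
    · rw [h.neg_one_pow]; simp [h]
    · rw [(Nat.not_odd_iff_even.mp h).neg_one_pow]; simp [h]
  rw [h3]
  rw [one_div, inv_pow]; field_simp

theorem sum_start (hn : n ≤ N) (X : Matrix (Lab N) (Lab N) ℂ) :
    (tens (fun q => dg (zet (fun q => q ∈ (univ.filter fun q : Fin N => (q : ℕ) < n))
      (fun _ => false) q)) * X).trace
    = ∑ x : Fin n → Bool, ((sg x / 2 ^ n : ℝ) : ℂ) * X (start x) (start x) := by
  rw [tens_dg]
  simp only [Matrix.trace, Matrix.diag_apply, Matrix.diagonal_mul]
  symm
  refine Finset.sum_of_injOn (start : (Fin n → Bool) → Lab N) ?_ (fun i _ => by simp) ?_ ?_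
  · intro x _ y _ h
    funext i
    have := congrFun h (Fin.castLE hn i)
    simpa [start] using this
  · intro s _ hs
    have : ∃ q : Fin N, ¬ (q : ℕ) < n ∧ s q = true := by
      by_contra hcon
      push Not at hcon
      apply hs
      refine ⟨fun i => s (Fin.castLE hn i), by simp, ?_⟩
      funext q
      by_cases hq : (q : ℕ) < n
      · simp only [start, hq, dif_pos]
        congr 1
      · simp only [start, hq, dif_neg, not_false_iff]
        have := hcon q (not_lt.mp hq)
        symm
        simpa using this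
    obtain ⟨q, hq, hsq⟩ := this
    have hmem : q ∉ (univ.filter fun q : Fin N => (q : ℕ) < n) := by simp only [Finset.mem_filter, Finset.mem_univ, true_and]; exact hq
    rw [Finset.prod_eq_zero (Finset.mem_univ q)]
    · simp
    · simp only [zet, hmem, if_false, hsq]
      simp
  · intro x _
    rw [prod_start hn x]

theorem parCorr_eq (c : List (Layer N)) (o : Fin N) :
    parCorr n c o = ∑ x : Fin n → Bool, (sg x / 2 ^ n) * outProb c o x false
      - ∑ x : Fin n → Bool, (sg x / 2 ^ n) * outProb c o x true := by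
  rw [parCorr, Finset.sum_div, ← Finset.sum_sub_distrib]
  refine Finset.sum_congr rfl fun x _ => ?_
  unfold sg
  cases h : par x
  · simp only [Bool.not_false, Bool.false_eq_true, if_false]; ring
  · simp only [Bool.not_true, if_true]; ring

theorem tens_conj_Qo {a : Fin N → Matrix Bool Bool ℂ} (ha : ∀ q, (a q)ᴴ * a q = 1) (o : Fin N)
    (v : Bool → ℂ) : (tens a)ᴴ * tens (Qo o v) * tens a = tens (Qo o ((a o)ᴴ *ᵥ v)) := by
  rw [tens_conjTranspose, tens_mul, tens_mul]
  congr 1; funext q
  simp only [Qo]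
  split_ifs with h
  · subst h
    rw [rk_conj, rk_conj']
  · rw [Matrix.mul_one, ha]

theorem weight_bound (hn : n ≤ N) (c : List (Layer N)) (hc : entDepth c ≤ 3) (o : Fin N)  :
    ∃ a : ℕ, n ≤ 2 * a ∧ a ≤ n ∧ ∀ (B : ℝ) (k : ℕ), 1 ≤ B →
      26 * B * k + 3 * k ≤ (a : ℝ) / 5 → ∀ b : Bool,
      |∑ x : Fin n → Bool, (sg x / 2 ^ n) * outProb c o x b|
      ≤ 3 * (2 / Real.cosh (k / Real.sqrt (⌊2 * (a : ℝ) / B⌋₊ + 1 : ℕ))
        + 8 * (a / B) * Real.exp (-(B / 4))) := by
  obtain ⟨a, u1, u2, u3, l1, l2, l3, ha, hu1, hu2, hu3, hl1, hl2, hl3, hM⟩ := circ_three c hc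
  set I : Finset (Fin N) := univ.filter fun q : Fin N => (q : ℕ) < n with hI
  have hcard : I.card = n := by
    have : I = Finset.univ.map (Fin.castLEEmb hn) := by
      ext q
      simp only [hI, Finset.mem_filter, Finset.mem_univ, true_and, Finset.mem_map]
      constructor
      · intro h; exact ⟨⟨q, h⟩, by ext; simp⟩
      · rintro ⟨i, rfl⟩; simp
    rw [this, Finset.card_map, Finset.card_univ, Fintype.card_fin]
  obtain ⟨m, hm1, hm2, hm3⟩ := three_layer I hu1 hu2 hu3 hl1 hl2 hl3 o
  rw [hcard] at hm1 hm2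
  refine ⟨m, hm1, hm2, fun B k hB hk b => ?_⟩
  have h := hm3 ((a o)ᴴ *ᵥ ev b) (nrm_conj_mulVec (ha o) (nrm_ev b)) B k hB hk
  set R := LP u3 l3 * LP u2 l2 * LP u1 l1 with hR
  have e1 : (circMat c)ᴴ * tens (Qo o (ev b)) * circMat c
      = Rᴴ * tens (Qo o ((a o)ᴴ *ᵥ ev b)) * R := by
    rw [hM, ← tens_conj_Qo ha, Matrix.conjTranspose_mul]
    simp only [Matrix.mul_assoc]
  rw [← e1, sum_start hn] at h
  have e2 : (((∑ x : Fin n → Bool, (sg x / 2 ^ n) * outProb c o x b : ℝ)) : ℂ)
      = ∑ x : Fin n → Bool, ((sg x / 2 ^ n : ℝ) : ℂ)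
        * ((circMat c)ᴴ * tens (Qo o (ev b)) * circMat c) (start x) (start x) := by
    rw [Complex.ofReal_sum]
    refine Finset.sum_congr rfl fun x _ => ?_
    rw [Complex.ofReal_mul, outProb_eq]
  rw [← e2, Complex.norm_real, Real.norm_eq_abs] at h
  exact h

theorem nrm_circ (c : List (Layer N)) (hc : entDepth c ≤ 3) (φ : Lab N → ℂ) :
    nrm (circMat c *ᵥ φ) = nrm φ := by
  obtain ⟨a, u1, u2, u3, l1, l2, l3, ha, hu1, hu2, hu3, hl1, hl2, hl3, hM⟩ := circ_three c hc
  have hT : (tens a)ᴴ * tens a = 1 := by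
    rw [tens_conjTranspose, tens_mul, ← tens_one]
    congr 1; funext q; exact ha q
  rw [hM, ← Matrix.mulVec_mulVec, ← Matrix.mulVec_mulVec, ← Matrix.mulVec_mulVec,
    nrm_of_unitary hT, nrm_of_unitary (LP_unitary hu3 l3), nrm_of_unitary (LP_unitary hu2 l2),
    nrm_of_unitary (LP_unitary hu1 l1)]

theorem outProb_nonneg (c : List (Layer N)) (o : Fin N) (x : Fin n → Bool) (b : Bool) :
    0 ≤ outProb c o x b :=
  Finset.sum_nonneg fun y _ => by split_ifs <;> positivity

theorem outProb_add (c : List (Layer N)) (hc : entDepth c ≤ 3) (o : Fin N) (x : Fin n → Bool) :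
    outProb c o x false + outProb c o x true = 1 := by
  have h := nrm_circ c hc (Pi.single (start x) 1)
  rw [nrm_single, norm_one] at h
  have h2 := nrm_sq (circMat c *ᵥ Pi.single (start x) 1)
  rw [h, one_pow] at h2
  rw [outProb, outProb, ← Finset.sum_add_distrib, h2]
  refine Finset.sum_congr rfl fun y _ => ?_
  cases y o <;> simp

theorem parCorr_le_one (c : List (Layer N)) (hc : entDepth c ≤ 3) (o : Fin N) :
    |parCorr n c o| ≤ 1 := by
  rw [parCorr, abs_div, abs_of_pos (by positivity : (0 : ℝ) < 2 ^ n), div_le_one (by positivity)]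
  refine (Finset.abs_sum_le_sum_abs _ _).trans ?_
  have h : ∀ x : Fin n → Bool, |outProb c o x (par x) - outProb c o x (!par x)| ≤ 1 := by
    intro x
    have h1 := outProb_add c hc o x
    have h2 := outProb_nonneg c o x false
    have h3 := outProb_nonneg c o x true
    rw [abs_le]
    cases par x
    · simp only [Bool.not_false]; constructor <;> linarith
    · simp only [Bool.not_true]; constructor <;> linarith
  refine (Finset.sum_le_sum fun x _ => h x).trans ?_
  simp

theorem two_eps_le (c : List (Layer N)) (hc : entDepth c ≤ 3) (o : Fin N) (ε : ℝ)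
    (h : ComputesParity n c o ε) : 2 * ε ≤ parCorr n c o := by
  rw [parCorr, le_div_iff₀ (by positivity)]
  have h1 : ∀ x : Fin n → Bool, 2 * ε ≤ outProb c o x (par x) - outProb c o x (!par x) := by
    intro x
    have h1 := outProb_add c hc o x
    have h2 := h x
    cases h3 : par x
    · rw [h3] at h2; simp only [Bool.not_false]; linarith
    · rw [h3] at h2; simp only [Bool.not_true]; linarith
  have h2 := Finset.sum_le_sum fun (x : Fin n → Bool) (_ : x ∈ univ) => h1 x
  simp only [Finset.sum_const, Finset.card_univ, Fintype.card_fun, Fintype.card_bool,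
    Fintype.card_fin, nsmul_eq_mul] at h2
  push_cast at h2
  linarith

theorem corr_bound (hn : n ≤ N) (c : List (Layer N)) (hc : entDepth c ≤ 3) (o : Fin N)  :
    ∃ a : ℕ, n ≤ 2 * a ∧ a ≤ n ∧ ∀ (B : ℝ) (k : ℕ), 1 ≤ B →
      26 * B * k + 3 * k ≤ (a : ℝ) / 5 →
      |parCorr n c o| ≤ 6 * (2 / Real.cosh (k / Real.sqrt (⌊2 * (a : ℝ) / B⌋₊ + 1 : ℕ))
        + 8 * (a / B) * Real.exp (-(B / 4))) := by
  obtain ⟨a, h1, h2, h3⟩ := weight_bound hn c hc o
  refine ⟨a, h1, h2, fun B k hB hk => ?_⟩
  rw [parCorr_eq]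
  have k1 := h3 B k hB hk true
  have k2 := h3 B k hB hk false
  refine (abs_sub _ _).trans ?_
  linarith

end Prob

end Vale.Agent.H29.QAC
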