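import Vale.Agent.H29.QAC.Mass
import Vale.Agent.H29.QAC.Cheb

set_option linter.unusedSectionVars false
set_option linter.unusedSimpArgs false

namespace Vale.Agent.H29.QAC

open Matrix Finset

section CoreSec

variable {V β γ : Type} [Fintype V] [DecidableEq V] [Fintype β] [DecidableEq β]
  [Fintype γ] [DecidableEq γ]

/-- the signed operator after the first layer -/
noncomputable def Sig (blk1 : V → β) (w : V → Bool → ℂ) (A : Finset V) (y : V → Bool) :
    Matrix (V → Bool) (V → Bool) ℂ :=
  bten blk1 (fun b => rf (fun q : Fib blk1 b => w q.1)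
    * tens (fun q : Fib blk1 b => dg (zet (fun q => q ∈ A) y q.1))
    * rf (fun q : Fib blk1 b => w q.1))

variable {blk1 : V → β} {w : V → Bool → ℂ} {A : Finset V} {y : V → Bool}

theorem sum_abs_zet {U : Type} (al : U → Prop) [DecidablePred al] (y : U → Bool) (q : U) :
    ∑ a, |zet al y q a| ≤ 1 := by
  rw [Fintype.sum_bool]
  simp only [zet]
  by_cases h : al q
  · simp only [h, if_true, Bool.false_eq_true, if_false]
    rw [abs_neg, abs_of_pos (by norm_num : (0 : ℝ) < 1 / 2)]; norm_num
  · cases y q <;> simp [h]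

theorem nuc_block (hw : ∀ q, nrm (w q) = 1) (blk2 : V → γ) (S : Finset γ) (b : β)
    (hk2 : kb blk1 A b ≠ 2) (fl : β → Prop) [DecidablePred fl]
    (hfl : ∀ b, fl b ↔ ∃ q : Fib blk1 b, q.1 ∈ A ∧ blk2 q.1 ∉ S) :
    NucLe (redSigma (fun q : Fib blk1 b => blk2 q.1 ∉ S ∧ fl (blk1 q.1))
        (fun q => zet (fun q => q ∈ A) y q.1) (fun q => w q.1))
      (Real.exp (13 * (jb blk1 A (fun q => blk2 q ∈ S) b + mb blk1 w A y (fun q => blk2 q ∈ S) b)
        - kb blk1 A b / 5)) := by
  have hlog := Real.log_two_gt_d9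
  have hj0 := jb_nonneg (blk1 := blk1) (A := A) (fun q => blk2 q ∈ S) b
  have hm0 := mb_nonneg (A := A) (y := y) (blk1 := blk1) hw (fun q => blk2 q ∈ S) b
  have hm4 := mb_le_quarter (A := A) (y := y) (blk1 := blk1) hw (fun q => blk2 q ∈ S) b
  by_cases hb : fl b
  · obtain ⟨q1, hq1A, hq1S⟩ := (hfl b).mp hb
    have h0 : ∃ q : Fib blk1 b, (blk2 q.1 ∉ S ∧ fl (blk1 q.1)) ∧
        zet (fun q => q ∈ A) y q.1 true + zet (fun q => q ∈ A) y q.1 false = 0 := by
      refine ⟨q1, ⟨hq1S, by rw [q1.2]; exact hb⟩, ?_⟩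
      simp [zet, hq1A]
    refine (nuc_redSigma (fun q : Fib blk1 b => blk2 q.1 ∉ S ∧ fl (blk1 q.1))
      (fun q => zet (fun q => q ∈ A) y q.1) (fun q => hw q.1) h0).mono ?_
    have hzet : (fun q : Fib blk1 b => zet (fun q => q ∈ A) y q.1)
        = zet (fun q : Fib blk1 b => q.1 ∈ A) (fun q => y q.1) := by
      funext q a; rfl
    rw [hzet]
    by_cases hk : kb blk1 A b = 1
    · -- small block
      have : ∃ q0 : Fib blk1 b, q0.1 ∈ A ∧ ∀ q : Fib blk1 b, q.1 ∈ A → q = q0 := by
        have hk' : (univ.filter fun q : Fib blk1 b => q.1 ∈ A).card = 1 := by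
          rw [← hk, kb, Finset.card_filter]
        obtain ⟨q0, hq0⟩ := Finset.card_eq_one.mp hk'
        refine ⟨q0, ?_, fun q hq => ?_⟩
        · have : q0 ∈ univ.filter fun q : Fib blk1 b => q.1 ∈ A := by rw [hq0]; simp
          simpa using this
        · have : q ∈ univ.filter fun q : Fib blk1 b => q.1 ∈ A := by simp [hq]
          rw [hq0] at this
          simpa using this
      obtain ⟨q0, hq0, huniq⟩ := this
      have hq1 : q1 = q0 := huniq q1 hq1A
      have hn := nu_small (U := Fib blk1 b) (al := fun q => q.1 ∈ A) (y := fun q => y q.1)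
        (w := fun q => w q.1) (fun q => hw q.1)
        (fun q : Fib blk1 b => blk2 q.1 ∉ S ∧ fl (blk1 q.1)) q0 hq0
        (by rw [← hq1]; exact ⟨hq1S, by rw [q1.2]; exact hb⟩) huniq
      have hcT : cT (U := Fib blk1 b) (fun q => ¬ (blk2 q.1 ∉ S ∧ fl (blk1 q.1)))
          (fun q => q.1 ∈ A) (fun q => w q.1) (fun q => y q.1)
          = cTb blk1 w A y (fun q => blk2 q ∈ S) b := by
        simp only [cTb, cT]
        refine Finset.prod_congr rfl fun q _ => ?_
        have : fl (blk1 q.1) := by rw [q.2]; exact hb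
        by_cases h : blk2 q.1 ∈ S <;> by_cases h2 : q.1 ∈ A <;> simp [this, h, h2]
      rw [hcT] at hn
      have hm : mb blk1 w A y (fun q => blk2 q ∈ S) b
          = cJ (fun q : Fib blk1 b => q.1 ∈ A) (fun q => w q.1) (fun q => y q.1)
            * (1 - cTb blk1 w A y (fun q => blk2 q ∈ S) b) := by
        rw [mb, if_pos hk, cJb]
      rw [← hm] at hn
      refine hn.trans ?_
      rw [hk]
      set m := mb blk1 w A y (fun q => blk2 q ∈ S) b with hmdef
      set j := jb blk1 A (fun q => blk2 q ∈ S) b with hjdef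
      by_cases hm64 : 1 / 64 ≤ m
      · have h1 : Real.sqrt m ≤ 1 / 2 := by
          apply Real.sqrt_le_iff.mpr
          constructor <;> norm_num
          linarith
        have h2 : 1 ≤ Real.exp (13 * (j + m) - ((1 : ℕ) : ℝ) / 5) := by
          apply Real.one_le_exp
          push_cast
          nlinarith
        linarith
      · push Not at hm64
        have h1 : Real.sqrt m ≤ 1 / 8 := by
          apply Real.sqrt_le_iff.mpr
          constructor <;> norm_num
          linarith
        have h2 : (1 / 4 : ℝ) ≤ Real.exp (13 * (j + m) - ((1 : ℕ) : ℝ) / 5) := by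
          have := Real.add_one_le_exp (13 * (j + m) - ((1 : ℕ) : ℝ) / 5)
          push_cast at this ⊢
          linarith
        linarith
    · -- large block
      have hk3 : 3 ≤ kb blk1 A b := by
        have : 1 ≤ kb blk1 A b := by
          have := Finset.single_le_sum (f := fun q : Fib blk1 b => if q.1 ∈ A then 1 else 0)
            (fun q _ => Nat.zero_le _) (Finset.mem_univ q1)
          simpa [hq1A, kb] using this
        omega
      have hn := nu_large (U := Fib blk1 b) (al := fun q => q.1 ∈ A) (y := fun q => y q.1)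
        (w := fun q => w q.1) (fun q => hw q.1)
        (fun q : Fib blk1 b => blk2 q.1 ∉ S ∧ fl (blk1 q.1))
      refine hn.trans ?_
      rw [prod_half_eq]
      have hkk : (∑ q : Fib blk1 b, if q.1 ∈ A then (1 : ℝ) else 0) = kb blk1 A b := by
        simp only [kb]; push_cast; rfl
      rw [hkk]
      have h4 : (4 : ℝ) = Real.exp (2 * Real.log 2) := by
        rw [two_mul, Real.exp_add, Real.exp_log (by norm_num)]; norm_num
      rw [h4, ← Real.exp_add]
      apply Real.exp_le_exp.mpr
      have hk3r : (3 : ℝ) ≤ kb blk1 A b := by exact_mod_cast hk3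
      nlinarith
  · have hR : ∀ q : Fib blk1 b, ¬ (blk2 q.1 ∉ S ∧ fl (blk1 q.1)) := by
      intro q hq
      rw [q.2] at hq
      exact hb hq.2
    rw [redSigma_false _ hR]
    refine (nuc_rf_dg (fun q : Fib blk1 b => zet (fun q => q ∈ A) y q.1)
      (fun q => hw q.1) (fun q => ?_)).mono ?_
    · exact sum_abs_zet (fun q => q ∈ A) y q.1
    · apply Real.one_le_exp
      have hall : ∀ q : Fib blk1 b, q.1 ∈ A → blk2 q.1 ∈ S := by
        intro q hq
        by_contra hS
        exact hb ((hfl b).mpr ⟨q, hq, hS⟩)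
      have hj : jb blk1 A (fun q => blk2 q ∈ S) b = kb blk1 A b := by
        simp only [jb, kb]
        push_cast
        refine Finset.sum_congr rfl fun q _ => ?_
        by_cases h : q.1 ∈ A
        · simp [h, hall q h]
        · simp [h]
      rw [hj]
      have : (0 : ℝ) ≤ kb blk1 A b := by positivity
      linarith

theorem monomial_bound (hw : ∀ q, nrm (w q) = 1) (blk2 : V → γ) (S : Finset γ)
    (hk2 : ∀ b, kb blk1 A b ≠ 2)
    (M : ∀ c, Matrix (Fib blk2 c → Bool) (Fib blk2 c → Bool) ℂ)
    (hM : ∀ c, c ∉ S → M c = 1) (hX : Contr (bten blk2 M)) :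
    ‖(Sig blk1 w A y * bten blk2 M).trace‖
      ≤ Real.exp (13 * mass blk1 w A y (fun q => blk2 q ∈ S) - A.card / 5) := by
  classical
  have h := trace_reduce blk1 blk2 w (zet (fun q => q ∈ A) y) M (fun c => c ∈ S) hM
    (fun q => blk2 q ∉ S ∧ (∃ q' : Fib blk1 (blk1 q), q'.1 ∈ A ∧ blk2 q'.1 ∉ S))
    (fun q hq => hq.1)
  rw [Sig, h]
  have hn := nuc_bten blk1 (fun b => nuc_block (y := y) hw blk2 S b (hk2 b)
    (fun b => ∃ q' : Fib blk1 b, q'.1 ∈ A ∧ blk2 q'.1 ∉ S) (fun b => Iff.rfl))
  refine (nuc_trace hn hX).trans (le_of_eq ?_)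
  rw [← Real.exp_sum, Finset.sum_sub_distrib, ← Finset.mul_sum, ← Finset.sum_div,
    ← sum_kb (blk1 := blk1) (A := A), mass]
  push_cast
  rfl

/-- state after the first layer -/
noncomputable def Psi (blk1 : V → β) (w : V → Bool → ℂ) (s : V → Bool) : (V → Bool) → ℂ :=
  bten blk1 (fun b => rf (fun q : Fib blk1 b => w q.1)) *ᵥ Pi.single s 1

theorem L1_unitary (hw : ∀ q, nrm (w q) = 1) :
    (bten blk1 (fun b => rf (fun q : Fib blk1 b => w q.1)))ᴴ
      * bten blk1 (fun b => rf (fun q : Fib blk1 b => w q.1)) = 1 := by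
  rw [bten_conjTranspose, bten_mul]
  have : (fun b => (rf (fun q : Fib blk1 b => w q.1))ᴴ * rf (fun q : Fib blk1 b => w q.1))
      = fun _ => 1 := by
    funext b
    rw [rf_conjTranspose, rf_sq (fun q : Fib blk1 b => hw q.1)]
  rw [this, bten_one]

theorem nrm_Psi (hw : ∀ q, nrm (w q) = 1) (s : V → Bool) : nrm (Psi blk1 w s) = 1 := by
  rw [Psi, nrm_of_unitary (L1_unitary hw), nrm_single]
  simp

theorem trace_conj_diag {ι : Type} [Fintype ι] [DecidableEq ι] (L X : Matrix ι ι ℂ)
    (hL : Lᴴ = L) (d : ι → ℂ) :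
    (L * Matrix.diagonal d * L * X).trace
      = ∑ s, d s * ip (L *ᵥ Pi.single s 1) (X *ᵥ (L *ᵥ Pi.single s 1)) := by
  have e1 : (L * Matrix.diagonal d * L * X).trace = (Matrix.diagonal d * (L * X * L)).trace := by
    rw [Matrix.mul_assoc, Matrix.mul_assoc, Matrix.trace_mul_comm, Matrix.mul_assoc,
      Matrix.mul_assoc]
  rw [e1]
  simp only [Matrix.trace, Matrix.diag_apply, Matrix.diagonal_mul]
  refine Finset.sum_congr rfl fun s _ => ?_
  congr 1
  have : ip (L *ᵥ Pi.single s 1) (X *ᵥ (L *ᵥ Pi.single s 1))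
      = ip (Pi.single s 1) ((L * X * L) *ᵥ Pi.single s 1) := by
    rw [← Matrix.mulVec_mulVec, ← Matrix.mulVec_mulVec, ip_mulVec L, hL]
  rw [this]
  simp [ip, Pi.single_apply, Matrix.mulVec_single]

theorem diag_sig (ζ : V → Bool → ℝ) :
    bten blk1 (fun b => rf (fun q : Fib blk1 b => w q.1)
      * tens (fun q : Fib blk1 b => dg (ζ q.1)) * rf (fun q : Fib blk1 b => w q.1))
    = bten blk1 (fun b => rf (fun q : Fib blk1 b => w q.1))
      * Matrix.diagonal (fun s => ((∏ q, ζ q (s q) : ℝ) : ℂ))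
      * bten blk1 (fun b => rf (fun q : Fib blk1 b => w q.1)) := by
  rw [← tens_dg, tens_eq_bten blk1, bten_mul, bten_mul]

theorem trace_eq_sum (ζ : V → Bool → ℝ) (X : Matrix (V → Bool) (V → Bool) ℂ) :
    (bten blk1 (fun b => rf (fun q : Fib blk1 b => w q.1)
      * tens (fun q : Fib blk1 b => dg (ζ q.1)) * rf (fun q : Fib blk1 b => w q.1)) * X).trace
    = ∑ s, ((∏ q, ζ q (s q) : ℝ) : ℂ) * ip (Psi blk1 w s) (X *ᵥ Psi blk1 w s) := by
  rw [diag_sig, trace_conj_diag]
  · rfl
  · rw [bten_conjTranspose]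
    congr 1
    funext b
    exact rf_conjTranspose _

theorem sum_abs_prod_zet : ∑ s : V → Bool, |∏ q, zet (fun q => q ∈ A) y q (s q)| ≤ 1 := by
  simp only [Finset.abs_prod]
  rw [sum_prod_fun (fun q a => |zet (fun q => q ∈ A) y q a|)]
  exact Finset.prod_le_one (fun q _ => Finset.sum_nonneg fun a _ => abs_nonneg _)
    (fun q _ => sum_abs_zet (fun q => q ∈ A) y q)

theorem abs_zet_eq_xi (q : V) (a : Bool) :
    |zet (fun q => q ∈ A) y q a| = xi (fun q => q ∈ A) y q a := by
  simp only [zet, xi]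
  by_cases h : q ∈ A
  · cases a
    · simp only [h, if_true, Bool.false_eq_true, if_false]
      rw [abs_of_pos (by norm_num)]
    · simp only [h, if_true, Bool.false_eq_true, if_false]
      rw [abs_neg, abs_of_pos (by norm_num)]
  · simp only [h, if_false]
    split_ifs <;> simp

end CoreSec

section Pack

/-- prefix-sum bin packing -/
theorem bin_pack {γ : Type} [Fintype γ] [DecidableEq γ] (wt : γ → ℝ) (B : ℝ) (hB : 0 < B)
    (h0 : ∀ c, 0 ≤ wt c) (h1 : ∀ c, wt c ≤ B) (s : Finset γ) :
    ∃ h : γ → ℕ, (∀ c ∈ s, h c ≤ ⌊(∑ c ∈ s, wt c) / B⌋₊) ∧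
      ∀ g : ℕ, ∑ c ∈ s.filter (fun c => h c = g), wt c ≤ 2 * B ∧
        ∑ c ∈ s.filter (fun c => h c = g), wt c ≤ max 0 (∑ c ∈ s, wt c - g * B) := by
  induction s using Finset.induction_on with
  | empty => exact ⟨fun _ => 0, by simp, fun g => by simp; linarith⟩
  | insert c s hc ih =>
    obtain ⟨h, hh1, hh2⟩ := ih
    set P := ∑ c ∈ s, wt c with hP
    have hP0 : 0 ≤ P := Finset.sum_nonneg fun c _ => h0 c
    set g0 := ⌊P / B⌋₊ with hg0
    have hfl1 : (g0 : ℝ) * B ≤ P := by
      have := Nat.floor_le (div_nonneg hP0 hB.le)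
      rw [le_div_iff₀ hB] at this
      exact this
    have hfl2 : P < (g0 + 1) * B := by
      have := Nat.lt_floor_add_one (P / B)
      rw [div_lt_iff₀ hB] at this
      exact this
    have hsum : ∑ c ∈ insert c s, wt c = wt c + P := Finset.sum_insert hc
    have hmono : P ≤ wt c + P := by linarith [h0 c]
    refine ⟨fun x => if x = c then g0 else h x, ?_, ?_⟩
    · intro x hx
      rw [hsum]
      have hfm : g0 ≤ ⌊(wt c + P) / B⌋₊ :=
        Nat.floor_le_floor (div_le_div_of_nonneg_right hmono hB.le)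
      rcases Finset.mem_insert.mp hx with rfl | hx
      · simpa using hfm
      · have hne : x ≠ c := fun h => hc (h ▸ hx)
        simp only [hne, if_false]
        exact (hh1 x hx).trans hfm
    · intro g
      rw [hsum]
      have hfilter : ∑ x ∈ (insert c s).filter (fun x => (if x = c then g0 else h x) = g), wt x
          = (if g0 = g then wt c else 0) + ∑ x ∈ s.filter (fun x => h x = g), wt x := by
        rw [Finset.filter_insert]
        have e : s.filter (fun x => (if x = c then g0 else h x) = g)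
            = s.filter (fun x => h x = g) := by
          apply Finset.filter_congr
          intro x hx
          have hne : x ≠ c := fun h => hc (h ▸ hx)
          simp [hne]
        simp only [if_true]
        split_ifs with hg
        · rw [Finset.sum_insert (by simp [hc]), e]
        · rw [e, zero_add]
      rw [hfilter]
      obtain ⟨a1, a2⟩ := hh2 g
      by_cases hg : g0 = g
      · subst hg
        rw [if_pos rfl]
        have hmax : max 0 (P - g0 * B) = P - g0 * B := max_eq_right (by linarith)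
        rw [hmax] at a2
        constructor
        · have := h1 c; nlinarith
        · refine le_trans ?_ (le_max_right _ _)
          linarith
      · rw [if_neg hg, zero_add]
        refine ⟨a1, a2.trans (max_le_max (le_refl _) ?_)⟩
        linarith

end Pack

section CoreThm

variable {V β γ : Type} [Fintype V] [DecidableEq V] [Fintype β] [DecidableEq β]
  [Fintype γ] [DecidableEq γ] {blk1 : V → β} {w : V → Bool → ℂ} {A : Finset V} {y : V → Bool}

theorem bten_proj (blk2 : V → γ) {M : ∀ c, Matrix (Fib blk2 c → Bool) (Fib blk2 c → Bool) ℂ}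
    (h1 : ∀ c, (M c)ᴴ = M c) (h2 : ∀ c, M c * M c = M c) :
    (bten blk2 M)ᴴ = bten blk2 M ∧ bten blk2 M * bten blk2 M = bten blk2 M := by
  constructor
  · rw [bten_conjTranspose]; congr 1; funext c; exact h1 c
  · rw [bten_mul]; congr 1; funext c; exact h2 c

theorem core (hw : ∀ q, nrm (w q) = 1) (hk2 : ∀ b, kb blk1 A b ≠ 2) (blk2 : V → γ)
    (M : ∀ c, Matrix (Fib blk2 c → Bool) (Fib blk2 c → Bool) ℂ)
    (h1 : ∀ c, (M c)ᴴ = M c) (h2 : ∀ c, M c * M c = M c)
    (B : ℝ) (hB : 1 ≤ B) (hmass : ∀ c, mass blk1 w A y (fun q => blk2 q = c) ≤ B)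
    (k : ℕ) (hk : 26 * B * k + 3 * k ≤ A.card / 5) :
    ‖(Sig blk1 w A y * bten blk2 M).trace‖
      * Real.cosh (k / Real.sqrt (⌊2 * (A.card : ℝ) / B⌋₊ + 1 : ℕ)) ≤ 2 := by
  classical
  obtain ⟨h, hh1, hh2⟩ := bin_pack (fun c => mass blk1 w A y (fun q => blk2 q = c)) B
    (by linarith) (fun c => mass_nonneg hw _) hmass univ
  set G := ⌊2 * (A.card : ℝ) / B⌋₊ + 1 with hG
  have hlt : ∀ c, h c < G := by
    intro c
    have e1 := hh1 c (Finset.mem_univ c)
    have e2 : ⌊(∑ c, mass blk1 w A y (fun q => blk2 q = c)) / B⌋₊ ≤ ⌊2 * (A.card : ℝ) / B⌋₊ :=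
      Nat.floor_le_floor (div_le_div_of_nonneg_right (sum_mass_le hw blk2) (by linarith))
    omega
  -- outcomes
  let N : γ → Bool → ∀ c, Matrix (Fib blk2 c → Bool) (Fib blk2 c → Bool) ℂ :=
    fun _ t c => if t then 1 - M c else M c
  let EF : (γ → Bool) → Matrix (V → Bool) (V → Bool) ℂ :=
    fun f => bten blk2 (fun c => if f c then 1 - M c else M c)
  let ψ : (γ → Bool) → ℂ := fun f => (Sig blk1 w A y * EF f).trace
  let E : Fin G → (γ → Bool) → Prop := fun g f => ∃ c, h c = g ∧ f c = true
  have hEFp : ∀ f, (EF f)ᴴ = EF f ∧ EF f * EF f = EF f := by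
    intro f
    apply bten_proj
    · intro c
      split_ifs
      · rw [Matrix.conjTranspose_sub, Matrix.conjTranspose_one, h1 c]
      · exact h1 c
    · intro c
      split_ifs
      · rw [mul_sub, sub_mul, sub_mul, h2 c]; simp
      · exact h2 c
  have hsumS : ∀ S : Finset (Fin G),
      bten blk2 (fun c => if (∃ g ∈ S, h c = (g : ℕ)) then M c else 1)
        = ∑ f : γ → Bool, if (∀ g ∈ S, ¬ E g f) then EF f else 0 := by
    intro S
    have e1 : (fun c => if (∃ g ∈ S, h c = (g : ℕ)) then M c else 1)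
        = fun c => ∑ t : Bool, if t then (if (∃ g ∈ S, h c = (g : ℕ)) then 0 else 1 - M c)
            else M c := by
      funext c
      rw [Fintype.sum_bool]
      simp only [if_true, Bool.false_eq_true, if_false]
      split_ifs
      · simp
      · simp
    rw [e1, bten_sum blk2 (κ := fun _ => Bool) (fun c t => if t then
      (if (∃ g ∈ S, h c = (g : ℕ)) then 0 else 1 - M c) else M c)]
    refine Finset.sum_congr rfl fun f _ => ?_
    by_cases hf : ∀ g ∈ S, ¬ E g f
    · rw [if_pos hf]
      show bten blk2 _ = bten blk2 _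
      congr 1
      funext c
      by_cases hfc : f c = true
      · simp only [hfc, if_true]
        rw [if_neg]
        rintro ⟨g, hg, hgc⟩
        exact hf g hg ⟨c, hgc, hfc⟩
      · simp [hfc]
    · rw [if_neg hf]
      push Not at hf
      obtain ⟨g, hg, c, hgc, hfc⟩ := hf
      ext s t
      simp only [bten, Matrix.zero_apply]
      refine Finset.prod_eq_zero (Finset.mem_univ c) ?_
      simp only [hfc, if_true]
      rw [if_pos ⟨g, hg, hgc⟩]
      rfl
  have hψsum : ∑ f, ‖ψ f‖ ≤ 1 := by
    have hle : ∀ f, ‖ψ f‖ ≤ ∑ s, |∏ q, zet (fun q => q ∈ A) y q (s q)|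
        * nrm (EF f *ᵥ Psi blk1 w s) ^ 2 := by
      intro f
      show ‖(Sig blk1 w A y * EF f).trace‖ ≤ _
      rw [Sig, trace_eq_sum]
      refine (norm_sum_le _ _).trans (Finset.sum_le_sum fun s _ => ?_)
      rw [norm_mul, Complex.norm_real, Real.norm_eq_abs, ip_proj (hEFp f).1 (hEFp f).2,
        Complex.norm_real, Real.norm_eq_abs, abs_of_nonneg (sq_nonneg (nrm _))]
    refine (Finset.sum_le_sum fun f _ => hle f).trans ?_
    rw [Finset.sum_comm]
    have hone : ∀ s, ∑ f, nrm (EF f *ᵥ Psi blk1 w s) ^ 2 = 1 := by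
      intro s
      have e1 : ((∑ f, nrm (EF f *ᵥ Psi blk1 w s) ^ 2 : ℝ) : ℂ) = 1 := by
        push_cast
        have e2 : ∀ f, ((nrm (EF f *ᵥ Psi blk1 w s) : ℂ)) ^ 2
            = ip (Psi blk1 w s) (EF f *ᵥ Psi blk1 w s) := by
          intro f
          rw [ip_proj (hEFp f).1 (hEFp f).2]; push_cast; rfl
        simp only [e2]
        have e3 : ∑ f, EF f = 1 := by
          have := hsumS ∅
          simp only [Finset.notMem_empty, false_and, exists_false, if_false, false_imp_iff,
            implies_true, if_true] at this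
          rw [← this, bten_one]
        have e4 : ∑ f, ip (Psi blk1 w s) (EF f *ᵥ Psi blk1 w s)
            = ip (Psi blk1 w s) ((∑ f, EF f) *ᵥ Psi blk1 w s) := by
          rw [Matrix.sum_mulVec]
          simp only [ip, Finset.sum_apply, Finset.mul_sum]
          rw [Finset.sum_comm]
        rw [e4, e3, Matrix.one_mulVec, ip_unit (nrm_Psi hw s)]
      exact_mod_cast e1
    have : ∀ s : V → Bool, ∑ f, |∏ q, zet (fun q => q ∈ A) y q (s q)|
        * nrm (EF f *ᵥ Psi blk1 w s) ^ 2 = |∏ q, zet (fun q => q ∈ A) y q (s q)| := by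
      intro s
      rw [← Finset.mul_sum, hone s, mul_one]
    simp only [this]
    exact sum_abs_prod_zet
  have hmon : ∀ S : Finset (Fin G), S.card ≤ k →
      ‖∑ f, if (∀ g ∈ S, ¬ E g f) then ψ f else 0‖
        ≤ Real.exp (26 * B * k - A.card / 5) := by
    intro S hS
    have e1 : ∑ f, (if (∀ g ∈ S, ¬ E g f) then ψ f else 0)
        = (Sig blk1 w A y * bten blk2 (fun c => if (∃ g ∈ S, h c = (g : ℕ)) then M c else 1)).trace := by
      rw [hsumS S, Finset.mul_sum, Matrix.trace_sum]
      refine Finset.sum_congr rfl fun f _ => ?_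
      split_ifs
      · rfl
      · simp
    rw [e1]
    set S' : Finset γ := univ.filter (fun c => ∃ g ∈ S, h c = (g : ℕ)) with hS'
    have hproj := bten_proj blk2 (M := fun c => if (∃ g ∈ S, h c = (g : ℕ)) then M c else 1)
      (fun c => by split_ifs; exacts [h1 c, Matrix.conjTranspose_one])
      (fun c => by split_ifs; exacts [h2 c, one_mul 1])
    have hb := monomial_bound (y := y) hw blk2 S' hk2
      (fun c => if (∃ g ∈ S, h c = (g : ℕ)) then M c else 1)
      (fun c hc => by
        rw [if_neg]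
        intro h'
        exact hc (by simp [hS', h']))
      (contr_of_proj hproj.1 hproj.2)
    refine hb.trans (Real.exp_le_exp.mpr ?_)
    have hm1 := mass_mem_le (blk1 := blk1) (A := A) (y := y) hw blk2 S'
    have hm2 : ∑ c ∈ S', mass blk1 w A y (fun q => blk2 q = c) ≤ k * (2 * B) := by
      have e2 : S' = S.biUnion (fun g => univ.filter (fun c => h c = (g : ℕ))) := by
        ext c; simp [hS']
      rw [e2, Finset.sum_biUnion]
      · refine (Finset.sum_le_card_nsmul S _ (2 * B) (fun g _ => (hh2 (g : ℕ)).1)).trans ?_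
        rw [nsmul_eq_mul]
        have : (S.card : ℝ) ≤ k := by exact_mod_cast hS
        exact mul_le_mul_of_nonneg_right this (by linarith)
      · intro g _ g' _ hne
        rw [Function.onFun, Finset.disjoint_left]
        intro c hc hc'
        simp only [Finset.mem_filter, Finset.mem_univ, true_and] at hc hc'
        exact hne (Fin.ext (hc.symm.trans hc'))
    nlinarith
  have hres := comb_main (G := G) (by omega) E ψ (fun _ => false) (fun g => by
      rintro ⟨c, _, hc⟩; simp at hc)
    (fun f hf => by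
      have : ∃ c, f c = true := by
        by_contra hcon
        push Not at hcon
        apply hf
        funext c
        simpa using hcon c
      obtain ⟨c, hc⟩ := this
      exact ⟨⟨h c, hlt c⟩, c, rfl, hc⟩)
    (τ := Real.exp (26 * B * k - A.card / 5)) (Real.exp_pos _).le k hψsum hmon
  have hψ0 : ψ (fun _ => false) = (Sig blk1 w A y * bten blk2 M).trace := by
    show (Sig blk1 w A y * bten blk2 _).trace = _
    simp
  rw [hψ0] at hres
  refine hres.trans ?_
  have h13 : (13 : ℝ) ^ k ≤ Real.exp (3 * k) := by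
    have : (13 : ℝ) ≤ Real.exp 3 := by
      have e := Real.exp_one_gt_d9
      have : Real.exp 3 = Real.exp 1 ^ 3 := by rw [← Real.exp_nat_mul]; norm_num
      rw [this]
      calc (13 : ℝ) ≤ 2.7 ^ 3 := by norm_num
        _ ≤ Real.exp 1 ^ 3 := pow_le_pow_left₀ (by norm_num) (by linarith) 3
    calc (13 : ℝ) ^ k ≤ Real.exp 3 ^ k := pow_le_pow_left₀ (by norm_num) this k
      _ = Real.exp (3 * k) := by rw [← Real.exp_nat_mul]; ring_nf
  have : (13 : ℝ) ^ k * Real.exp (26 * B * k - A.card / 5) ≤ 1 := by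
    calc (13 : ℝ) ^ k * Real.exp (26 * B * k - A.card / 5)
        ≤ Real.exp (3 * k) * Real.exp (26 * B * k - A.card / 5) :=
          mul_le_mul_of_nonneg_right h13 (Real.exp_pos _).le
      _ = Real.exp (3 * k + (26 * B * k - A.card / 5)) := by rw [Real.exp_add]
      _ ≤ 1 := by
          rw [Real.exp_le_one_iff]; linarith
  linarith

end CoreThm

end Vale.Agent.H29.QAC
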