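import Vale.Agent.H29.QAC.Circ2

set_option linter.unusedSectionVars false
set_option linter.unusedSimpArgs false

namespace Vale.Agent.H29.QAC

open Matrix Finset Vale.Agent.H29.QACDefs

theorem sq_le_exp (x : ℝ) (hx : 0 ≤ x) : x ^ 2 / 2 ≤ Real.exp x := by
  have := Real.quadratic_le_exp_of_nonneg hx
  linarith

theorem numeric (n a : ℕ) (h1 : n ≤ 2 * a) (X : ℝ) (hX1 : X ≤ 1)
    (hX : ∀ (B : ℝ) (k : ℕ), 1 ≤ B → 26 * B * k + 3 * k ≤ (a : ℝ) / 5 →
      X ≤ 6 * (2 / Real.cosh (k / Real.sqrt (⌊2 * (a : ℝ) / B⌋₊ + 1 : ℕ))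
        + 8 * (a / B) * Real.exp (-(B / 4)))) :
    X ≤ 6168 * Real.exp (-((n : ℝ) ^ (1 / 3 : ℝ) / 640)) := by
  set t : ℝ := (a : ℝ) ^ (1 / 3 : ℝ) with ht
  have ht0 : 0 ≤ t := Real.rpow_nonneg (by positivity) _
  have ht3 : t ^ 3 = a := by
    rw [ht, ← Real.rpow_natCast, ← Real.rpow_mul (by positivity)]; norm_num
  have hn : (n : ℝ) ^ (1 / 3 : ℝ) ≤ 1.26 * t := by
    have h2 : (n : ℝ) ≤ (1.26 * t) ^ 3 := by
      rw [mul_pow, ht3]
      have : (n : ℝ) ≤ 2 * a := by exact_mod_cast h1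
      have ha : (0 : ℝ) ≤ a := by positivity
      nlinarith
    calc (n : ℝ) ^ (1 / 3 : ℝ) ≤ ((1.26 * t) ^ 3) ^ (1 / 3 : ℝ) :=
          Real.rpow_le_rpow (by positivity) h2 (by norm_num)
      _ = 1.26 * t := by
          rw [← Real.rpow_natCast, ← Real.rpow_mul (by positivity)]; norm_num
  have hgoal : Real.exp (-(t / 503)) ≤ Real.exp (-((n : ℝ) ^ (1 / 3 : ℝ) / 640)) := by
    apply Real.exp_le_exp.mpr
    have : (n : ℝ) ^ (1 / 3 : ℝ) / 640 ≤ 1.26 * t / 640 := div_le_div_of_nonneg_right hn (by norm_num)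
    have : 1.26 * t / 640 ≤ t / 503 := by
      rw [div_le_div_iff₀ (by norm_num) (by norm_num)]; nlinarith
    linarith
  refine le_trans ?_ (mul_le_mul_of_nonneg_left hgoal (by norm_num))
  by_cases hsm : t < 12.05
  · have : Real.exp (-1) ≤ Real.exp (-(t / 503)) := by
      apply Real.exp_le_exp.mpr
      have : t / 503 ≤ 1 := by rw [div_le_one (by norm_num)]; linarith
      linarith
    have h3 : (1 / 3 : ℝ) ≤ Real.exp (-1) := by
      rw [Real.exp_neg, one_div]
      apply inv_anti₀ (Real.exp_pos _)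
      have := Real.exp_one_lt_d9
      linarith
    linarith
  · push Not at hsm
    have ht2 : 145 ≤ t ^ 2 := by nlinarith
    have hB : 1 ≤ t := by linarith
    set k : ℕ := ⌊t ^ 2 / 145⌋₊ with hk
    have hk1 : (k : ℝ) ≤ t ^ 2 / 145 := Nat.floor_le (by positivity)
    have hk2 : t ^ 2 / 290 ≤ k := by
      have h4 := Nat.lt_floor_add_one (t ^ 2 / 145)
      rw [← hk] at h4
      have h5 : (1 : ℝ) ≤ k := by
        have : 1 ≤ k := by
          rw [hk]; apply Nat.le_floor; push_cast; rw [le_div_iff₀ (by norm_num)]; linarith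
        exact_mod_cast this
      linarith
    have hbd := hX t k hB (by
      rw [← ht3]
      have e1 : (26 * t + 3) * (k : ℝ) ≤ 29 * t * (t ^ 2 / 145) := by
        apply mul_le_mul _ hk1 (by positivity) (by positivity)
        linarith
      nlinarith)
    refine hbd.trans ?_
    have hG : Real.sqrt (⌊2 * (a : ℝ) / t⌋₊ + 1 : ℕ) ≤ 1.733 * t := by
      apply Real.sqrt_le_iff.mpr
      refine ⟨by positivity, ?_⟩
      have e1 : (⌊2 * (a : ℝ) / t⌋₊ : ℝ) ≤ 2 * t ^ 2 := by
        refine (Nat.floor_le (by positivity)).trans ?_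
        rw [← ht3, div_le_iff₀ (by linarith)]
        nlinarith
      push_cast
      nlinarith
    have hG0 : 0 < Real.sqrt (⌊2 * (a : ℝ) / t⌋₊ + 1 : ℕ) := by
      apply Real.sqrt_pos.mpr; positivity
    have hx : t / 503 ≤ k / Real.sqrt (⌊2 * (a : ℝ) / t⌋₊ + 1 : ℕ) := by
      rw [le_div_iff₀ hG0]
      calc t / 503 * Real.sqrt (⌊2 * (a : ℝ) / t⌋₊ + 1 : ℕ) ≤ t / 503 * (1.733 * t) :=
            mul_le_mul_of_nonneg_left hG (by positivity)
        _ ≤ t ^ 2 / 290 := by nlinarith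
        _ ≤ k := hk2
    have hcosh : 2 / Real.cosh (k / Real.sqrt (⌊2 * (a : ℝ) / t⌋₊ + 1 : ℕ))
        ≤ 4 * Real.exp (-(t / 503)) := by
      rw [div_le_iff₀ (Real.cosh_pos _)]
      have e1 : Real.exp (t / 503) / 2 ≤ Real.cosh (k / Real.sqrt (⌊2 * (a : ℝ) / t⌋₊ + 1 : ℕ)) := by
        rw [Real.cosh_eq]
        have e2 := Real.exp_le_exp.mpr hx
        have e3 := Real.exp_pos (-(k / Real.sqrt (⌊2 * (a : ℝ) / t⌋₊ + 1 : ℕ)))
        linarith
      have e4 : Real.exp (-(t / 503)) * Real.exp (t / 503) = 1 := by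
        rw [← Real.exp_add]; simp
      have e5 := mul_le_mul_of_nonneg_left e1 (Real.exp_pos (-(t / 503))).le
      nlinarith
    have hheavy : 8 * ((a : ℝ) / t) * Real.exp (-(t / 4)) ≤ 1024 * Real.exp (-(t / 503)) := by
      have e1 : (a : ℝ) / t = t ^ 2 := by
        rw [← ht3, div_eq_iff (by linarith)]; ring
      rw [e1]
      have e2 := sq_le_exp (t / 8) (by positivity)
      have e3 : Real.exp (-(t / 4)) = Real.exp (-(t / 8)) * Real.exp (-(t / 8)) := by
        rw [← Real.exp_add]; congr 1; ring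
      have e4 : Real.exp (t / 8) * Real.exp (-(t / 8)) = 1 := by
        rw [← Real.exp_add]; simp
      have e5 : t ^ 2 * Real.exp (-(t / 8)) ≤ 128 := by
        have := mul_le_mul_of_nonneg_right e2 (Real.exp_pos (-(t / 8))).le
        rw [e4] at this
        nlinarith
      have e6 : Real.exp (-(t / 8)) ≤ Real.exp (-(t / 503)) := by
        apply Real.exp_le_exp.mpr
        have : t / 503 ≤ t / 8 := div_le_div_of_nonneg_left ht0 (by norm_num) (by norm_num)
        linarith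
      calc 8 * t ^ 2 * Real.exp (-(t / 4)) = 8 * (t ^ 2 * Real.exp (-(t / 8))) * Real.exp (-(t / 8)) := by
            rw [e3]; ring
        _ ≤ 8 * 128 * Real.exp (-(t / 503)) := by
            apply mul_le_mul _ e6 (Real.exp_pos _).le (by norm_num)
            linarith
        _ = 1024 * Real.exp (-(t / 503)) := by norm_num
    linarith

theorem depth_three {n N : ℕ} (hn : n ≤ N) (c : List (Layer N)) (hc : entDepth c ≤ 3)
    (o : Fin N) : |parCorr n c o| ≤ 6168 * Real.exp (-((n : ℝ) ^ (1 / 3 : ℝ) / 640)) := by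
  obtain ⟨a, h1, _, h3⟩ := corr_bound hn c hc o
  exact numeric n a h1 _ (parCorr_le_one c hc o) h3

end Vale.Agent.H29.QAC
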