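import Vale.Agent.H29.QAC.Core

set_option linter.unusedSectionVars false
set_option linter.unusedSimpArgs false

namespace Vale.Agent.H29.QAC

open Matrix Finset

section LayerSec

variable {V : Type} [Fintype V] [DecidableEq V]

/-- test projector on `D` -/
noncomputable def Pt (u : V → Bool → ℂ) (D : Finset V) : Matrix (V → Bool) (V → Bool) ℂ :=
  tens (Om (fun q => q ∈ D) u)

/-- reflection gate supported on `D` -/
noncomputable def Rf (u : V → Bool → ℂ) (D : Finset V) : Matrix (V → Bool) (V → Bool) ℂ :=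
  1 - (2 : ℂ) • Pt u D

/-- product of the reflections of a layer -/
noncomputable def LP (u : V → Bool → ℂ) (l : List (Finset V)) :
    Matrix (V → Bool) (V → Bool) ℂ := (l.map (Rf u)).prod

/-- the block of a qubit in a layer -/
def own (l : List (Finset V)) (q : V) : Finset V :=
  (l.find? (fun D => decide (q ∈ D))).getD {q}

structure Good (l : List (Finset V)) : Prop where
  ne : ∀ D ∈ l, D.Nonempty
  disj : l.Pairwise (fun D E => Disjoint D E)

theorem Good.tail {D : Finset V} {l : List (Finset V)} (h : Good (D :: l)) : Good l :=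
  ⟨fun E hE => h.ne E (List.mem_cons_of_mem _ hE), (List.pairwise_cons.mp h.disj).2⟩

theorem Good.eq_of_mem {l : List (Finset V)} (h : Good l) {D E : Finset V} (hD : D ∈ l)
    (hE : E ∈ l) {q : V} (h1 : q ∈ D) (h2 : q ∈ E) : D = E := by
  by_contra hne
  have hsym : ∀ l : List (Finset V), l.Pairwise (fun D E => Disjoint D E) →
      ∀ D ∈ l, ∀ E ∈ l, D ≠ E → Disjoint D E := by
    intro l
    induction l with
    | nil => intro _ D hD; simp at hD
    | cons F l ih =>
      intro hp D hD E hE hne
      rw [List.pairwise_cons] at hp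
      rcases List.mem_cons.mp hD with hD1 | hD1
      · rcases List.mem_cons.mp hE with hE1 | hE1
        · exact absurd (hD1.trans hE1.symm) hne
        · rw [hD1]; exact hp.1 E hE1
      · rcases List.mem_cons.mp hE with hE1 | hE1
        · rw [hE1]; exact (hp.1 D hD1).symm
        · exact ih hp.2 D hD1 E hE1 hne
  exact Finset.disjoint_left.mp (hsym l h.disj D hD E hE hne) h1 h2

theorem Good.nodup {l : List (Finset V)} (h : Good l) : l.Nodup := by
  refine List.Pairwise.imp_of_mem ?_ h.disj
  intro D E hD _ hdis heq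
  subst heq
  obtain ⟨q, hq⟩ := h.ne D hD
  exact Finset.disjoint_left.mp hdis hq hq

theorem own_mem (l : List (Finset V)) (q : V) : q ∈ own l q := by
  unfold own
  cases h : l.find? (fun D => decide (q ∈ D)) with
  | none => simp
  | some D =>
    have := List.find?_some h
    simpa using this

theorem own_eq {l : List (Finset V)} (h : Good l) {D : Finset V} (hD : D ∈ l) {q : V}
    (hq : q ∈ D) : own l q = D := by
  unfold own
  cases h' : l.find? (fun D => decide (q ∈ D)) with
  | none =>
    have := List.find?_eq_none.mp h' D hD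
    simp [hq] at this
  | some E =>
    have h1 := List.find?_some h'
    have h2 := List.mem_of_find?_eq_some h'
    simp only [decide_eq_true_eq] at h1
    exact (h.eq_of_mem h2 hD h1 hq)

theorem own_of_not {l : List (Finset V)} {q : V} (h : ∀ D ∈ l, q ∉ D) : own l q = {q} := by
  unfold own
  have : l.find? (fun D => decide (q ∈ D)) = none := by
    rw [List.find?_eq_none]
    intro D hD
    simpa using h D hD
  rw [this]; rfl

theorem own_iff {l : List (Finset V)} (h : Good l) {D : Finset V} (hD : D ∈ l) (q : V) :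
    own l q = D ↔ q ∈ D :=
  ⟨fun h' => h' ▸ own_mem l q, fun hq => own_eq h hD hq⟩

theorem Pt_herm (u : V → Bool → ℂ) (D : Finset V) : (Pt u D)ᴴ = Pt u D := by
  rw [Pt, tens_conjTranspose]; congr 1; funext q; exact Om_herm _ u q

theorem Pt_sq {u : V → Bool → ℂ} (hu : ∀ q, nrm (u q) = 1) (D : Finset V) :
    Pt u D * Pt u D = Pt u D := by
  rw [Pt, tens_mul]; congr 1; funext q; exact Om_sq _ hu q

theorem Rf_herm (u : V → Bool → ℂ) (D : Finset V) : (Rf u D)ᴴ = Rf u D := by
  rw [Rf, Matrix.conjTranspose_sub, Matrix.conjTranspose_smul, Pt_herm]; simp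

theorem Rf_sq {u : V → Bool → ℂ} (hu : ∀ q, nrm (u q) = 1) (D : Finset V) :
    Rf u D * Rf u D = 1 := by
  have h := Pt_sq hu D
  simp only [Rf, sub_mul, mul_sub, one_mul, mul_one, smul_mul_assoc, mul_smul_comm, h]
  module

theorem Pt_comm {u v : V → Bool → ℂ} {D E : Finset V} (h : Disjoint D E) :
    Pt u D * Pt v E = Pt v E * Pt u D := by
  rw [Pt, Pt, tens_mul, tens_mul]
  congr 1; funext q
  simp only [Om]
  by_cases h1 : q ∈ D
  · have h2 : q ∉ E := Finset.disjoint_left.mp h h1
    simp [h1, h2]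
  · simp [h1]

theorem Rf_comm {u v : V → Bool → ℂ} {D E : Finset V} (h : Disjoint D E) :
    Rf u D * Rf v E = Rf v E * Rf u D := by
  simp only [Rf, sub_mul, mul_sub, one_mul, mul_one, smul_mul_assoc, mul_smul_comm,
    Pt_comm (u := u) (v := v) h]
  module

theorem LP_nil (u : V → Bool → ℂ) : LP u [] = 1 := rfl

theorem LP_cons (u : V → Bool → ℂ) (D : Finset V) (l : List (Finset V)) :
    LP u (D :: l) = Rf u D * LP u l := by
  simp [LP]

theorem LP_unitary {u : V → Bool → ℂ} (hu : ∀ q, nrm (u q) = 1) (l : List (Finset V)) :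
    (LP u l)ᴴ * LP u l = 1 := by
  induction l with
  | nil => simp [LP_nil]
  | cons D l ih =>
    rw [LP_cons, Matrix.conjTranspose_mul, Rf_herm, Matrix.mul_assoc, ← Matrix.mul_assoc (Rf u D),
      Rf_sq hu, Matrix.one_mul, ih]

theorem Rf_LP_comm {u v : V → Bool → ℂ} {D : Finset V} (l : List (Finset V))
    (h : ∀ E ∈ l, Disjoint D E) : Rf u D * LP v l = LP v l * Rf u D := by
  induction l with
  | nil => simp [LP_nil]
  | cons E l ih =>
    rw [LP_cons, ← Matrix.mul_assoc, Rf_comm (h E (by simp)), Matrix.mul_assoc,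
      ih (fun E' hE' => h E' (by simp [hE'])), Matrix.mul_assoc]

theorem Rf_sub {u : V → Bool → ℂ} (D : Finset V) (Ψ : (V → Bool) → ℂ) :
    nrm (Rf u D *ᵥ Ψ - Ψ) = 2 * nrm (Pt u D *ᵥ Ψ) := by
  rw [Rf, Matrix.sub_mulVec, Matrix.one_mulVec, Matrix.smul_mulVec]
  have : Ψ - (2 : ℂ) • Pt u D *ᵥ Ψ - Ψ = (-2 : ℂ) • Pt u D *ᵥ Ψ := by
    rw [neg_smul]; abel
  rw [this, nrm_smul]; simp

theorem removal {u : V → Bool → ℂ} (hu : ∀ q, nrm (u q) = 1) (lt : Finset V → Bool)
    (Ψ : (V → Bool) → ℂ) (l : List (Finset V)) (hl : Good l) :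
    nrm (LP u l *ᵥ Ψ - LP u (l.filter lt) *ᵥ Ψ)
      ≤ ((l.filter (fun D => !lt D)).map (fun D => 2 * nrm (Pt u D *ᵥ Ψ))).sum := by
  induction l with
  | nil => simp [LP_nil, nrm]
  | cons D l ih =>
    have ih' := ih hl.tail
    have hdis : ∀ E ∈ l, Disjoint D E := (List.pairwise_cons.mp hl.disj).1
    by_cases hD : lt D = true
    · rw [List.filter_cons_of_pos hD, List.filter_cons_of_neg (by simp [hD]), LP_cons, LP_cons,
        ← Matrix.mulVec_mulVec, ← Matrix.mulVec_mulVec, ← Matrix.mulVec_sub,
        nrm_of_unitary (by rw [Rf_herm, Rf_sq hu])]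
      exact ih'
    · rw [List.filter_cons_of_neg hD, List.filter_cons_of_pos (by simp [hD]), List.map_cons,
        List.sum_cons, LP_cons]
      have e : (Rf u D * LP u l) *ᵥ Ψ - LP u (l.filter lt) *ᵥ Ψ
          = LP u l *ᵥ (Rf u D *ᵥ Ψ - Ψ) + (LP u l *ᵥ Ψ - LP u (l.filter lt) *ᵥ Ψ) := by
        rw [Rf_LP_comm l hdis, ← Matrix.mulVec_mulVec, Matrix.mulVec_sub]
        abel
      rw [e]
      refine (nrm_add_le _ _).trans (add_le_add ?_ ih')
      rw [nrm_of_unitary (LP_unitary hu l), Rf_sub]

/-- block form of a single gate -/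
theorem Rf_bten {l : List (Finset V)} (hl : Good l) (u : V → Bool → ℂ) {D : Finset V}
    (hD : D ∈ l) :
    Rf u D = bten (own l) (fun c => if c = D then rf (fun q : Fib (own l) c => u q.1) else 1) := by
  have h1 : Pt u D = bten (own l) (fun c => if c = D then
      tens (fun q : Fib (own l) c => rk (u q.1) (u q.1)) else 1) := by
    rw [Pt, tens_eq_bten (own l)]
    congr 1; funext c
    split_ifs with hc
    · subst hc
      congr 1; funext q
      have : q.1 ∈ c := (own_iff hl hD q.1).mp q.2
      simp [Om, this]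
    · have : (fun q : Fib (own l) c => Om (fun q => q ∈ D) u q.1) = fun _ => 1 := by
        funext q
        have : q.1 ∉ D := fun h => hc ((q.2).symm.trans (own_eq hl hD h))
        simp [Om, this]
      rw [this, tens_one]
  ext s t
  rw [Rf, h1, ← bten_one (own l)]
  simp only [Matrix.sub_apply, Matrix.smul_apply, smul_eq_mul, bten]
  rw [← Finset.mul_prod_erase univ _ (Finset.mem_univ D),
    ← Finset.mul_prod_erase univ (fun c => (if c = D then
      tens (fun q : Fib (own l) c => rk (u q.1) (u q.1)) else 1) _ _) (Finset.mem_univ D),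
    ← Finset.mul_prod_erase univ (fun c => (if c = D then
      rf (fun q : Fib (own l) c => u q.1) else 1) _ _) (Finset.mem_univ D)]
  have e1 : ∏ c ∈ univ.erase D, (if c = D then
      tens (fun q : Fib (own l) c => rk (u q.1) (u q.1)) else 1)
        (fun q : Fib (own l) c => s q.1) (fun q => t q.1)
      = ∏ c ∈ univ.erase D, (1 : Matrix (Fib (own l) c → Bool) (Fib (own l) c → Bool) ℂ)
        (fun q => s q.1) (fun q => t q.1) := by
    refine Finset.prod_congr rfl fun c hc => ?_
    rw [if_neg (Finset.ne_of_mem_erase hc)]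
  have e2 : ∏ c ∈ univ.erase D, (if c = D then
      rf (fun q : Fib (own l) c => u q.1) else 1)
        (fun q : Fib (own l) c => s q.1) (fun q => t q.1)
      = ∏ c ∈ univ.erase D, (1 : Matrix (Fib (own l) c → Bool) (Fib (own l) c → Bool) ℂ)
        (fun q => s q.1) (fun q => t q.1) := by
    refine Finset.prod_congr rfl fun c hc => ?_
    rw [if_neg (Finset.ne_of_mem_erase hc)]
  rw [e1, e2]
  simp only [if_true, rf, Matrix.sub_apply, Matrix.smul_apply, smul_eq_mul]
  ring

theorem LP_bten {l : List (Finset V)} (hl : Good l) (u : V → Bool → ℂ) (l0 : List (Finset V))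
    (hsub : ∀ D ∈ l0, D ∈ l) (hn : l0.Nodup) :
    LP u l0 = bten (own l) (fun c => if c ∈ l0 then rf (fun q : Fib (own l) c => u q.1) else 1) := by
  induction l0 with
  | nil => simp [LP_nil, bten_one]
  | cons D l0 ih =>
    have hD0 : D ∉ l0 := (List.nodup_cons.mp hn).1
    rw [LP_cons, ih (fun E hE => hsub E (by simp [hE])) (List.nodup_cons.mp hn).2,
      Rf_bten hl u (hsub D (by simp)), bten_mul]
    congr 1; funext c
    by_cases hc : c = D
    · subst hc; simp [hD0]
    · simp [hc]

end LayerSec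

end Vale.Agent.H29.QAC
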