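import Vale.Agent.H29.QAC.PassSmall

set_option linter.unusedSectionVars false
set_option linter.unusedSimpArgs false

namespace Vale.Agent.H29.QAC

open Matrix Finset

section MassSec

variable {V β γ : Type} [Fintype V] [DecidableEq V] [Fintype β] [DecidableEq β]
  [Fintype γ] [DecidableEq γ]

/-- number of live inputs in block `b` -/
def kb (blk1 : V → β) (A : Finset V) (b : β) : ℕ :=
  ∑ q : Fib blk1 b, if q.1 ∈ A then 1 else 0

/-- number of live inputs in block `b` inside `D` -/
noncomputable def jb (blk1 : V → β) (A : Finset V) (D : V → Prop) [DecidablePred D] (b : β) : ℝ :=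
  ∑ q : Fib blk1 b, if q.1 ∈ A ∧ D q.1 then 1 else 0

noncomputable def cJb (blk1 : V → β) (w : V → Bool → ℂ) (A : Finset V) (y : V → Bool) (b : β) : ℝ :=
  cJ (U := Fib blk1 b) (fun q => q.1 ∈ A) (fun q => w q.1) (fun q => y q.1)

noncomputable def cTb (blk1 : V → β) (w : V → Bool → ℂ) (A : Finset V) (y : V → Bool)
    (D : V → Prop) [DecidablePred D] (b : β) : ℝ :=
  cT (U := Fib blk1 b) (fun q => D q.1) (fun q => q.1 ∈ A) (fun q => w q.1) (fun q => y q.1)

noncomputable def mb (blk1 : V → β) (w : V → Bool → ℂ) (A : Finset V) (y : V → Bool)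
    (D : V → Prop) [DecidablePred D] (b : β) : ℝ :=
  if kb blk1 A b = 1 then cJb blk1 w A y b * (1 - cTb blk1 w A y D b) else 0

/-- the mass of a set of qubits -/
noncomputable def mass (blk1 : V → β) (w : V → Bool → ℂ) (A : Finset V) (y : V → Bool)
    (D : V → Prop) [DecidablePred D] : ℝ :=
  ∑ b, (jb blk1 A D b + mb blk1 w A y D b)

variable {blk1 : V → β} {w : V → Bool → ℂ} {A : Finset V} {y : V → Bool}

theorem sum_kb : ∑ b, kb blk1 A b = A.card := by
  simp only [kb]
  rw [← sum_fib blk1 (fun q => if q ∈ A then 1 else 0)]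
  simp

theorem jb_nonneg (D : V → Prop) [DecidablePred D] (b : β) : 0 ≤ jb blk1 A D b :=
  Finset.sum_nonneg fun q _ => by split_ifs <;> norm_num

theorem jb_le_kb (D : V → Prop) [DecidablePred D] (b : β) : jb blk1 A D b ≤ kb blk1 A b := by
  simp only [jb, kb]
  push_cast
  refine Finset.sum_le_sum fun q _ => ?_
  by_cases h : q.1 ∈ A <;> by_cases h2 : D q.1 <;> simp [h, h2]

theorem cJb_mem (hw : ∀ q, nrm (w q) = 1) (b : β) :
    0 ≤ cJb blk1 w A y b ∧ cJb blk1 w A y b ≤ 1 :=
  cJ_mem (fun q => hw q.1)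

theorem cTb_mem (hw : ∀ q, nrm (w q) = 1) (D : V → Prop) [DecidablePred D] (b : β) :
    0 ≤ cTb blk1 w A y D b ∧ cTb blk1 w A y D b ≤ 1 := by
  unfold cTb
  exact cT_mem (U := Fib blk1 b) (al := fun q => q.1 ∈ A) (w := fun q => w q.1)
    (y := fun q => y q.1) (fun q => hw q.1) (fun q => D q.1)

theorem cJb_le_cTb (hw : ∀ q, nrm (w q) = 1) (D : V → Prop) [DecidablePred D] (b : β) :
    cJb blk1 w A y b ≤ cTb blk1 w A y D b := by
  have h := cT_mul_cT (U := Fib blk1 b) (al := fun q => q.1 ∈ A) (w := fun q => w q.1)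
    (y := fun q => y q.1) (fun q => D q.1)
  have h1 := cT_mem (U := Fib blk1 b) (al := fun q => q.1 ∈ A) (w := fun q => w q.1)
    (y := fun q => y q.1) (fun q => hw q.1) (fun q => D q.1)
  have h2 := cT_mem (U := Fib blk1 b) (al := fun q => q.1 ∈ A) (w := fun q => w q.1)
    (y := fun q => y q.1) (fun q => hw q.1) (fun q => ¬ D q.1)
  unfold cJb cTb
  rw [← h]
  nlinarith [h1.1, h1.2, h2.1, h2.2]

theorem mb_nonneg (hw : ∀ q, nrm (w q) = 1) (D : V → Prop) [DecidablePred D] (b : β) :
    0 ≤ mb blk1 w A y D b := by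
  unfold mb
  split_ifs
  · have h1 := (cJb_mem (A := A) (y := y) (blk1 := blk1) hw b).1
    have h2 := (cTb_mem (A := A) (y := y) (blk1 := blk1) hw D b).2
    exact mul_nonneg h1 (by linarith)
  · exact le_refl _

theorem mb_le_quarter (hw : ∀ q, nrm (w q) = 1) (D : V → Prop) [DecidablePred D] (b : β) :
    mb blk1 w A y D b ≤ 1 / 4 := by
  unfold mb
  split_ifs
  · have h1 := cJb_le_cTb (A := A) (y := y) (blk1 := blk1) hw D b
    have h2 := (cTb_mem (A := A) (y := y) (blk1 := blk1) hw D b)
    nlinarith [sq_nonneg (cTb blk1 w A y D b - 1 / 2), mul_le_mul_of_nonneg_right h1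
      (sub_nonneg.mpr h2.2)]
  · norm_num

theorem mass_nonneg (hw : ∀ q, nrm (w q) = 1) (D : V → Prop) [DecidablePred D] :
    0 ≤ mass blk1 w A y D :=
  Finset.sum_nonneg fun b _ => add_nonneg (jb_nonneg D b) (mb_nonneg hw D b)

theorem mass_or_le (hw : ∀ q, nrm (w q) = 1) (D D' : V → Prop) [DecidablePred D]
    [DecidablePred D'] :
    mass blk1 w A y (fun q => D q ∨ D' q) ≤ mass blk1 w A y D + mass blk1 w A y D' := by
  simp only [mass, ← Finset.sum_add_distrib]
  refine Finset.sum_le_sum fun b _ => ?_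
  have h1 : jb blk1 A (fun q => D q ∨ D' q) b ≤ jb blk1 A D b + jb blk1 A D' b := by
    simp only [jb, ← Finset.sum_add_distrib]
    refine Finset.sum_le_sum fun q _ => ?_
    by_cases h : q.1 ∈ A <;> by_cases h2 : D q.1 <;> by_cases h3 : D' q.1 <;> simp [h, h2, h3]
  have h2 : mb blk1 w A y (fun q => D q ∨ D' q) b ≤ mb blk1 w A y D b + mb blk1 w A y D' b := by
    unfold mb
    split_ifs
    · have e : cTb blk1 w A y D b * cTb blk1 w A y D' b
          ≤ cTb blk1 w A y (fun q => D q ∨ D' q) b := by
        simp only [cTb, cT, ← Finset.prod_mul_distrib]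
        refine Finset.prod_le_prod (fun q _ => ?_) fun q _ => ?_
        · refine mul_nonneg ?_ ?_ <;> split_ifs <;> first | exact kap_nonneg _ | norm_num
        · have k0 := kap_nonneg (w := fun q : Fib blk1 b => w q.1) (y := fun q => y q.1) q
          have k1 := kap_le_one (w := fun q : Fib blk1 b => w q.1) (y := fun q => y q.1)
            (fun q => hw q.1) q
          by_cases h : q.1 ∈ A <;> by_cases h2 : D q.1 <;> by_cases h3 : D' q.1 <;>
            simp [h, h2, h3]
          nlinarith
      have a1 := (cTb_mem (A := A) (y := y) (blk1 := blk1) hw D b)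
      have a2 := (cTb_mem (A := A) (y := y) (blk1 := blk1) hw D' b)
      have a3 := (cJb_mem (A := A) (y := y) (blk1 := blk1) hw b).1
      have : 1 - cTb blk1 w A y (fun q => D q ∨ D' q) b
          ≤ (1 - cTb blk1 w A y D b) + (1 - cTb blk1 w A y D' b) := by
        nlinarith [mul_nonneg (sub_nonneg.mpr a1.2) (sub_nonneg.mpr a2.2)]
      calc _ ≤ cJb blk1 w A y b * ((1 - cTb blk1 w A y D b) + (1 - cTb blk1 w A y D' b)) :=
            mul_le_mul_of_nonneg_left this a3
        _ = _ := by ring
    · simp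
  linarith

theorem mass_false : mass blk1 w A y (fun _ => False) = 0 := by
  simp [mass, jb, mb, cTb, cT]

theorem mass_congr {D D' : V → Prop} [DecidablePred D] [DecidablePred D'] (h : ∀ q, D q ↔ D' q) :
    mass blk1 w A y D = mass blk1 w A y D' := by
  have : D = D' := funext fun q => propext (h q)
  subst this
  congr

theorem mass_mem_le (hw : ∀ q, nrm (w q) = 1) (blk2 : V → γ) (S : Finset γ) :
    mass blk1 w A y (fun q => blk2 q ∈ S) ≤ ∑ c ∈ S, mass blk1 w A y (fun q => blk2 q = c) := by
  induction S using Finset.induction_on with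
  | empty =>
    rw [mass_congr (D' := fun _ => False) (fun q => by simp), mass_false]
    simp
  | insert c S hc ih =>
    rw [Finset.sum_insert hc, mass_congr (D' := fun q => blk2 q = c ∨ blk2 q ∈ S)
      (fun q => by simp)]
    exact (mass_or_le hw _ _).trans (by linarith)

theorem prod_mul_sum_le {ι : Type} (s : Finset ι) (f : ι → ℝ) (h0 : ∀ i, 0 ≤ f i)
    (h1 : ∀ i, f i ≤ 1) : (∏ i ∈ s, f i) * (1 + ∑ i ∈ s, (1 - f i)) ≤ 1 := by
  classical
  induction s using Finset.induction_on with
  | empty => simp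
  | insert c S hc ih =>
    rw [Finset.prod_insert hc, Finset.sum_insert hc]
    have hS : 0 ≤ ∑ i ∈ S, (1 - f i) := Finset.sum_nonneg fun i _ => by linarith [h1 i]
    have hP : 0 ≤ ∏ i ∈ S, f i := Finset.prod_nonneg fun i _ => h0 i
    have e1 : f c * (1 + ((1 - f c) + ∑ i ∈ S, (1 - f i))) ≤ 1 + ∑ i ∈ S, (1 - f i) := by
      nlinarith [h0 c, h1 c, sq_nonneg (1 - f c), mul_nonneg (sub_nonneg.mpr (h1 c)) hS]
    calc (f c * ∏ i ∈ S, f i) * (1 + ((1 - f c) + ∑ i ∈ S, (1 - f i)))
        = (∏ i ∈ S, f i) * (f c * (1 + ((1 - f c) + ∑ i ∈ S, (1 - f i)))) := by ring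
      _ ≤ (∏ i ∈ S, f i) * (1 + ∑ i ∈ S, (1 - f i)) := mul_le_mul_of_nonneg_left e1 hP
      _ ≤ 1 := ih

theorem cJb_eq_prod (blk2 : V → γ) (b : β) :
    cJb blk1 w A y b = ∏ c, cTb blk1 w A y (fun q => blk2 q = c) b := by
  simp only [cJb, cTb, cJ, cT]
  rw [Finset.prod_comm]
  refine Finset.prod_congr rfl fun q _ => ?_
  by_cases h : q.1 ∈ A
  · simp [h]
  · simp [h]

theorem sum_mass_le (hw : ∀ q, nrm (w q) = 1) (blk2 : V → γ) :
    ∑ c, mass blk1 w A y (fun q => blk2 q = c) ≤ 2 * (A.card : ℝ) := by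
  simp only [mass]
  rw [Finset.sum_comm]
  have h : ∀ b, ∑ c, (jb blk1 A (fun q => blk2 q = c) b + mb blk1 w A y (fun q => blk2 q = c) b)
      ≤ 2 * (kb blk1 A b : ℝ) := by
    intro b
    rw [Finset.sum_add_distrib]
    have h1 : ∑ c, jb blk1 A (fun q => blk2 q = c) b = kb blk1 A b := by
      simp only [jb, kb]
      rw [Finset.sum_comm]
      push_cast
      refine Finset.sum_congr rfl fun q _ => ?_
      by_cases h : q.1 ∈ A <;> simp [h]
    have h2 : ∑ c, mb blk1 w A y (fun q => blk2 q = c) b ≤ kb blk1 A b := by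
      unfold mb
      split_ifs with hk
      · rw [hk, ← Finset.mul_sum, cJb_eq_prod blk2]
        have := prod_mul_sum_le (univ : Finset γ) (fun c => cTb blk1 w A y (fun q => blk2 q = c) b)
          (fun c => (cTb_mem hw _ b).1) (fun c => (cTb_mem hw _ b).2)
        have hP : 0 ≤ ∏ c, cTb blk1 w A y (fun q => blk2 q = c) b :=
          Finset.prod_nonneg fun c _ => (cTb_mem hw _ b).1
        push_cast
        nlinarith
      · simp
    linarith
  refine (Finset.sum_le_sum fun b _ => h b).trans ?_
  rw [← Finset.mul_sum, ← sum_kb (blk1 := blk1) (A := A)]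
  push_cast
  exact le_refl _

theorem mass_single_le (hw : ∀ q, nrm (w q) = 1) (q0 : V) :
    mass blk1 w A y (fun q => q = q0) ≤ 1 := by
  have h : ∀ b, jb blk1 A (fun q => q = q0) b + mb blk1 w A y (fun q => q = q0) b
      ≤ if b = blk1 q0 then 1 else 0 := by
    intro b
    by_cases hb : b = blk1 q0
    · rw [if_pos hb]
      by_cases hA : q0 ∈ A
      · have h1 : jb blk1 A (fun q => q = q0) b ≤ 1 := by
          simp only [jb]
          have : ∀ q : Fib blk1 b, (if q.1 ∈ A ∧ q.1 = q0 then (1 : ℝ) else 0)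
              = if q = ⟨q0, hb.symm⟩ then 1 else 0 := by
            intro q
            by_cases h : q.1 = q0
            · have : q = ⟨q0, hb.symm⟩ := Subtype.ext h
              simp [h, hA, this]
            · have : q ≠ ⟨q0, hb.symm⟩ := fun h' => h (by rw [h'])
              simp [h, this]
          simp only [this]
          simp
        have h2 : mb blk1 w A y (fun q => q = q0) b = 0 := by
          unfold mb
          split_ifs
          · have : cTb blk1 w A y (fun q => q = q0) b = 1 := by
              simp only [cTb, cT]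
              refine Finset.prod_eq_one fun q _ => ?_
              by_cases h : q.1 = q0
              · simp [h, hA]
              · simp [h]
            rw [this]; simp
          · rfl
        linarith
      · have h1 : jb blk1 A (fun q => q = q0) b = 0 := by
          simp only [jb]
          refine Finset.sum_eq_zero fun q _ => ?_
          by_cases h : q.1 = q0
          · simp [h, hA]
          · simp [h]
        have h2 := mb_le_quarter (A := A) (y := y) (blk1 := blk1) hw (fun q => q = q0) b
        linarith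
    · rw [if_neg hb]
      have hne : ∀ q : Fib blk1 b, q.1 ≠ q0 := fun q h => hb (by rw [← q.2, h])
      have h1 : jb blk1 A (fun q => q = q0) b = 0 := by
        simp only [jb]
        refine Finset.sum_eq_zero fun q _ => ?_
        simp [hne q]
      have h2 : mb blk1 w A y (fun q => q = q0) b = 0 := by
        unfold mb
        split_ifs
        · have : cTb blk1 w A y (fun q => q = q0) b = 1 := by
            simp only [cTb, cT]
            refine Finset.prod_eq_one fun q _ => ?_
            simp [hne q]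
          rw [this]; simp
        · rfl
      linarith
  refine (Finset.sum_le_sum fun b _ => h b).trans ?_
  simp

theorem prod_half_eq {U : Type} [Fintype U] (P : U → Prop) [DecidablePred P] :
    ∏ q, (if P q then (1 / 2 : ℝ) else 1) = Real.exp (-(Real.log 2 * ∑ q, if P q then 1 else 0)) := by
  rw [Finset.mul_sum, ← Finset.sum_neg_distrib, Real.exp_sum]
  refine Finset.prod_congr rfl fun q _ => ?_
  split_ifs
  · rw [mul_one, Real.exp_neg, Real.exp_log (by norm_num)]; norm_num
  · simp

theorem pass_block (hw : ∀ q, nrm (w q) = 1) {u : V → Bool → ℂ} (hu : ∀ q, nrm (u q) = 1)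
    (D : V → Prop) [DecidablePred D] (b : β) :
    ∃ r : ℝ, passC (U := Fib blk1 b) (fun q => q.1 ∈ A) (fun q => D q.1) (fun q => y q.1)
        (fun q => w q.1) (fun q => u q.1) = r ∧ 0 ≤ r ∧
      r ≤ Real.exp (-((jb blk1 A D b + mb blk1 w A y D b) / 2)) := by
  obtain ⟨r, h1, h2, h3⟩ := pass_le (U := Fib blk1 b) (al := fun q => q.1 ∈ A)
    (D := fun q => D q.1) (y := fun q => y q.1) (w := fun q => w q.1) (u := fun q => u q.1)
    (fun q => hw q.1) (fun q => hu q.1)
  refine ⟨r, h1, h2, ?_⟩
  have hlog := Real.log_two_gt_d9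
  have hP0 : P0 (U := Fib blk1 b) (fun q => q.1 ∈ A) (fun q => D q.1)
      = Real.exp (-(Real.log 2 * jb blk1 A D b)) := by
    rw [P0, prod_half_eq, jb]
  have hj0 := jb_nonneg (blk1 := blk1) (A := A) D b
  have hm0 := mb_nonneg (A := A) (y := y) (blk1 := blk1) hw D b
  have hm4 := mb_le_quarter (A := A) (y := y) (blk1 := blk1) hw D b
  by_cases hj : 1 ≤ jb blk1 A D b
  · rw [hP0] at h3
    refine h3.trans (Real.exp_le_exp.mpr ?_)
    nlinarith
  · -- no live input tested
    have hnone : ∀ q : Fib blk1 b, ¬ (q.1 ∈ A ∧ D q.1) := by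
      intro q hq
      apply hj
      simp only [jb]
      have := Finset.single_le_sum (f := fun q : Fib blk1 b => if q.1 ∈ A ∧ D q.1 then (1 : ℝ) else 0)
        (fun q _ => by positivity) (Finset.mem_univ q)
      simpa [hq] using this
    have hj00 : jb blk1 A D b = 0 := by
      simp only [jb]
      exact Finset.sum_eq_zero fun q _ => by simp [hnone q]
    by_cases hk : kb blk1 A b = 1
    · -- unique live input
      have : ∃ q0 : Fib blk1 b, q0.1 ∈ A ∧ ∀ q : Fib blk1 b, q.1 ∈ A → q = q0 := by
        have hk' : (univ.filter fun q : Fib blk1 b => q.1 ∈ A).card = 1 := by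
          rw [← hk, kb, Finset.card_filter]
        obtain ⟨q0, hq0⟩ := Finset.card_eq_one.mp hk'
        refine ⟨q0, ?_, fun q hq => ?_⟩
        · have : q0 ∈ univ.filter fun q : Fib blk1 b => q.1 ∈ A := by rw [hq0]; simp
          simpa using this
        · have : q ∈ univ.filter fun q : Fib blk1 b => q.1 ∈ A := by simp [hq]
          rw [hq0] at this
          simpa using this
      obtain ⟨q0, hq0, huniq⟩ := this
      have hD : ¬ D q0.1 := fun hD => hnone q0 ⟨hq0, hD⟩
      obtain ⟨r', e1, e2⟩ := pass_small (U := Fib blk1 b) (al := fun q => q.1 ∈ A)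
        (D := fun q => D q.1) (y := fun q => y q.1) (w := fun q => w q.1) (u := fun q => u q.1)
        (fun q => hw q.1) (fun q => hu q.1) q0 hq0 hD huniq
      have : r = r' := by
        have := h1.symm.trans e1
        exact_mod_cast this
      subst this
      have hm : mb blk1 w A y D b = cJb blk1 w A y b * (1 - cTb blk1 w A y D b) := by
        rw [mb, if_pos hk]
      have e3 : r ≤ 1 - mb blk1 w A y D b := by rw [hm]; exact e2
      rw [hj00]
      have := Real.add_one_le_exp (-((0 + mb blk1 w A y D b) / 2))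
      linarith
    · have hm : mb blk1 w A y D b = 0 := by rw [mb, if_neg hk]
      rw [hj00, hm]
      rw [hP0, hj00] at h3
      simpa using h3

theorem pass_total (hw : ∀ q, nrm (w q) = 1) {u : V → Bool → ℂ} (hu : ∀ q, nrm (u q) = 1)
    (D : V → Prop) [DecidablePred D] :
    ∃ r : ℝ, (bten blk1 (fun b => rf (fun q : Fib blk1 b => w q.1)
        * tens (fun q : Fib blk1 b => dg (xi (fun q => q ∈ A) y q.1))
        * rf (fun q : Fib blk1 b => w q.1)) * tens (Om D u)).trace = r ∧ 0 ≤ r ∧
      r ≤ Real.exp (-(mass blk1 w A y D / 2)) := by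
  choose r h1 h2 h3 using fun b => pass_block (blk1 := blk1) (A := A) (y := y) hw hu D b
  refine ⟨∏ b, r b, ?_, Finset.prod_nonneg fun b _ => h2 b, ?_⟩
  · rw [tens_eq_bten blk1 (Om D u), bten_mul, trace_bten]
    push_cast
    refine Finset.prod_congr rfl fun b _ => ?_
    rw [← h1 b, passC]
    rfl
  · refine (Finset.prod_le_prod (fun b _ => h2 b) fun b _ => h3 b).trans ?_
    rw [← Real.exp_sum, Finset.sum_neg_distrib, ← Finset.sum_div, mass]

end MassSec

end Vale.Agent.H29.QAC
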