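import Vale.Agent.H29.QAC.Weights

set_option linter.unusedSectionVars false
set_option linter.unusedSimpArgs false

namespace Vale.Agent.H29.QAC

open Matrix Finset

section PassSec

variable {U : Type} [Fintype U] [DecidableEq U]

/-- basis vector -/
def ev (b : Bool) : Bool → ℂ := Pi.single b 1

theorem nrm_ev (b : Bool) : nrm (ev b) = 1 := by
  rw [ev, nrm_single]; simp

theorem tens_mulVec (F : U → Matrix Bool Bool ℂ) (a : U → Bool → ℂ) :
    tens F *ᵥ pvec a = pvec (fun q => F q *ᵥ a q) := by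
  ext s
  simp only [Matrix.mulVec, dotProduct, tens, pvec, ← Finset.prod_mul_distrib]
  exact sum_prod_fun (fun q t => F q (s q) t * a q t)

theorem rk_mulVec {ι : Type} [Fintype ι] (a b c : ι → ℂ) : rk a b *ᵥ c = ip b c • a := by
  ext i
  simp only [Matrix.mulVec, dotProduct, rk, ip, Pi.smul_apply, smul_eq_mul, Finset.sum_mul]
  exact Finset.sum_congr rfl fun j _ => by ring

theorem rf_mulVec (w : U → Bool → ℂ) (v : (U → Bool) → ℂ) :
    rf w *ᵥ v = v - (2 * ip (pvec w) v) • pvec w := by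
  rw [rf, tens_rk, Matrix.sub_mulVec, Matrix.one_mulVec, Matrix.smul_mulVec, rk_mulVec, smul_smul]

/-- test operator of one qubit -/
noncomputable def Om (D : U → Prop) [DecidablePred D] (u : U → Bool → ℂ) (q : U) :
    Matrix Bool Bool ℂ :=
  if D q then rk (u q) (u q) else 1

theorem Om_herm (D : U → Prop) [DecidablePred D] (u : U → Bool → ℂ) (q : U) :
    (Om D u q)ᴴ = Om D u q := by
  simp only [Om]; split_ifs
  · rw [rk_conjTranspose]
  · simp

theorem Om_sq (D : U → Prop) [DecidablePred D] {u : U → Bool → ℂ} (hu : ∀ q, nrm (u q) = 1)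
    (q : U) : Om D u q * Om D u q = Om D u q := by
  simp only [Om]; split_ifs
  · rw [rk_mul_rk, ip_unit (hu q), one_smul]
  · simp

theorem ip_proj {ι : Type} [Fintype ι] {P : Matrix ι ι ℂ} (h1 : Pᴴ = P) (h2 : P * P = P)
    (a : ι → ℂ) : ip a (P *ᵥ a) = ((nrm (P *ᵥ a) ^ 2 : ℝ) : ℂ) := by
  rw [← ip_self]
  have : ip a (P *ᵥ (P *ᵥ a)) = ip (Pᴴ *ᵥ a) (P *ᵥ a) := ip_mulVec P a _
  rw [h1, Matrix.mulVec_mulVec, h2] at this
  exact this

theorem dg_xi_al {al : U → Prop} [DecidablePred al] {y : U → Bool} {q : U} (h : al q) :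
    dg (xi al y q) = (1 / 2 : ℂ) • (1 : Matrix Bool Bool ℂ) := by
  ext i j
  simp only [dg, xi, h, if_true, Matrix.diagonal_apply, Matrix.smul_apply, Matrix.one_apply,
    smul_eq_mul]
  split_ifs <;> simp

theorem dg_xi_fix {al : U → Prop} [DecidablePred al] {y : U → Bool} {q : U} (h : ¬ al q) :
    dg (xi al y q) = rk (ev (y q)) (ev (y q)) := by
  ext i j
  simp only [dg, xi, h, if_false, Matrix.diagonal_apply, rk, ev, Pi.single_apply]
  by_cases h1 : i = j
  · subst h1
    by_cases h2 : i = y q <;> simp [h2]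
  · by_cases h2 : i = y q
    · subst h2
      simp [h1, Ne.symm h1]
    · simp [h1, h2]

/-- the probability weight in one block that a product test is passed -/
noncomputable def passC (al D : U → Prop) [DecidablePred al] [DecidablePred D] (y : U → Bool)
    (w u : U → Bool → ℂ) : ℂ :=
  (rf w * tens (fun q => dg (xi al y q)) * rf w * tens (Om D u)).trace

variable {al D : U → Prop} [DecidablePred al] [DecidablePred D] {y : U → Bool}
  {w u : U → Bool → ℂ}

/-- frozen vectors -/
noncomputable def fz (al : U → Prop) [DecidablePred al] (a : U → Bool → ℂ) : U → Bool → ℂ :=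
  fun q => if al q then e0 else a q

noncomputable def OmJ (al D : U → Prop) [DecidablePred al] [DecidablePred D]
    (u : U → Bool → ℂ) (q : U) : Matrix Bool Bool ℂ :=
  if al q then 1 else Om D u q

theorem nrm_fz {a : U → Bool → ℂ} (ha : ∀ q, nrm (a q) = 1) (q : U) : nrm (fz al a q) = 1 := by
  simp only [fz]; split_ifs
  · exact nrm_e0
  · exact ha q

theorem nrm_pvec_one {a : U → Bool → ℂ} (ha : ∀ q, nrm (a q) = 1) : nrm (pvec a) = 1 := by
  rw [nrm_pvec]; exact Finset.prod_eq_one fun q _ => ha q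

theorem passC_expand :
    passC al D y w u
      = (∏ q, (dg (xi al y q) * Om D u q).trace)
        - 2 * (∏ q, (rk (w q) (w q) * dg (xi al y q) * Om D u q).trace)
        - 2 * (∏ q, (dg (xi al y q) * rk (w q) (w q) * Om D u q).trace)
        + 4 * (∏ q, (rk (w q) (w q) * dg (xi al y q) * rk (w q) (w q) * Om D u q).trace) := by
  rw [passC, rf_conj, add_mul, sub_mul, sub_mul, smul_mul_assoc, smul_mul_assoc, smul_mul_assoc,
    tens_mul, tens_mul, tens_mul, tens_mul, Matrix.trace_add, Matrix.trace_sub, Matrix.trace_sub,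
    Matrix.trace_smul, Matrix.trace_smul, Matrix.trace_smul, trace_tens, trace_tens, trace_tens,
    trace_tens]
  simp only [smul_eq_mul]

/-- the weight of the live part -/
noncomputable def PA (al D : U → Prop) [DecidablePred al] [DecidablePred D]
    (w u : U → Bool → ℂ) : ℝ :=
  ∏ q, if al q then (1 / 2) * nrm (Om D u q *ᵥ w q) ^ 2 else 1

noncomputable def P0 (al D : U → Prop) [DecidablePred al] [DecidablePred D] : ℝ :=
  ∏ q, if al q ∧ D q then (1 / 2) else 1

theorem t0_al (hu : ∀ q, nrm (u q) = 1) {q : U} (h : al q) :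
    (dg (xi al y q) * Om D u q).trace = ((if al q ∧ D q then (1 / 2) else 1 : ℝ) : ℂ) := by
  rw [dg_xi_al h, smul_mul_assoc, one_mul, Matrix.trace_smul]
  by_cases hD : D q
  · simp [Om, hD, h, trace_rk, ip_unit (hu q)]
  · simp [Om, hD, h, Matrix.trace]

theorem pass_core (hw : ∀ q, nrm (w q) = 1) (hu : ∀ q, nrm (u q) = 1) :
    passC al D y w u
      = (((P0 al D - PA al D w u) *
            nrm (tens (OmJ al D u) *ᵥ pvec (fz al fun q => ev (y q))) ^ 2
          + PA al D w u * nrm (tens (OmJ al D u) *ᵥ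
              (rf (fz al w) *ᵥ pvec (fz al fun q => ev (y q)))) ^ 2 : ℝ) : ℂ) := by
  set Y := pvec (fz al fun q => ev (y q)) with hY
  set W := pvec (fz al w) with hW
  set T := tens (OmJ al D u) with hT
  have hT1 : Tᴴ = T := by
    rw [hT, tens_conjTranspose]
    congr 1; funext q; simp only [OmJ]; split_ifs
    · simp
    · exact Om_herm D u q
  have hT2 : T * T = T := by
    rw [hT, tens_mul]
    congr 1; funext q; simp only [OmJ]; split_ifs
    · simp
    · exact Om_sq D hu q
  have p0 : (∏ q, (dg (xi al y q) * Om D u q).trace) = (P0 al D : ℂ) * ip Y (T *ᵥ Y) := by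
    rw [hT, hY, tens_mulVec, ip_pvec, P0]
    push_cast
    rw [← Finset.prod_mul_distrib]
    refine Finset.prod_congr rfl fun q _ => ?_
    by_cases h : al q
    · rw [t0_al hu h]
      simp [fz, OmJ, h, ip_unit nrm_e0]
    · rw [dg_xi_fix h, trace_rk_mul]
      simp [fz, OmJ, h]
  have hal3 : ∀ q, al q → (rk (w q) (w q) * Om D u q).trace
      = ((nrm (Om D u q *ᵥ w q) ^ 2 : ℝ) : ℂ) := by
    intro q h
    rw [trace_rk_mul, ip_proj (Om_herm D u q) (Om_sq D hu q)]
  have p1 : (∏ q, (rk (w q) (w q) * dg (xi al y q) * Om D u q).trace)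
      = (PA al D w u : ℂ) * (ip W Y * ip Y (T *ᵥ W)) := by
    rw [hT, hY, hW, tens_mulVec, ip_pvec, ip_pvec, PA]
    push_cast
    rw [← Finset.prod_mul_distrib, ← Finset.prod_mul_distrib]
    refine Finset.prod_congr rfl fun q _ => ?_
    by_cases h : al q
    · rw [dg_xi_al h, mul_smul_comm, mul_one, smul_mul_assoc, Matrix.trace_smul, hal3 q h]
      simp [fz, OmJ, h, ip_unit nrm_e0]
    · rw [dg_xi_fix h, rk_mul_rk, smul_mul_assoc, Matrix.trace_smul, trace_rk_mul]
      simp [fz, OmJ, h]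
  have p2 : (∏ q, (dg (xi al y q) * rk (w q) (w q) * Om D u q).trace)
      = (PA al D w u : ℂ) * (ip Y W * ip W (T *ᵥ Y)) := by
    rw [hT, hY, hW, tens_mulVec, ip_pvec, ip_pvec, PA]
    push_cast
    rw [← Finset.prod_mul_distrib, ← Finset.prod_mul_distrib]
    refine Finset.prod_congr rfl fun q _ => ?_
    by_cases h : al q
    · rw [dg_xi_al h, smul_mul_assoc, one_mul, smul_mul_assoc, Matrix.trace_smul, hal3 q h]
      simp [fz, OmJ, h, ip_unit nrm_e0]
    · rw [dg_xi_fix h, rk_mul_rk, smul_mul_assoc, Matrix.trace_smul, trace_rk_mul]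
      simp [fz, OmJ, h]
  have p3 : (∏ q, (rk (w q) (w q) * dg (xi al y q) * rk (w q) (w q) * Om D u q).trace)
      = (PA al D w u : ℂ) * (ip W Y * ip Y W * ip W (T *ᵥ W)) := by
    rw [hT, hY, hW, tens_mulVec, ip_pvec, ip_pvec, ip_pvec, PA]
    push_cast
    rw [← Finset.prod_mul_distrib, ← Finset.prod_mul_distrib, ← Finset.prod_mul_distrib]
    refine Finset.prod_congr rfl fun q _ => ?_
    by_cases h : al q
    · rw [dg_xi_al h, mul_smul_comm, mul_one, smul_mul_assoc, smul_mul_assoc, rk_mul_rk,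
        ip_unit (hw q), one_smul, Matrix.trace_smul, hal3 q h]
      simp [fz, OmJ, h, ip_unit nrm_e0]
    · rw [dg_xi_fix h, rk_mul_rk, smul_mul_assoc, rk_mul_rk, smul_smul, smul_mul_assoc,
        Matrix.trace_smul, trace_rk_mul]
      simp [fz, OmJ, h]
  have f2 : ip (rf (fz al w) *ᵥ Y) (T *ᵥ (rf (fz al w) *ᵥ Y))
      = ip Y (T *ᵥ Y) - 2 * (ip W Y * ip Y (T *ᵥ W)) - 2 * (ip Y W * ip W (T *ᵥ Y))
        + 4 * (ip W Y * ip Y W * ip W (T *ᵥ W)) := by
    rw [rf_mulVec, ← hW, Matrix.mulVec_sub, Matrix.mulVec_smul, ip_sub_left, ip_sub_right,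
      ip_sub_right, ip_smul_right, ip_smul_left, ip_smul_left, ip_smul_right, star_mul', ip_star]
    have : star (2 : ℂ) = 2 := by simp
    rw [this]
    ring
  rw [passC_expand, p0, p1, p2, p3]
  push_cast
  have g1 := ip_proj hT1 hT2 Y
  have g2 := ip_proj hT1 hT2 (rf (fz al w) *ᵥ Y)
  push_cast at g1 g2
  rw [← g1, ← g2, f2]
  ring

theorem PA_mem (hw : ∀ q, nrm (w q) = 1) (hu : ∀ q, nrm (u q) = 1) :
    0 ≤ PA al D w u ∧ PA al D w u ≤ P0 al D := by
  have hle : ∀ q, nrm (Om D u q *ᵥ w q) ^ 2 ≤ 1 := by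
    intro q
    have := contr_of_proj (Om_herm D u q) (Om_sq D hu q) (w q)
    rw [hw q] at this
    have h0 := nrm_nonneg (Om D u q *ᵥ w q)
    nlinarith
  constructor
  · refine Finset.prod_nonneg fun q _ => ?_
    split_ifs
    · positivity
    · norm_num
  · refine Finset.prod_le_prod (fun q _ => ?_) fun q _ => ?_
    · split_ifs
      · positivity
      · norm_num
    · have := hle q
      have h0 := sq_nonneg (nrm (Om D u q *ᵥ w q))
      by_cases h : al q
      · by_cases h2 : D q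
        · simp only [h, h2, and_self, if_true]; nlinarith
        · simp only [h, h2, and_false, if_true, if_false]; nlinarith
      · simp [h]

theorem pass_le (hw : ∀ q, nrm (w q) = 1) (hu : ∀ q, nrm (u q) = 1) :
    ∃ r : ℝ, passC al D y w u = r ∧ 0 ≤ r ∧ r ≤ P0 al D := by
  refine ⟨_, pass_core hw hu, ?_, ?_⟩
  · obtain ⟨h1, h2⟩ := PA_mem (al := al) (D := D) hw hu
    have : 0 ≤ P0 al D - PA al D w u := by linarith
    positivity
  · obtain ⟨h1, h2⟩ := PA_mem (al := al) (D := D) hw hu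
    set Y := pvec (fz al fun q => ev (y q)) with hY
    set T := tens (OmJ al D u) with hT
    have hT1 : Tᴴ = T := by
      rw [hT, tens_conjTranspose]
      congr 1; funext q; simp only [OmJ]; split_ifs
      · simp
      · exact Om_herm D u q
    have hT2 : T * T = T := by
      rw [hT, tens_mul]
      congr 1; funext q; simp only [OmJ]; split_ifs
      · simp
      · exact Om_sq D hu q
    have hYn : nrm Y = 1 := nrm_pvec_one (nrm_fz fun q => nrm_ev _)
    have hU : nrm (rf (fz al w) *ᵥ Y) = 1 := by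
      rw [nrm_of_unitary, hYn]
      rw [rf_conjTranspose, rf_sq (nrm_fz hw)]
    have c1 := contr_of_proj hT1 hT2 Y
    have c2 := contr_of_proj hT1 hT2 (rf (fz al w) *ᵥ Y)
    rw [hYn] at c1
    rw [hU] at c2
    have n1 := nrm_nonneg (T *ᵥ Y)
    have n2 := nrm_nonneg (T *ᵥ (rf (fz al w) *ᵥ Y))
    have s1 : nrm (T *ᵥ Y) ^ 2 ≤ 1 := by nlinarith
    have s2 : nrm (T *ᵥ (rf (fz al w) *ᵥ Y)) ^ 2 ≤ 1 := by nlinarith
    nlinarith

end PassSec

end Vale.Agent.H29.QAC
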