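import Vale.Agent.H29.QAC.Pass

set_option linter.unusedSectionVars false
set_option linter.unusedSimpArgs false

namespace Vale.Agent.H29.QAC

open Matrix Finset

section PS

variable {U : Type} [Fintype U] [DecidableEq U]
variable {al D : U → Prop} [DecidablePred al] [DecidablePred D] {y : U → Bool}
  {w u : U → Bool → ℂ}

theorem ip_mul_star (a b : Bool → ℂ) : ip a b * ip b a = ((‖ip a b‖ ^ 2 : ℝ) : ℂ) := by
  rw [← ip_star a b, mul_comm, star_mul_self_eq]

theorem ip_ev (w : Bool → ℂ) (b : Bool) : ip w (ev b) = star (w b) := by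
  simp only [ip, ev, Pi.single_apply, mul_ite, mul_one, mul_zero, Finset.sum_ite_eq',
    Finset.mem_univ, if_true]

theorem kap_eq (q : U) : ((kap w y q : ℝ) : ℂ) = ip (w q) (ev (y q)) * ip (ev (y q)) (w q) := by
  rw [ip_mul_star, ip_ev, norm_star, kap]

theorem pass_small (hw : ∀ q, nrm (w q) = 1) (hu : ∀ q, nrm (u q) = 1) (q0 : U)
    (h0 : al q0) (hD : ¬ D q0) (huniq : ∀ q, al q → q = q0) :
    ∃ r : ℝ, passC al D y w u = r ∧ r ≤ 1 - cJ al w y * (1 - cT D al w y) := by
  classical
  set E : U → Prop := fun q => ¬ (¬ al q ∧ D q) with hE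
  set o := pvec (fz E u) with ho
  set v := pvec (fz E w) with hv
  set z := pvec (fz E fun q => ev (y q)) with hz
  have no : nrm o = 1 := nrm_pvec_one (nrm_fz hu)
  have nv : nrm v = 1 := nrm_pvec_one (nrm_fz hw)
  have nz : nrm z = 1 := nrm_pvec_one (nrm_fz fun q => nrm_ev _)
  set ρ := cT (fun q => ¬ D q) al w y with hρ
  have half : ((1 / 2 : ℝ) : ℂ) = ∏ q, ((if q = q0 then (1 / 2 : ℝ) else 1 : ℝ) : ℂ) := by
    rw [← Complex.ofReal_prod, Finset.prod_ite_eq' Finset.univ q0]; simp
  have hρC : (ρ : ℂ) = ∏ q, ((if ¬ D q ∧ ¬ al q then kap w y q else 1 : ℝ) : ℂ) := by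
    rw [hρ, cT, Complex.ofReal_prod]
  have alq : ∀ q, al q → ¬ D q := fun q hq => by rw [huniq q hq]; exact hD
  have neq : ∀ q, ¬ al q → q ≠ q0 := fun q hq h => hq (h ▸ h0)
  have p0 : (∏ q, (dg (xi al y q) * Om D u q).trace) = star (ip o z) * ip o z := by
    rw [ip_star, ho, hz, ip_pvec, ip_pvec, ← Finset.prod_mul_distrib]
    refine Finset.prod_congr rfl fun q _ => ?_
    by_cases h : al q
    · rw [t0_al hu h]
      simp [fz, hE, h, ip_unit nrm_e0, alq q h]
    · rw [dg_xi_fix h, trace_rk_mul]
      by_cases h2 : D q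
      · simp [fz, hE, h, h2, Om, rk_mulVec, ip_smul_right, mul_comm]
      · simp [fz, hE, h, h2, Om, ip_unit nrm_e0, ip_unit (nrm_ev _)]
  have p1 : (∏ q, (rk (w q) (w q) * dg (xi al y q) * Om D u q).trace)
      = ((1 / 2 : ℝ) : ℂ) * (ρ * (ip v z * star (ip o z) * ip o v)) := by
    rw [ip_star, half, hρC, ho, hv, hz, ip_pvec, ip_pvec, ip_pvec, ← Finset.prod_mul_distrib,
      ← Finset.prod_mul_distrib, ← Finset.prod_mul_distrib, ← Finset.prod_mul_distrib]
    refine Finset.prod_congr rfl fun q _ => ?_
    by_cases h : al q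
    · rw [dg_xi_al h, mul_smul_comm, mul_one, smul_mul_assoc, Matrix.trace_smul]
      have hq : q = q0 := huniq q h
      have h3 := alq q h
      rw [if_pos hq]
      simp [fz, hE, h, h3, ip_unit nrm_e0, Om, trace_rk, ip_unit (hw q)]
    · rw [dg_xi_fix h, rk_mul_rk, smul_mul_assoc, Matrix.trace_smul, trace_rk_mul]
      have h4 := neq q h
      by_cases h2 : D q
      · simp only [fz, hE, h, h2, h4, Om, rk_mulVec, ip_smul_right, not_true, not_false_iff,
          and_true, true_and, if_true, if_false, smul_eq_mul, Complex.ofReal_one, one_mul,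
          false_and, and_false]
        ring
      · simp only [fz, hE, h, h2, h4, Om, not_true, not_false_iff, Matrix.one_mulVec,
          and_true, true_and, if_true, if_false, smul_eq_mul, Complex.ofReal_one, one_mul,
          false_and, and_false, ip_unit nrm_e0, mul_one, kap_eq]
  have p2 : (∏ q, (dg (xi al y q) * rk (w q) (w q) * Om D u q).trace)
      = ((1 / 2 : ℝ) : ℂ) * (ρ * (star (ip v z) * ip o z * star (ip o v))) := by
    rw [ip_star, ip_star, half, hρC, ho, hv, hz, ip_pvec, ip_pvec, ip_pvec,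
      ← Finset.prod_mul_distrib,
      ← Finset.prod_mul_distrib, ← Finset.prod_mul_distrib, ← Finset.prod_mul_distrib]
    refine Finset.prod_congr rfl fun q _ => ?_
    by_cases h : al q
    · rw [dg_xi_al h, smul_mul_assoc, one_mul, smul_mul_assoc, Matrix.trace_smul]
      have hq : q = q0 := huniq q h
      have h3 := alq q h
      rw [if_pos hq]
      simp [fz, hE, h, h3, ip_unit nrm_e0, Om, trace_rk, ip_unit (hw q)]
    · rw [dg_xi_fix h, rk_mul_rk, smul_mul_assoc, Matrix.trace_smul, trace_rk_mul]
      have h4 := neq q h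
      by_cases h2 : D q
      · simp only [fz, hE, h, h2, h4, Om, rk_mulVec, ip_smul_right, not_true, not_false_iff,
          and_true, true_and, if_true, if_false, smul_eq_mul, Complex.ofReal_one, one_mul,
          false_and, and_false]
        ring
      · simp only [fz, hE, h, h2, h4, Om, not_true, not_false_iff, Matrix.one_mulVec,
          and_true, true_and, if_true, if_false, smul_eq_mul, Complex.ofReal_one, one_mul,
          false_and, and_false, ip_unit nrm_e0, mul_one, kap_eq]
        ring
  have p3 : (∏ q, (rk (w q) (w q) * dg (xi al y q) * rk (w q) (w q) * Om D u q).trace)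
      = ((1 / 2 : ℝ) : ℂ) * (ρ * ((star (ip v z) * ip v z) * (star (ip o v) * ip o v))) := by
    rw [ip_star, ip_star, half, hρC, ho, hv, hz, ip_pvec, ip_pvec, ip_pvec, ip_pvec,
      ← Finset.prod_mul_distrib, ← Finset.prod_mul_distrib,
      ← Finset.prod_mul_distrib, ← Finset.prod_mul_distrib, ← Finset.prod_mul_distrib]
    refine Finset.prod_congr rfl fun q _ => ?_
    by_cases h : al q
    · rw [dg_xi_al h, mul_smul_comm, mul_one, smul_mul_assoc, smul_mul_assoc, rk_mul_rk,
        ip_unit (hw q), one_smul, Matrix.trace_smul]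
      have hq : q = q0 := huniq q h
      have h3 := alq q h
      rw [if_pos hq]
      simp [fz, hE, h, h3, ip_unit nrm_e0, Om, trace_rk, ip_unit (hw q)]
    · rw [dg_xi_fix h, rk_mul_rk, smul_mul_assoc, rk_mul_rk, smul_smul, smul_mul_assoc,
        Matrix.trace_smul, trace_rk_mul]
      have h4 := neq q h
      by_cases h2 : D q
      · simp only [fz, hE, h, h2, h4, Om, rk_mulVec, ip_smul_right, not_true, not_false_iff,
          and_true, true_and, if_true, if_false, smul_eq_mul, Complex.ofReal_one, one_mul,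
          false_and, and_false]
        ring
      · simp only [fz, hE, h, h2, h4, Om, not_true, not_false_iff, Matrix.one_mulVec,
          and_true, true_and, if_true, if_false, smul_eq_mul, Complex.ofReal_one, one_mul,
          false_and, and_false, ip_unit nrm_e0, mul_one, kap_eq, ip_unit (hw q)]
  have hk : ‖ip v z‖ ^ 2 = cT D al w y := by
    have : ((‖ip v z‖ ^ 2 : ℝ) : ℂ) = (cT D al w y : ℂ) := by
      rw [← star_mul_self_eq, ip_star, hv, hz, ip_pvec, ip_pvec, cT, Complex.ofReal_prod,
        ← Finset.prod_mul_distrib]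
      refine Finset.prod_congr rfl fun q _ => ?_
      by_cases h : al q
      · simp [fz, hE, h, ip_unit nrm_e0]
      · by_cases h2 : D q
        · simp only [fz, hE, h, h2, not_true, not_false_iff, and_true, true_and, if_true,
            if_false, kap_eq, and_self]
          ring
        · simp [fz, hE, h, h2, ip_unit nrm_e0]
    exact_mod_cast this
  refine ⟨‖ip o z‖ ^ 2 - 2 * ρ * (ip v z * star (ip o z) * ip o v).re
    + 2 * ρ * ‖ip v z‖ ^ 2 * ‖ip o v‖ ^ 2, ?_, ?_⟩
  · rw [passC_expand, p0, p1, p2, p3]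
    simp only [star_mul_self_eq]
    have hre : (((ip v z * star (ip o z) * ip o v).re : ℝ) : ℂ)
        = (ip v z * star (ip o z) * ip o v + star (ip v z) * ip o z * star (ip o v)) / 2 := by
      have : star (ip v z) * ip o z * star (ip o v)
          = (starRingEnd ℂ) (ip v z * star (ip o z) * ip o v) := by
        simp
      rw [this, Complex.add_conj]
      push_cast
      ring
    push_cast
    rw [hre]
    ring
  · have h3 := three_vec no nv nz
    obtain ⟨r0, r1⟩ := cT_mem (al := al) (y := y) hw (fun q => ¬ D q)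
    have hJ := cT_mul_cT (al := al) (w := w) (y := y) D
    rw [← hρ] at r0 r1 hJ
    have ha : ‖ip o z‖ ^ 2 ≤ 1 := by
      have := norm_ip_le o z
      rw [no, nz, mul_one] at this
      have h0 := norm_nonneg (ip o z)
      nlinarith
    rw [← hJ]
    rw [hk] at h3 ⊢
    have e1 : (1 - ρ) * ‖ip o z‖ ^ 2 ≤ (1 - ρ) * 1 :=
      mul_le_mul_of_nonneg_left ha (by linarith)
    have e2 := mul_le_mul_of_nonneg_left h3 r0
    nlinarith

end PS

end Vale.Agent.H29.QAC
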