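import Vale.Agent.H29.QAC.Block

set_option linter.unusedSectionVars false

namespace Vale.Agent.H29.QAC

open Matrix Finset

section Reduce

variable {V β γ : Type} [Fintype V] [DecidableEq V] [Fintype β] [DecidableEq β]
  [Fintype γ] [DecidableEq γ]

theorem bten_tens (blk : V → β) (H : β → V → Matrix Bool Bool ℂ) :
    bten blk (fun b => tens (fun q : Fib blk b => H b q.1)) = tens (fun q => H (blk q) q) := by
  rw [tens_eq_bten blk (fun q => H (blk q) q)]
  congr 1
  funext b
  congr 1
  funext q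
  rw [q.2]

theorem bten_smul (blk : V → β) (c : β → ℂ)
    (M : ∀ b, Matrix (Fib blk b → Bool) (Fib blk b → Bool) ℂ) :
    bten blk (fun b => c b • M b) = (∏ b, c b) • bten blk M := by
  ext y z
  simp [bten, Finset.prod_mul_distrib]

/-- the four factors in the expansion of a conjugated product operator -/
noncomputable def Fj (w : V → Bool → ℂ) (Z : V → Matrix Bool Bool ℂ) (j : Fin 4) (q : V) :
    Matrix Bool Bool ℂ :=
  match j with
  | 0 => Z q
  | 1 => rk (w q) (w q) * Z q
  | 2 => Z q * rk (w q) (w q)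
  | 3 => rk (w q) (w q) * Z q * rk (w q) (w q)

def cf (j : Fin 4) : ℂ :=
  match j with
  | 0 => 1
  | 1 => -2
  | 2 => -2
  | 3 => 4

theorem trace_red {U : Type} [Fintype U] (R : U → Prop) [DecidablePred R]
    (F : U → Matrix Bool Bool ℂ) (q : U) : (red R F q).trace = (F q).trace := by
  simp only [red]
  split_ifs
  · rw [Matrix.trace_smul, trace_rk, ip_unit nrm_e0]; simp
  · rfl

theorem trace_red_mul (blk2 : V → γ) (M : ∀ c, Matrix (Fib blk2 c → Bool) (Fib blk2 c → Bool) ℂ)
    (S : γ → Prop) (hS : ∀ c, ¬ S c → M c = 1) (R : V → Prop) [DecidablePred R]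
    (hR : ∀ q, R q → ¬ S (blk2 q)) (F : V → Matrix Bool Bool ℂ) :
    (tens F * bten blk2 M).trace = (tens (red R F) * bten blk2 M).trace := by
  rw [tens_eq_bten blk2 F, tens_eq_bten blk2 (red R F), bten_mul, bten_mul, trace_bten, trace_bten]
  refine Finset.prod_congr rfl fun c _ => ?_
  by_cases h : S c
  · congr 2
    congr 1
    funext q
    have : ¬ R q.1 := fun hr => hR q.1 hr (by rw [q.2]; exact h)
    simp [red, this]
  · rw [hS c h, mul_one, mul_one, trace_tens, trace_tens]
    exact Finset.prod_congr rfl fun q _ => (trace_red R F q.1).symm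

theorem trace_reduce (blk1 : V → β) (blk2 : V → γ) (w : V → Bool → ℂ) (ζ : V → Bool → ℝ)
    (M : ∀ c, Matrix (Fib blk2 c → Bool) (Fib blk2 c → Bool) ℂ)
    (S : γ → Prop) (hS : ∀ c, ¬ S c → M c = 1) (R : V → Prop) [DecidablePred R]
    (hR : ∀ q, R q → ¬ S (blk2 q)) :
    (bten blk1 (fun b => rf (fun q : Fib blk1 b => w q.1)
        * tens (fun q : Fib blk1 b => dg (ζ q.1)) * rf (fun q : Fib blk1 b => w q.1))
      * bten blk2 M).trace
    = (bten blk1 (fun b => redSigma (fun q : Fib blk1 b => R q.1) (fun q => ζ q.1)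
        (fun q => w q.1)) * bten blk2 M).trace := by
  have hL : bten blk1 (fun b => rf (fun q : Fib blk1 b => w q.1)
        * tens (fun q : Fib blk1 b => dg (ζ q.1)) * rf (fun q : Fib blk1 b => w q.1))
      = ∑ J : β → Fin 4, (∏ b, cf (J b)) • tens (fun q => Fj w (fun q => dg (ζ q)) (J (blk1 q)) q) := by
    have : (fun b => rf (fun q : Fib blk1 b => w q.1)
        * tens (fun q : Fib blk1 b => dg (ζ q.1)) * rf (fun q : Fib blk1 b => w q.1))
        = fun b => ∑ j : Fin 4, cf j • tens (fun q : Fib blk1 b =>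
            Fj w (fun q => dg (ζ q)) j q.1) := by
      funext b
      rw [rf_conj, Fin.sum_univ_four]
      simp only [cf, Fj]
      module
    rw [this, bten_sum]
    refine Finset.sum_congr rfl fun J _ => ?_
    rw [bten_smul blk1 (fun b => cf (J b))]
    rw [bten_tens blk1 (fun b q => Fj w (fun q => dg (ζ q)) (J b) q)]
  have hRR : bten blk1 (fun b => redSigma (fun q : Fib blk1 b => R q.1) (fun q => ζ q.1)
        (fun q => w q.1))
      = ∑ J : β → Fin 4, (∏ b, cf (J b)) •
          tens (red R fun q => Fj w (fun q => dg (ζ q)) (J (blk1 q)) q) := by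
    have : (fun b => redSigma (fun q : Fib blk1 b => R q.1) (fun q => ζ q.1)
        (fun q => w q.1))
        = fun b => ∑ j : Fin 4, cf j • tens (fun q : Fib blk1 b =>
            red R (fun q => Fj w (fun q => dg (ζ q)) j q) q.1) := by
      funext b
      rw [redSigma, Fin.sum_univ_four]
      simp only [cf]
      have h0 : (red (fun q : Fib blk1 b => R q.1) fun q => dg (ζ q.1))
          = fun q : Fib blk1 b => red R (fun q => Fj w (fun q => dg (ζ q)) 0 q) q.1 := by
        funext q; simp [red, Fj]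
      have h1 : (red (fun q : Fib blk1 b => R q.1) fun q => rk (w q.1) (w q.1) * dg (ζ q.1))
          = fun q : Fib blk1 b => red R (fun q => Fj w (fun q => dg (ζ q)) 1 q) q.1 := by
        funext q; simp [red, Fj]
      have h2 : (red (fun q : Fib blk1 b => R q.1) fun q => dg (ζ q.1) * rk (w q.1) (w q.1))
          = fun q : Fib blk1 b => red R (fun q => Fj w (fun q => dg (ζ q)) 2 q) q.1 := by
        funext q; simp [red, Fj]
      have h3 : (red (fun q : Fib blk1 b => R q.1)
            fun q => rk (w q.1) (w q.1) * dg (ζ q.1) * rk (w q.1) (w q.1))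
          = fun q : Fib blk1 b => red R (fun q => Fj w (fun q => dg (ζ q)) 3 q) q.1 := by
        funext q; simp [red, Fj]
      rw [h0, h1, h2, h3]
      module
    rw [this, bten_sum]
    refine Finset.sum_congr rfl fun J _ => ?_
    rw [bten_smul blk1 (fun b => cf (J b))]
    rw [bten_tens blk1 (fun b q => red R (fun q => Fj w (fun q => dg (ζ q)) (J b) q) q)]
    rfl
  rw [hL, hRR, Finset.sum_mul, Finset.sum_mul, Matrix.trace_sum, Matrix.trace_sum]
  refine Finset.sum_congr rfl fun J _ => ?_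
  rw [smul_mul_assoc, smul_mul_assoc, Matrix.trace_smul, Matrix.trace_smul]
  rw [trace_red_mul blk2 M S hS R hR]

theorem NucLe.mono {ι : Type} [Fintype ι] {M : Matrix ι ι ℂ} {r r' : ℝ} (h : NucLe M r)
    (hr : r ≤ r') : NucLe M r' := by
  obtain ⟨κ, i, a, b, h1, h2⟩ := h
  exact ⟨κ, i, a, b, h1, h2.trans hr⟩

theorem NucLe.conj {ι : Type} [Fintype ι] [DecidableEq ι] {M G : Matrix ι ι ℂ} {r : ℝ}
    (h : NucLe M r) (hG : Gᴴ * G = 1) : NucLe (G * M * Gᴴ) r := by
  obtain ⟨κ, i, a, b, h1, h2⟩ := h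
  refine ⟨κ, i, fun k => G *ᵥ a k, fun k => G *ᵥ b k, ?_, ?_⟩
  · rw [h1, Finset.mul_sum, Finset.sum_mul]
    refine Finset.sum_congr rfl fun k _ => ?_
    ext x y
    simp only [Matrix.mul_apply, rk, Matrix.mulVec, dotProduct, Matrix.conjTranspose_apply,
      star_sum, star_mul', Finset.sum_mul, Finset.mul_sum]
    refine Finset.sum_congr rfl fun i _ => Finset.sum_congr rfl fun j _ => by ring
  · simpa only [nrm_of_unitary hG] using h2

theorem nrm_single {ι : Type} [Fintype ι] [DecidableEq ι] (s : ι) (c : ℂ) :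
    nrm (Pi.single s c : ι → ℂ) = ‖c‖ := by
  rw [nrm]
  have : ∑ i, ‖(Pi.single s c : ι → ℂ) i‖ ^ 2 = ‖c‖ ^ 2 := by
    rw [Finset.sum_eq_single s]
    · simp
    · intro b _ hb; simp [hb]
    · simp
  rw [this, Real.sqrt_sq (norm_nonneg _)]

theorem tens_dg {U : Type} [Fintype U] [DecidableEq U] (ζ : U → Bool → ℝ) :
    tens (fun q => dg (ζ q)) = Matrix.diagonal (fun s => ((∏ q, ζ q (s q) : ℝ) : ℂ)) := by
  ext y z
  simp only [tens, dg, Matrix.diagonal_apply]
  by_cases h : y = z
  · subst h; simp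
  · obtain ⟨q, hq⟩ := Function.ne_iff.mp h
    simp only [h, if_false]
    exact Finset.prod_eq_zero (Finset.mem_univ q) (by simp [hq])

theorem nuc_dg {U : Type} [Fintype U] [DecidableEq U] (ζ : U → Bool → ℝ) :
    NucLe (tens (fun q => dg (ζ q))) (∏ q, ∑ a, |ζ q a|) := by
  refine ⟨U → Bool, inferInstance, fun s => Pi.single s ((∏ q, ζ q (s q) : ℝ) : ℂ),
    fun s => Pi.single s 1, ?_, ?_⟩
  · rw [tens_dg]
    ext y z
    simp only [Matrix.diagonal_apply, Matrix.sum_apply, rk]
    by_cases h : y = z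
    · subst h
      rw [Finset.sum_eq_single y]
      · simp
      · intro b _ hb; simp [Ne.symm hb]
      · simp
    · simp only [h, if_false]
      symm
      refine Finset.sum_eq_zero fun s _ => ?_
      by_cases h1 : y = s
      · subst h1; simp [Ne.symm h]
      · simp [h1]
  · simp only [nrm_single, norm_one, mul_one, Complex.norm_real, Real.norm_eq_abs,
      Finset.abs_prod]
    rw [sum_prod_fun (fun q a => |ζ q a|)]

theorem nuc_rf_dg {U : Type} [Fintype U] [DecidableEq U] (ζ : U → Bool → ℝ) {w : U → Bool → ℂ}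
    (hw : ∀ q, nrm (w q) = 1) (hζ : ∀ q, ∑ a, |ζ q a| ≤ 1) :
    NucLe (rf w * tens (fun q => dg (ζ q)) * rf w) 1 := by
  have h1 := (nuc_dg ζ).mono (Finset.prod_le_one
    (fun q _ => Finset.sum_nonneg fun a _ => abs_nonneg _) (fun q _ => hζ q))
  have h2 : (rf w)ᴴ * rf w = 1 := by rw [rf_conjTranspose, rf_sq hw]
  have := h1.conj h2
  rwa [rf_conjTranspose] at this

theorem redSigma_false {U : Type} [Fintype U] [DecidableEq U] (R : U → Prop) [DecidablePred R]
    (hR : ∀ q, ¬ R q) (ζ : U → Bool → ℝ) (w : U → Bool → ℂ) :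
    redSigma R ζ w = rf w * tens (fun q => dg (ζ q)) * rf w := by
  rw [rf_conj, redSigma]
  have : ∀ F : U → Matrix Bool Bool ℂ, red R F = F := by
    intro F; funext q; simp [red, hR q]
  simp only [this]

end Reduce

end Vale.Agent.H29.QAC
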