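import Mathlib

set_option linter.unusedSectionVars false

namespace Vale.Agent.H29.QAC

open Matrix Finset

section Tens

variable {V : Type} [Fintype V] [DecidableEq V]

/-- product operator -/
def tens (F : V → Matrix Bool Bool ℂ) : Matrix (V → Bool) (V → Bool) ℂ :=
  fun y z => ∏ q, F q (y q) (z q)

/-- product vector -/
def pvec (a : V → Bool → ℂ) : (V → Bool) → ℂ := fun y => ∏ q, a q (y q)

/-- rank one operator -/
def rk {ι : Type} (a b : ι → ℂ) : Matrix ι ι ℂ := fun i j => a i * star (b j)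

/-- inner product -/
def ip {ι : Type} [Fintype ι] (a b : ι → ℂ) : ℂ := ∑ i, star (a i) * b i

/-- norm -/
noncomputable def nrm {ι : Type} [Fintype ι] (a : ι → ℂ) : ℝ := Real.sqrt (∑ i, ‖a i‖ ^ 2)

theorem sum_prod_fun {κ : V → Type} [∀ q, Fintype (κ q)] {R : Type} [CommRing R]
    (g : ∀ q, κ q → R) :
    ∑ w : (∀ q, κ q), ∏ q, g q (w q) = ∏ q, ∑ a, g q a := by
  classical
  rw [Finset.prod_univ_sum]
  simp

theorem tens_mul (F G : V → Matrix Bool Bool ℂ) :
    tens F * tens G = tens (fun q => F q * G q) := by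
  ext y z
  simp only [tens, Matrix.mul_apply, ← Finset.prod_mul_distrib]
  exact sum_prod_fun (fun q a => F q (y q) a * G q a (z q))

theorem tens_one : tens (fun _ : V => (1 : Matrix Bool Bool ℂ)) = 1 := by
  ext y z
  simp only [tens, Matrix.one_apply]
  by_cases h : y = z
  · subst h; simp
  · simp only [h, if_false]
    obtain ⟨q, hq⟩ := Function.ne_iff.mp h
    exact Finset.prod_eq_zero (Finset.mem_univ q) (by simp [hq])

theorem trace_tens (F : V → Matrix Bool Bool ℂ) : (tens F).trace = ∏ q, (F q).trace := by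
  simp only [Matrix.trace, tens, Matrix.diag_apply]
  exact sum_prod_fun (fun q a => F q a a)

theorem tens_conjTranspose (F : V → Matrix Bool Bool ℂ) :
    (tens F)ᴴ = tens (fun q => (F q)ᴴ) := by
  ext y z
  simp [tens, Matrix.conjTranspose_apply]

theorem tens_rk (a b : V → Bool → ℂ) :
    tens (fun q => rk (a q) (b q)) = rk (pvec a) (pvec b) := by
  ext y z
  simp [tens, rk, pvec, Finset.prod_mul_distrib]

theorem ip_pvec (a b : V → Bool → ℂ) : ip (pvec a) (pvec b) = ∏ q, ip (a q) (b q) := by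
  simp only [ip, pvec, star_prod, ← Finset.prod_mul_distrib]
  exact sum_prod_fun (fun q t => star (a q t) * b q t)

end Tens

section Norm

variable {ι : Type} [Fintype ι]

theorem nrm_nonneg (a : ι → ℂ) : 0 ≤ nrm a := Real.sqrt_nonneg _

theorem nrm_sq (a : ι → ℂ) : nrm a ^ 2 = ∑ i, ‖a i‖ ^ 2 :=
  Real.sq_sqrt (Finset.sum_nonneg fun _ _ => sq_nonneg _)

theorem nrm_eq (a : ι → ℂ) : nrm a = ‖(WithLp.toLp 2 a : EuclideanSpace ℂ ι)‖ := by
  rw [EuclideanSpace.norm_eq]; rfl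

theorem ip_eq (a b : ι → ℂ) :
    ip a b = inner ℂ (WithLp.toLp 2 a : EuclideanSpace ℂ ι) (WithLp.toLp 2 b) := by
  simp [ip, PiLp.inner_apply, mul_comm]

theorem norm_ip_le (a b : ι → ℂ) : ‖ip a b‖ ≤ nrm a * nrm b := by
  rw [ip_eq, nrm_eq, nrm_eq]
  exact norm_inner_le_norm _ _

theorem ip_self (a : ι → ℂ) : ip a a = ((nrm a ^ 2 : ℝ) : ℂ) := by
  rw [nrm_sq]
  simp only [ip]
  push_cast
  refine Finset.sum_congr rfl fun i _ => ?_
  rw [← Complex.ofReal_pow, ← Complex.normSq_eq_norm_sq, Complex.normSq_eq_conj_mul_self]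
  simp

theorem nrm_add_le (a b : ι → ℂ) : nrm (a + b) ≤ nrm a + nrm b := by
  rw [nrm_eq, nrm_eq, nrm_eq]
  exact norm_add_le (WithLp.toLp 2 a : EuclideanSpace ℂ ι) (WithLp.toLp 2 b)

theorem nrm_smul (c : ℂ) (a : ι → ℂ) : nrm (c • a) = ‖c‖ * nrm a := by
  rw [nrm_eq, nrm_eq]
  exact norm_smul c (WithLp.toLp 2 a : EuclideanSpace ℂ ι)

theorem nrm_neg (a : ι → ℂ) : nrm (-a) = nrm a := by
  have := nrm_smul (-1) a
  simpa using this

theorem nrm_sub_le (a b : ι → ℂ) : nrm (a - b) ≤ nrm a + nrm b := by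
  rw [sub_eq_add_neg, ← nrm_neg b]; exact nrm_add_le _ _

theorem ip_mulVec (A : Matrix ι ι ℂ) (a b : ι → ℂ) : ip a (A *ᵥ b) = ip (Aᴴ *ᵥ a) b := by
  simp only [ip, Matrix.mulVec, dotProduct, Matrix.conjTranspose_apply, star_sum, star_mul',
    star_star, Finset.mul_sum, Finset.sum_mul]
  rw [Finset.sum_comm]
  refine Finset.sum_congr rfl fun i _ => Finset.sum_congr rfl fun j _ => by ring

theorem ip_star (a b : ι → ℂ) : star (ip a b) = ip b a := by
  simp only [ip, star_sum, star_mul', star_star]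
  refine Finset.sum_congr rfl fun i _ => by ring

/-- contraction -/
def Contr (X : Matrix ι ι ℂ) : Prop := ∀ a, nrm (X *ᵥ a) ≤ nrm a

theorem contr_of_proj {X : Matrix ι ι ℂ} (h1 : Xᴴ = X) (h2 : X * X = X) : Contr X := by
  intro a
  have key : nrm (X *ᵥ a) ^ 2 ≤ nrm a * nrm (X *ᵥ a) := by
    have e : ip (X *ᵥ a) (X *ᵥ a) = ip a (X *ᵥ a) := by
      have : ip a (X *ᵥ (X *ᵥ a)) = ip (Xᴴ *ᵥ a) (X *ᵥ a) := ip_mulVec X a _
      rw [h1, Matrix.mulVec_mulVec, h2] at this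
      exact this.symm
    have h3 := norm_ip_le a (X *ᵥ a)
    rw [← e, ip_self, Complex.norm_real, Real.norm_eq_abs,
      abs_of_nonneg (sq_nonneg (nrm (X *ᵥ a)))] at h3
    exact h3
  by_cases h0 : nrm (X *ᵥ a) = 0
  · rw [h0]; exact nrm_nonneg a
  · have hpos : 0 < nrm (X *ᵥ a) := lt_of_le_of_ne (nrm_nonneg _) (Ne.symm h0)
    rw [sq] at key
    exact le_of_mul_le_mul_right key hpos

theorem nrm_of_unitary {X : Matrix ι ι ℂ} [DecidableEq ι] (h : Xᴴ * X = 1) (a : ι → ℂ) :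
    nrm (X *ᵥ a) = nrm a := by
  have e : ip (X *ᵥ a) (X *ᵥ a) = ip a a := by
    have : ip a (Xᴴ *ᵥ (X *ᵥ a)) = ip (Xᴴᴴ *ᵥ a) (X *ᵥ a) := ip_mulVec Xᴴ a _
    rw [conjTranspose_conjTranspose, Matrix.mulVec_mulVec, h, Matrix.one_mulVec] at this
    exact this.symm
  rw [ip_self, ip_self] at e
  have e' : nrm (X *ᵥ a) ^ 2 = nrm a ^ 2 := by exact_mod_cast e
  exact (sq_eq_sq₀ (nrm_nonneg _) (nrm_nonneg _)).mp e'

/-- nuclear norm bound (through an explicit decomposition) -/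
def NucLe (M : Matrix ι ι ℂ) (r : ℝ) : Prop :=
  ∃ (κ : Type) (_ : Fintype κ) (a b : κ → ι → ℂ),
    M = ∑ k, rk (a k) (b k) ∧ ∑ k, nrm (a k) * nrm (b k) ≤ r

theorem trace_rk_mul (a b : ι → ℂ) (X : Matrix ι ι ℂ) :
    (rk a b * X).trace = ip b (X *ᵥ a) := by
  simp only [Matrix.trace, Matrix.diag_apply, Matrix.mul_apply, rk, ip, Matrix.mulVec, dotProduct,
    Finset.mul_sum]
  rw [Finset.sum_comm]
  refine Finset.sum_congr rfl fun i _ => Finset.sum_congr rfl fun j _ => by ring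

theorem nuc_trace {M X : Matrix ι ι ℂ} {r : ℝ} (hM : NucLe M r) (hX : Contr X) :
    ‖(M * X).trace‖ ≤ r := by
  obtain ⟨κ, _, a, b, rfl, h⟩ := hM
  rw [Finset.sum_mul, Matrix.trace_sum]
  refine (norm_sum_le _ _).trans (le_trans (Finset.sum_le_sum fun k _ => ?_) h)
  rw [trace_rk_mul]
  refine (norm_ip_le _ _).trans ?_
  rw [mul_comm]
  exact mul_le_mul_of_nonneg_right (hX _) (nrm_nonneg _)

end Norm

end Vale.Agent.H29.QAC
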