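import Vale.Agent.H29.QAC.TwoLayer

set_option linter.unusedSectionVars false
set_option linter.unusedSimpArgs false

namespace Vale.Agent.H29.QAC

open Matrix Finset

section LiveSec

variable {V β : Type} [Fintype V] [DecidableEq V] [Fintype β] [DecidableEq β]

theorem exists_sub_card (s : Finset V) :
    ∃ t ⊆ s, t.card ≠ 2 ∧ s.card ≤ 2 * t.card := by
  by_cases h : s.card = 2
  · obtain ⟨a, b, hab, rfl⟩ := Finset.card_eq_two.mp h
    refine ⟨{a}, by simp, by simp, ?_⟩
    rw [h]; simp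
  · exact ⟨s, Finset.Subset.refl _, h, by omega⟩

theorem live_set (blk1 : V → β) (I : Finset V) :
    ∃ A ⊆ I, (∀ b, kb blk1 A b ≠ 2) ∧ I.card ≤ 2 * A.card := by
  classical
  choose t ht1 ht2 ht3 using fun b => exists_sub_card (I.filter fun q => blk1 q = b)
  set A : Finset V := univ.filter fun q => q ∈ t (blk1 q) with hA
  have hkb : ∀ b, kb blk1 A b = (t b).card := by
    intro b
    have : t b = univ.filter fun q => blk1 q = b ∧ q ∈ A := by
      ext q
      simp only [hA, Finset.mem_filter, Finset.mem_univ, true_and]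
      constructor
      · intro hq
        have := (Finset.mem_filter.mp (ht1 b hq)).2
        exact ⟨this, by rw [this]; exact hq⟩
      · rintro ⟨h1, h2⟩
        rw [h1] at h2; exact h2
    rw [this, kb, Finset.card_filter]
    have e : ∀ q : V, (if blk1 q = b ∧ q ∈ A then 1 else 0)
        = if blk1 q = b then (if q ∈ A then 1 else 0) else 0 := by
      intro q
      by_cases h1 : blk1 q = b <;> by_cases h2 : q ∈ A <;> simp [h1, h2]
    simp only [e]
    have e2 : ∑ q ∈ univ.filter (fun q => blk1 q = b), (if q ∈ A then 1 else 0)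
        = ∑ q : Fib blk1 b, (if q.1 ∈ A then 1 else 0) :=
      Finset.sum_subtype (univ.filter fun q => blk1 q = b) (p := fun q => blk1 q = b)
        (fun q => by simp) (fun q => if q ∈ A then 1 else 0)
    rw [← e2, Finset.sum_filter]
  refine ⟨A, ?_, ?_, ?_⟩
  · intro q hq
    have := (Finset.mem_filter.mp hq).2
    exact (Finset.mem_filter.mp (ht1 _ this)).1
  · intro b; rw [hkb]; exact ht2 b
  · rw [← sum_kb (blk1 := blk1) (A := A)]
    have e : I.card = ∑ b, (I.filter fun q => blk1 q = b).card :=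
      Finset.card_eq_sum_card_fiberwise (fun _ _ => Finset.mem_coe.mpr (Finset.mem_univ _))
    rw [e, Finset.mul_sum]
    refine Finset.sum_le_sum fun b _ => ?_
    rw [hkb]; exact ht3 b

/-- coefficients of the restriction of the dead inputs -/
noncomputable def cc (I A : Finset V) (q : V) (b : Bool) : ℝ :=
  if q ∈ A then 1 / 2 else (if q ∈ I then (if b then -(1 / 2) else 1 / 2)
    else (if b then 0 else 1))

theorem sum_abs_cc (I A : Finset V) (q : V) : ∑ b, |cc I A q b| = 1 := by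
  rw [Fintype.sum_bool]
  simp only [cc]
  by_cases h1 : q ∈ A <;> by_cases h2 : q ∈ I <;> simp [h1, h2] <;> norm_num [abs_of_pos]

theorem zet_decomp {I A : Finset V} (hAI : A ⊆ I) (q : V) (a : Bool) :
    zet (fun q => q ∈ I) (fun _ => false) q a
      = ∑ b, cc I A q b * zet (fun q => q ∈ A) (fun _ => b) q a := by
  rw [Fintype.sum_bool]
  simp only [cc, zet]
  by_cases h1 : q ∈ A
  · have h2 := hAI h1
    simp only [h1, h2, if_true]
    ring
  · by_cases h2 : q ∈ I <;> cases a <;> simp [h1, h2]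

theorem diag_decomp {I A : Finset V} (hAI : A ⊆ I) :
    tens (fun q => dg (zet (fun q => q ∈ I) (fun _ => false) q))
      = ∑ y : V → Bool, ((∏ q, cc I A q (y q) : ℝ) : ℂ)
        • tens (fun q => dg (zet (fun q => q ∈ A) y q)) := by
  have h : ∀ y : V → Bool, tens (fun q => dg (zet (fun q => q ∈ A) y q))
      = Matrix.diagonal (fun s => ((∏ q, zet (fun q => q ∈ A) y q (s q) : ℝ) : ℂ)) :=
    fun y => tens_dg _
  simp only [h]
  rw [tens_dg]
  ext s t
  rw [Matrix.sum_apply]
  simp only [Matrix.smul_apply, Matrix.diagonal_apply, smul_eq_mul]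
  by_cases hst : s = t
  · subst hst
    simp only [if_true, ← Complex.ofReal_mul, ← Complex.ofReal_sum]
    congr 1
    simp only [← Finset.prod_mul_distrib]
    have e : ∀ y : V → Bool, ∏ q, cc I A q (y q) * zet (fun q => q ∈ A) y q (s q)
        = ∏ q, (fun q b => cc I A q b * zet (fun q => q ∈ A) (fun _ => b) q (s q)) q (y q) :=
      fun y => rfl
    simp only [e]
    rw [sum_prod_fun (fun q b => cc I A q b * zet (fun q => q ∈ A) (fun _ => b) q (s q))]
    exact Finset.prod_congr rfl fun q _ => zet_decomp hAI q (s q)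
  · simp [hst]

theorem sum_abs_coef (I A : Finset V) : ∑ y : V → Bool, |∏ q, cc I A q (y q)| = 1 := by
  simp only [Finset.abs_prod]
  rw [sum_prod_fun (fun q a => |cc I A q a|)]
  exact Finset.prod_eq_one fun q _ => sum_abs_cc I A q

end LiveSec

section SigOwn

variable {V : Type} [Fintype V] [DecidableEq V]

theorem rk_e0 : rk e0 e0 = dg (fun a => if a then 0 else 1) := by
  ext i j
  cases i <;> cases j <;> simp [rk, e0, dg, Matrix.diagonal_apply]

theorem dg_mul_dg (a b : Bool → ℝ) : dg a * dg b = dg (fun t => a t * b t) := by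
  simp [dg, Matrix.diagonal_mul_diagonal]

theorem rf_e0_conj {U : Type} [Fintype U] [DecidableEq U] (w : U → Bool → ℂ)
    (hw : ∀ q, w q = e0) (ζ : U → Bool → ℝ) :
    rf w * tens (fun q => dg (ζ q)) * rf w = tens (fun q => dg (ζ q)) := by
  have h1 : ∀ q, nrm (w q) = 1 := fun q => by rw [hw q, nrm_e0]
  have hc : rf w * tens (fun q => dg (ζ q)) = tens (fun q => dg (ζ q)) * rf w := by
    simp only [rf, sub_mul, mul_sub, one_mul, mul_one, smul_mul_assoc, mul_smul_comm, tens_mul]
    congr 3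
    funext q
    rw [hw q, rk_e0, dg_mul_dg, dg_mul_dg]
    congr 1; funext t; ring
  rw [hc, Matrix.mul_assoc, rf_sq h1, Matrix.mul_one]

theorem Sig_own {l : List (Finset V)} (hl : Good l) {u : V → Bool → ℂ}
    (hu : ∀ q, nrm (u q) = 1) :
    ∃ w : V → Bool → ℂ, (∀ q, nrm (w q) = 1) ∧ ∀ (A : Finset V) (y : V → Bool),
      Sig (own l) w A y
        = LP u l * tens (fun q => dg (zet (fun q => q ∈ A) y q)) * (LP u l)ᴴ := by
  refine ⟨fun q => if own l q ∈ l then u q else e0, ?_, ?_⟩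
  · intro q
    show nrm (if own l q ∈ l then u q else e0) = 1
    split_ifs
    · exact hu q
    · exact nrm_e0
  · intro A y
    have hLP := LP_bten hl u l (fun D hD => hD) hl.nodup
    have hLPh : (LP u l)ᴴ = LP u l := by
      rw [hLP, bten_conjTranspose]
      congr 1; funext c
      split_ifs
      · rw [rf_conjTranspose]
      · simp
    rw [hLPh, hLP, Sig, tens_eq_bten (own l), bten_mul, bten_mul]
    congr 1
    funext c
    by_cases hc : c ∈ l
    · have e : (fun q : Fib (own l) c => if own l q.1 ∈ l then u q.1 else e0)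
          = fun q : Fib (own l) c => u q.1 := by
        funext q
        rw [q.2, if_pos hc]
      rw [e, if_pos hc]
    · rw [if_neg hc, Matrix.one_mul, Matrix.mul_one]
      refine rf_e0_conj _ (fun q => ?_) _
      rw [q.2, if_neg hc]

end SigOwn

section Third

variable {V : Type} [Fintype V] [DecidableEq V]

/-- measurement projector at `o` -/
noncomputable def Qo (o : V) (v : Bool → ℂ) : V → Matrix Bool Bool ℂ :=
  fun q => if q = o then rk v v else 1

/-- test outside `o`, operator `X` at `o` -/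
noncomputable def Tx (u : V → Bool → ℂ) (D : Finset V) (o : V) (X : Matrix Bool Bool ℂ) :
    V → Matrix Bool Bool ℂ :=
  fun q => if q = o then X else (if q ∈ D then rk (u q) (u q) else 1)

theorem Tx_apply (u : V → Bool → ℂ) (D : Finset V) (o : V) (X : Matrix Bool Bool ℂ)
    (s t : V → Bool) : tens (Tx u D o X) s t
      = X (s o) (t o) * ∏ q ∈ univ.erase o, (if q ∈ D then rk (u q) (u q) else 1) (s q) (t q) := by
  rw [tens, ← Finset.mul_prod_erase univ _ (Finset.mem_univ o)]
  congr 1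
  · simp [Tx]
  · refine Finset.prod_congr rfl fun q hq => ?_
    rw [Tx, if_neg (Finset.ne_of_mem_erase hq)]

theorem Pt_Qo_comm {u : V → Bool → ℂ} {D : Finset V} {o : V} (h : o ∉ D) (v : Bool → ℂ) :
    Pt u D * tens (Qo o v) = tens (Qo o v) * Pt u D := by
  rw [Pt, tens_mul, tens_mul]
  congr 1; funext q
  simp only [Om, Qo]
  by_cases h1 : q = o
  · subst h1; simp [h]
  · simp [h1]

theorem Rf_Qo {u : V → Bool → ℂ} (hu : ∀ q, nrm (u q) = 1) {D : Finset V} {o : V} (h : o ∉ D)
    (v : Bool → ℂ) : Rf u D * tens (Qo o v) * Rf u D = tens (Qo o v) := by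
  have e : Rf u D * tens (Qo o v) = tens (Qo o v) * Rf u D := by
    simp only [Rf, sub_mul, mul_sub, one_mul, mul_one, smul_mul_assoc, mul_smul_comm,
      Pt_Qo_comm (u := u) h v]
  rw [e, Matrix.mul_assoc, Rf_sq hu, Matrix.mul_one]

theorem LP_Qo_trivial {u : V → Bool → ℂ} (hu : ∀ q, nrm (u q) = 1) {o : V} (v : Bool → ℂ)
    (l : List (Finset V)) (h : ∀ D ∈ l, o ∉ D) :
    (LP u l)ᴴ * tens (Qo o v) * LP u l = tens (Qo o v) := by
  induction l with
  | nil => simp [LP_nil]
  | cons D l ih =>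
    rw [LP_cons, Matrix.conjTranspose_mul, Rf_herm]
    have e : (LP u l)ᴴ * Rf u D * tens (Qo o v) * (Rf u D * LP u l)
        = (LP u l)ᴴ * (Rf u D * tens (Qo o v) * Rf u D) * LP u l := by
      simp only [Matrix.mul_assoc]
    rw [e, Rf_Qo hu (h D (by simp)), ih fun E hE => h E (by simp [hE])]

theorem Rf_Qo_mem {u : V → Bool → ℂ} (hu : ∀ q, nrm (u q) = 1) {D : Finset V} {o : V} (h : o ∈ D) (v : Bool → ℂ) :
    Rf u D * tens (Qo o v) * Rf u D = tens (Qo o v) - tens (Tx u D o (rk v v))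
      + tens (Tx u D o (rk (v - (2 * ip (u o) v) • u o) (v - (2 * ip (u o) v) • u o))) := by
  have e1 : Pt u D * tens (Qo o v) = tens (Tx u D o (rk (u o) (u o) * rk v v)) := by
    rw [Pt, tens_mul]; congr 1; funext q
    simp only [Om, Qo, Tx]
    by_cases h1 : q = o
    · subst h1; simp [h]
    · simp [h1]
  have e2 : tens (Qo o v) * Pt u D = tens (Tx u D o (rk v v * rk (u o) (u o))) := by
    rw [Pt, tens_mul]; congr 1; funext q
    simp only [Om, Qo, Tx]
    by_cases h1 : q = o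
    · subst h1; simp [h]
    · simp [h1]
  have e3 : Pt u D * tens (Qo o v) * Pt u D
      = tens (Tx u D o (rk (u o) (u o) * rk v v * rk (u o) (u o))) := by
    rw [e1, Pt, tens_mul]; congr 1; funext q
    simp only [Om, Tx]
    by_cases h1 : q = o
    · subst h1; simp [h]
    · by_cases h2 : q ∈ D
      · simp only [h1, h2, if_true, if_false]
        rw [rk_mul_rk, ip_unit (hu q), one_smul]
      · simp [h1, h2]
  have e4 : Rf u D * tens (Qo o v) * Rf u D = tens (Qo o v)
      - (2 : ℂ) • (Pt u D * tens (Qo o v)) - (2 : ℂ) • (tens (Qo o v) * Pt u D)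
      + (4 : ℂ) • (Pt u D * tens (Qo o v) * Pt u D) := by
    simp only [Rf, sub_mul, mul_sub, one_mul, mul_one, smul_mul_assoc, mul_smul_comm]
    module
  rw [e4, e3, e1, e2, rk_mul_rk, rk_mul_rk, smul_mul_assoc, rk_mul_rk]
  ext s t
  simp only [Matrix.add_apply, Matrix.sub_apply, Matrix.smul_apply, Tx_apply, smul_eq_mul, rk,
    Pi.sub_apply, Pi.smul_apply, star_sub, star_mul', ← ip_star v (u o)]
  have s2 : star (2 : ℂ) = 2 := by simp
  rw [s2, star_star]
  ring

theorem rk_proj {ι : Type} [Fintype ι] {a : ι → ℂ} (h : nrm a = 1) :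
    (rk a a)ᴴ = rk a a ∧ rk a a * rk a a = rk a a :=
  ⟨rk_conjTranspose a a, by rw [rk_mul_rk, ip_unit h, one_smul]⟩

theorem Qo_proj {o : V} {v : Bool → ℂ} (hv : nrm v = 1) (q : V) :
    (Qo o v q)ᴴ = Qo o v q ∧ Qo o v q * Qo o v q = Qo o v q := by
  simp only [Qo]
  split_ifs
  · exact rk_proj hv
  · simp

theorem Tx_proj {u : V → Bool → ℂ} (hu : ∀ q, nrm (u q) = 1) {D : Finset V} {o : V}
    {v : Bool → ℂ} (hv : nrm v = 1) (q : V) :
    (Tx u D o (rk v v) q)ᴴ = Tx u D o (rk v v) q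
      ∧ Tx u D o (rk v v) q * Tx u D o (rk v v) q = Tx u D o (rk v v) q := by
  simp only [Tx]
  split_ifs
  · exact rk_proj hv
  · exact rk_proj (hu q)
  · simp

theorem nrm_reflect {u v : Bool → ℂ} (hu : nrm u = 1) (hv : nrm v = 1) :
    nrm (v - (2 * ip u v) • u) = 1 := by
  have h1 : (1 - (2 : ℂ) • rk u u) *ᵥ v = v - (2 * ip u v) • u := by
    rw [Matrix.sub_mulVec, Matrix.one_mulVec, Matrix.smul_mulVec, rk_mulVec, smul_smul]
  rw [← h1, nrm_of_unitary, hv]
  have e1 := (rk_proj hu).1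
  have e2 := (rk_proj hu).2
  rw [Matrix.conjTranspose_sub, Matrix.conjTranspose_one, Matrix.conjTranspose_smul, e1]
  simp only [sub_mul, mul_sub, one_mul, mul_one, smul_mul_assoc, mul_smul_comm, e2]
  have : star (2 : ℂ) = 2 := by simp
  rw [this]
  module

/-- the third layer turns the measurement into three products of projectors -/
theorem third_layer {u : V → Bool → ℂ} (hu : ∀ q, nrm (u q) = 1) {o : V} {v : Bool → ℂ}
    (hv : nrm v = 1) (l : List (Finset V)) (hl : Good l) :
    ∃ p : Fin 3 → V → Matrix Bool Bool ℂ,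
      (∀ i q, (p i q)ᴴ = p i q ∧ p i q * p i q = p i q) ∧
      (LP u l)ᴴ * tens (Qo o v) * LP u l = tens (p 0) - tens (p 1) + tens (p 2) := by
  induction l with
  | nil =>
    exact ⟨fun _ => Qo o v, fun _ q => Qo_proj hv q, by simp [LP_nil]⟩
  | cons D l ih =>
    by_cases h : o ∈ D
    · refine ⟨![Qo o v, Tx u D o (rk v v), Tx u D o (rk (v - (2 * ip (u o) v) • u o)
        (v - (2 * ip (u o) v) • u o))], ?_, ?_⟩
      · intro i q
        fin_cases i
        · exact Qo_proj hv q
        · exact Tx_proj hu hv q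
        · exact Tx_proj hu (nrm_reflect (hu o) hv) q
      · have hdis := (List.pairwise_cons.mp hl.disj).1
        rw [LP_cons, Rf_LP_comm l hdis, Matrix.conjTranspose_mul, Rf_herm]
        have e : Rf u D * (LP u l)ᴴ * tens (Qo o v) * (LP u l * Rf u D)
            = Rf u D * ((LP u l)ᴴ * tens (Qo o v) * LP u l) * Rf u D := by
          simp only [Matrix.mul_assoc]
        rw [e, LP_Qo_trivial hu v l (fun E hE hoE =>
          Finset.disjoint_left.mp (hdis E hE) h hoE), Rf_Qo_mem hu h v]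
        rfl
    · obtain ⟨p, hp1, hp2⟩ := ih hl.tail
      refine ⟨p, hp1, ?_⟩
      rw [LP_cons, Matrix.conjTranspose_mul, Rf_herm]
      have e : (LP u l)ᴴ * Rf u D * tens (Qo o v) * (Rf u D * LP u l)
          = (LP u l)ᴴ * (Rf u D * tens (Qo o v) * Rf u D) * LP u l := by
        simp only [Matrix.mul_assoc]
      rw [e, Rf_Qo hu h, hp2]

end Third

section Total

variable {V : Type} [Fintype V] [DecidableEq V]

/-- three reflection layers followed by a measurement: bound on the parity weight -/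
theorem three_layer (I : Finset V) {u1 u2 u3 : V → Bool → ℂ} (hu1 : ∀ q, nrm (u1 q) = 1)
    (hu2 : ∀ q, nrm (u2 q) = 1) (hu3 : ∀ q, nrm (u3 q) = 1) {l1 l2 l3 : List (Finset V)}
    (hl1 : Good l1) (hl2 : Good l2) (hl3 : Good l3) (o : V) :
    ∃ a : ℕ, I.card ≤ 2 * a ∧ a ≤ I.card ∧ ∀ (v : Bool → ℂ), nrm v = 1 →
      ∀ (B : ℝ) (k : ℕ), 1 ≤ B →
      26 * B * k + 3 * k ≤ (a : ℝ) / 5 →
      ‖(tens (fun q => dg (zet (fun q => q ∈ I) (fun _ => false) q))
        * ((LP u3 l3 * LP u2 l2 * LP u1 l1)ᴴ * tens (Qo o v)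
          * (LP u3 l3 * LP u2 l2 * LP u1 l1))).trace‖
      ≤ 3 * (2 / Real.cosh (k / Real.sqrt (⌊2 * (a : ℝ) / B⌋₊ + 1 : ℕ))
        + 8 * (a / B) * Real.exp (-(B / 4))) := by
  obtain ⟨A, hAI, hk2, hA⟩ := live_set (own l1) I
  refine ⟨A.card, hA, Finset.card_le_card hAI, fun v hv B k hB hk => ?_⟩
  obtain ⟨p, hp1, hp2⟩ := third_layer hu3 hv l3 hl3 (o := o)
  obtain ⟨w, hw, hSig⟩ := Sig_own hl1 hu1
  set bd : ℝ := 2 / Real.cosh (k / Real.sqrt (⌊2 * (A.card : ℝ) / B⌋₊ + 1 : ℕ))
        + 8 * (A.card / B) * Real.exp (-(B / 4)) with hbd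
  have key : ∀ (y : V → Bool) (i : Fin 3),
      ‖(Sig (own l1) w A y * ((LP u2 l2)ᴴ * tens (p i) * LP u2 l2)).trace‖ ≤ bd :=
    fun y i => two_layer hw hk2 hu2 hl2 (fun q => (hp1 i q).1) (fun q => (hp1 i q).2) B hB k hk
  have key2 : ∀ y : V → Bool, ‖(tens (fun q => dg (zet (fun q => q ∈ A) y q))
        * ((LP u3 l3 * LP u2 l2 * LP u1 l1)ᴴ * tens (Qo o v)
          * (LP u3 l3 * LP u2 l2 * LP u1 l1))).trace‖ ≤ 3 * bd := by
    intro y
    have e1 : (LP u3 l3 * LP u2 l2 * LP u1 l1)ᴴ * tens (Qo o v)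
          * (LP u3 l3 * LP u2 l2 * LP u1 l1)
        = (LP u1 l1)ᴴ * ((LP u2 l2)ᴴ * ((LP u3 l3)ᴴ * tens (Qo o v) * LP u3 l3) * LP u2 l2)
          * LP u1 l1 := by
      simp only [Matrix.conjTranspose_mul, Matrix.mul_assoc]
    rw [e1, hp2]
    have e2 : (tens (fun q => dg (zet (fun q => q ∈ A) y q)) * ((LP u1 l1)ᴴ * ((LP u2 l2)ᴴ
          * (tens (p 0) - tens (p 1) + tens (p 2)) * LP u2 l2) * LP u1 l1)).trace
        = (Sig (own l1) w A y * ((LP u2 l2)ᴴ * tens (p 0) * LP u2 l2)).trace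
          - (Sig (own l1) w A y * ((LP u2 l2)ᴴ * tens (p 1) * LP u2 l2)).trace
          + (Sig (own l1) w A y * ((LP u2 l2)ᴴ * tens (p 2) * LP u2 l2)).trace := by
      rw [hSig A y, ← Matrix.trace_sub, ← Matrix.trace_add, ← Matrix.mul_sub, ← Matrix.mul_add]
      rw [← Matrix.sub_mul, ← Matrix.mul_sub, ← Matrix.add_mul, ← Matrix.mul_add]
      set Z := tens (fun q => dg (zet (fun q => q ∈ A) y q))
      set X := (LP u2 l2)ᴴ * (tens (p 0) - tens (p 1) + tens (p 2)) * LP u2 l2
      rw [show LP u1 l1 * Z * (LP u1 l1)ᴴ * X = LP u1 l1 * (Z * (LP u1 l1)ᴴ * X) by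
        simp only [Matrix.mul_assoc], Matrix.trace_mul_comm (LP u1 l1)]
      congr 1
      simp only [Matrix.mul_assoc]
    rw [e2]
    refine (norm_add_le _ _).trans ?_
    have h1 := norm_sub_le ((Sig (own l1) w A y * ((LP u2 l2)ᴴ * tens (p 0) * LP u2 l2)).trace)
      ((Sig (own l1) w A y * ((LP u2 l2)ᴴ * tens (p 1) * LP u2 l2)).trace)
    have k0 := key y 0
    have k1 := key y 1
    have k2 := key y 2
    linarith
  rw [diag_decomp hAI, Finset.sum_mul, Matrix.trace_sum]
  refine (norm_sum_le _ _).trans ?_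
  have h3 : ∀ y : V → Bool, ‖(((∏ q, cc I A q (y q) : ℝ) : ℂ)
        • tens (fun q => dg (zet (fun q => q ∈ A) y q))
        * ((LP u3 l3 * LP u2 l2 * LP u1 l1)ᴴ * tens (Qo o v)
          * (LP u3 l3 * LP u2 l2 * LP u1 l1))).trace‖
      ≤ |∏ q, cc I A q (y q)| * (3 * bd) := by
    intro y
    rw [Matrix.smul_mul, Matrix.trace_smul, norm_smul, Complex.norm_real, Real.norm_eq_abs]
    exact mul_le_mul_of_nonneg_left (key2 y) (abs_nonneg _)
  refine (Finset.sum_le_sum fun y _ => h3 y).trans ?_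
  rw [← Finset.sum_mul, sum_abs_coef, one_mul]

end Total

end Vale.Agent.H29.QAC
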