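import Vale.Agent.H29.QAC.Layer

set_option linter.unusedSectionVars false
set_option linter.unusedSimpArgs false

namespace Vale.Agent.H29.QAC

open Matrix Finset

section TwoSec

variable {V β : Type} [Fintype V] [DecidableEq V] [Fintype β] [DecidableEq β]
variable {blk1 : V → β} {w : V → Bool → ℂ} {A : Finset V} {y : V → Bool}

/-- average weight in which a gate fires -/
theorem avg_pass (hw : ∀ q, nrm (w q) = 1) {u : V → Bool → ℂ} (hu : ∀ q, nrm (u q) = 1)
    (D : Finset V) :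
    ∑ s, |∏ q, zet (fun q => q ∈ A) y q (s q)| * nrm (Pt u D *ᵥ Psi blk1 w s)
      ≤ Real.exp (-(mass blk1 w A y (fun q => q ∈ D) / 4)) := by
  obtain ⟨r, h1, h2, h3⟩ := pass_total (blk1 := blk1) (A := A) (y := y) hw hu (fun q => q ∈ D)
  have e1 : ∑ s, |∏ q, zet (fun q => q ∈ A) y q (s q)| * nrm (Pt u D *ᵥ Psi blk1 w s) ^ 2 = r := by
    have h4 := trace_eq_sum (blk1 := blk1) (w := w) (fun q => xi (fun q => q ∈ A) y q) (Pt u D)
    have hPt : tens (Om (fun q => q ∈ D) u) = Pt u D := rfl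
    rw [hPt, h4] at h1
    have h5 : ((∑ s, |∏ q, zet (fun q => q ∈ A) y q (s q)| * nrm (Pt u D *ᵥ Psi blk1 w s) ^ 2 : ℝ)
        : ℂ) = r := by
      rw [← h1]
      push_cast
      refine Finset.sum_congr rfl fun s _ => ?_
      rw [ip_proj (Pt_herm u D) (Pt_sq hu D), Finset.abs_prod]
      simp only [abs_zet_eq_xi]
      push_cast
      rfl
    exact_mod_cast h5
  have hcs := Finset.sum_mul_sq_le_sq_mul_sq (univ : Finset (V → Bool))
    (fun s => Real.sqrt |∏ q, zet (fun q => q ∈ A) y q (s q)|)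
    (fun s => Real.sqrt |∏ q, zet (fun q => q ∈ A) y q (s q)| * nrm (Pt u D *ᵥ Psi blk1 w s))
  have e2 : ∀ s : V → Bool, Real.sqrt |∏ q, zet (fun q => q ∈ A) y q (s q)| *
      (Real.sqrt |∏ q, zet (fun q => q ∈ A) y q (s q)| * nrm (Pt u D *ᵥ Psi blk1 w s))
      = |∏ q, zet (fun q => q ∈ A) y q (s q)| * nrm (Pt u D *ᵥ Psi blk1 w s) := by
    intro s
    rw [← mul_assoc, Real.mul_self_sqrt (abs_nonneg _)]
  simp only [e2, mul_pow, Real.sq_sqrt (abs_nonneg _), e1] at hcs
  have hS := sum_abs_prod_zet (A := A) (y := y)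
  have hr : (∑ s, |∏ q, zet (fun q => q ∈ A) y q (s q)| * nrm (Pt u D *ᵥ Psi blk1 w s)) ^ 2
      ≤ Real.exp (-(mass blk1 w A y (fun q => q ∈ D) / 4)) ^ 2 := by
    refine hcs.trans ?_
    rw [← Real.exp_nat_mul]
    have : ((2 : ℕ) : ℝ) * (-(mass blk1 w A y (fun q => q ∈ D) / 4))
        = -(mass blk1 w A y (fun q => q ∈ D) / 2) := by push_cast; ring
    rw [this]
    calc _ ≤ 1 * r := mul_le_mul_of_nonneg_right hS h2
      _ ≤ _ := by rw [one_mul]; exact h3
  exact (abs_le_of_sq_le_sq' hr (Real.exp_pos _).le).2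

theorem nrm_proj_le {ι : Type} [Fintype ι] {P : Matrix ι ι ℂ} (h1 : Pᴴ = P) (h2 : P * P = P)
    (a : ι → ℂ) : nrm (P *ᵥ a) ≤ nrm a := contr_of_proj h1 h2 a

theorem quad_diff {ι : Type} [Fintype ι] {P : Matrix ι ι ℂ} (h1 : Pᴴ = P) (h2 : P * P = P)
    (a b : ι → ℂ) (ha : nrm a ≤ 1) (hb : nrm b ≤ 1) :
    ‖ip a (P *ᵥ a) - ip b (P *ᵥ b)‖ ≤ 2 * nrm (a - b) := by
  rw [ip_proj h1 h2, ip_proj h1 h2, ← Complex.ofReal_sub, Complex.norm_real, Real.norm_eq_abs]
  have e : nrm (P *ᵥ a) ^ 2 - nrm (P *ᵥ b) ^ 2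
      = (nrm (P *ᵥ a) - nrm (P *ᵥ b)) * (nrm (P *ᵥ a) + nrm (P *ᵥ b)) := by ring
  rw [e, abs_mul]
  have h3 : |nrm (P *ᵥ a) - nrm (P *ᵥ b)| ≤ nrm (a - b) := by
    have h4 : nrm (P *ᵥ a) ≤ nrm (P *ᵥ b) + nrm (a - b) := by
      have : P *ᵥ a = P *ᵥ b + P *ᵥ (a - b) := by rw [← Matrix.mulVec_add]; congr 1; abel
      rw [this]
      exact (nrm_add_le _ _).trans (add_le_add (le_refl _) (nrm_proj_le h1 h2 _))
    have h5 : nrm (P *ᵥ b) ≤ nrm (P *ᵥ a) + nrm (a - b) := by
      have : P *ᵥ b = P *ᵥ a + P *ᵥ (b - a) := by rw [← Matrix.mulVec_add]; congr 1; abel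
      rw [this]
      have h6 : nrm (a - b) = nrm (b - a) := by rw [← nrm_neg]; congr 1; abel
      rw [h6]
      exact (nrm_add_le _ _).trans (add_le_add (le_refl _) (nrm_proj_le h1 h2 _))
    rw [abs_le]; constructor <;> linarith
  have h7 : |nrm (P *ᵥ a) + nrm (P *ᵥ b)| ≤ 2 := by
    rw [abs_of_nonneg (add_nonneg (nrm_nonneg _) (nrm_nonneg _))]
    have := nrm_proj_le h1 h2 a
    have := nrm_proj_le h1 h2 b
    linarith
  calc _ ≤ nrm (a - b) * 2 := mul_le_mul h3 h7 (abs_nonneg _) (nrm_nonneg _)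
    _ = _ := by ring

theorem Sig_eq_sum (X : Matrix (V → Bool) (V → Bool) ℂ) :
    (Sig blk1 w A y * X).trace
    = ∑ s, ((∏ q, zet (fun q => q ∈ A) y q (s q) : ℝ) : ℂ)
        * ip (Psi blk1 w s) (X *ᵥ Psi blk1 w s) :=
  trace_eq_sum (fun q => zet (fun q => q ∈ A) y q) X

theorem tens_proj {p : V → Matrix Bool Bool ℂ} (hp1 : ∀ q, (p q)ᴴ = p q)
    (hp2 : ∀ q, p q * p q = p q) : (tens p)ᴴ = tens p ∧ tens p * tens p = tens p := by
  constructor
  · rw [tens_conjTranspose]; congr 1; funext q; exact hp1 q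
  · rw [tens_mul]; congr 1; funext q; exact hp2 q

theorem ip_conj_mul {ι : Type} [Fintype ι] (U Q : Matrix ι ι ℂ) (a : ι → ℂ) :
    ip a ((Uᴴ * Q * U) *ᵥ a) = ip (U *ᵥ a) (Q *ᵥ (U *ᵥ a)) := by
  rw [← Matrix.mulVec_mulVec, ← Matrix.mulVec_mulVec, ip_mulVec, conjTranspose_conjTranspose]

theorem heavy_removal (hw : ∀ q, nrm (w q) = 1) {u : V → Bool → ℂ} (hu : ∀ q, nrm (u q) = 1)
    {l : List (Finset V)} (hl : Good l) {p : V → Matrix Bool Bool ℂ}
    (hp1 : ∀ q, (p q)ᴴ = p q) (hp2 : ∀ q, p q * p q = p q) (lt : Finset V → Bool) (B : ℝ)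
    (hB : 0 < B) (hlt : ∀ D, lt D = false → B ≤ mass blk1 w A y (fun q => q ∈ D)) :
    ‖(Sig blk1 w A y * ((LP u l)ᴴ * tens p * LP u l)).trace
      - (Sig blk1 w A y * ((LP u (l.filter lt))ᴴ * tens p * LP u (l.filter lt))).trace‖
      ≤ 8 * (A.card / B) * Real.exp (-(B / 4)) := by
  obtain ⟨hP1, hP2⟩ := tens_proj hp1 hp2
  rw [Sig_eq_sum, Sig_eq_sum, ← Finset.sum_sub_distrib]
  refine (norm_sum_le _ _).trans ?_
  have h1 : ∀ s : V → Bool, ‖((∏ q, zet (fun q => q ∈ A) y q (s q) : ℝ) : ℂ)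
        * ip (Psi blk1 w s) (((LP u l)ᴴ * tens p * LP u l) *ᵥ Psi blk1 w s)
      - ((∏ q, zet (fun q => q ∈ A) y q (s q) : ℝ) : ℂ)
        * ip (Psi blk1 w s) (((LP u (l.filter lt))ᴴ * tens p * LP u (l.filter lt))
          *ᵥ Psi blk1 w s)‖
      ≤ ((l.filter (fun D => !lt D)).map (fun D => 4 *
          (|∏ q, zet (fun q => q ∈ A) y q (s q)| * nrm (Pt u D *ᵥ Psi blk1 w s)))).sum := by
    intro s
    rw [← mul_sub, norm_mul, Complex.norm_real, Real.norm_eq_abs, ip_conj_mul, ip_conj_mul]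
    have h2 := quad_diff hP1 hP2 (LP u l *ᵥ Psi blk1 w s) (LP u (l.filter lt) *ᵥ Psi blk1 w s)
      (by rw [nrm_of_unitary (LP_unitary hu l), nrm_Psi hw])
      (by rw [nrm_of_unitary (LP_unitary hu _), nrm_Psi hw])
    have h3 := removal hu lt (Psi blk1 w s) l hl
    have h4 : ‖ip (LP u l *ᵥ Psi blk1 w s) (tens p *ᵥ LP u l *ᵥ Psi blk1 w s) -
        ip (LP u (l.filter lt) *ᵥ Psi blk1 w s)
          (tens p *ᵥ LP u (l.filter lt) *ᵥ Psi blk1 w s)‖
        ≤ 2 * ((l.filter (fun D => !lt D)).map (fun D => 2 * nrm (Pt u D *ᵥ Psi blk1 w s))).sum :=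
      h2.trans (mul_le_mul_of_nonneg_left h3 (by norm_num))
    refine (mul_le_mul_of_nonneg_left h4 (abs_nonneg _)).trans (le_of_eq ?_)
    rw [← List.sum_map_mul_left, ← List.sum_map_mul_left]
    congr 1
    apply List.map_congr_left
    intro D _
    ring
  refine (Finset.sum_le_sum fun s _ => h1 s).trans ?_
  have hnd : (l.filter (fun D => !lt D)).Nodup := hl.nodup.filter _
  set H : Finset (Finset V) := (l.filter (fun D => !lt D)).toFinset with hH
  have h5 : ∀ f : Finset V → ℝ, ((l.filter (fun D => !lt D)).map f).sum = ∑ D ∈ H, f D := by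
    intro f
    rw [hH, List.sum_toFinset f hnd]
  simp only [h5]
  rw [Finset.sum_comm]
  have h6 : ∀ D ∈ H, ∑ s : V → Bool, 4 * (|∏ q, zet (fun q => q ∈ A) y q (s q)|
      * nrm (Pt u D *ᵥ Psi blk1 w s)) ≤ 4 * Real.exp (-(B / 4)) := by
    intro D hD
    rw [← Finset.mul_sum]
    refine mul_le_mul_of_nonneg_left ((avg_pass hw hu D).trans (Real.exp_le_exp.mpr ?_))
      (by norm_num)
    have : lt D = false := by
      rw [hH, List.mem_toFinset, List.mem_filter] at hD
      simpa using hD.2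
    have := hlt D this
    linarith
  refine (Finset.sum_le_sum h6).trans ?_
  rw [Finset.sum_const, nsmul_eq_mul]
  have h7 : (H.card : ℝ) * B ≤ 2 * A.card := by
    have e1 : (H.card : ℝ) * B ≤ ∑ D ∈ H, mass blk1 w A y (fun q => own l q = D) := by
      rw [← nsmul_eq_mul]
      refine Finset.card_nsmul_le_sum H _ B fun D hD => ?_
      rw [hH, List.mem_toFinset, List.mem_filter] at hD
      have hm := hlt D (by simpa using hD.2)
      rw [mass_congr (D' := fun q => q ∈ D) (fun q => own_iff hl hD.1 q)]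
      exact hm
    refine e1.trans (le_trans (Finset.sum_le_univ_sum_of_nonneg
      (fun D => mass_nonneg hw _)) (sum_mass_le hw (own l)))
  have h8 : (H.card : ℝ) ≤ 2 * (A.card / B) := by
    rw [← mul_div_assoc, le_div_iff₀ hB]; exact h7
  have := mul_le_mul_of_nonneg_right h8 (by positivity : (0 : ℝ) ≤ 4 * Real.exp (-(B / 4)))
  linarith

theorem Good.filter {l : List (Finset V)} (h : Good l) (lt : Finset V → Bool) :
    Good (l.filter lt) :=
  ⟨fun D hD => h.ne D (List.mem_of_mem_filter hD), h.disj.filter _⟩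

theorem two_layer (hw : ∀ q, nrm (w q) = 1) (hk2 : ∀ b, kb blk1 A b ≠ 2)
    {u : V → Bool → ℂ} (hu : ∀ q, nrm (u q) = 1)
    {l : List (Finset V)} (hl : Good l) {p : V → Matrix Bool Bool ℂ}
    (hp1 : ∀ q, (p q)ᴴ = p q) (hp2 : ∀ q, p q * p q = p q) (B : ℝ) (hB : 1 ≤ B)
    (k : ℕ) (hk : 26 * B * k + 3 * k ≤ A.card / 5) :
    ‖(Sig blk1 w A y * ((LP u l)ᴴ * tens p * LP u l)).trace‖
      ≤ 2 / Real.cosh (k / Real.sqrt (⌊2 * (A.card : ℝ) / B⌋₊ + 1 : ℕ))
        + 8 * (A.card / B) * Real.exp (-(B / 4)) := by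
  classical
  let lt : Finset V → Bool := fun D => decide (mass blk1 w A y (fun q => q ∈ D) < B)
  have h1 := heavy_removal (blk1 := blk1) (A := A) (y := y) hw hu hl hp1 hp2 lt B
    (by linarith) (fun D hD => by
      have : ¬ (mass blk1 w A y (fun q => q ∈ D) < B) := by simpa [lt] using hD
      exact not_lt.mp this)
  have hl' : Good (l.filter lt) := hl.filter lt
  set l' := l.filter lt with hl'def
  have hlight : ∀ D ∈ l', mass blk1 w A y (fun q => q ∈ D) < B := by
    intro D hD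
    have := (List.mem_filter.mp hD).2
    simpa [lt] using this
  have hLP := LP_bten hl' u l' (fun D hD => hD) hl'.nodup
  let G : ∀ c : Finset V, Matrix (Fib (own l') c → Bool) (Fib (own l') c → Bool) ℂ :=
    fun c => if c ∈ l' then rf (fun q : Fib (own l') c => u q.1) else 1
  have hGherm : ∀ c, (G c)ᴴ = G c := by
    intro c
    simp only [G]
    split_ifs
    · rw [rf_conjTranspose]
    · simp
  have hGsq : ∀ c, G c * G c = 1 := by
    intro c
    simp only [G]
    split_ifs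
    · exact rf_sq (fun q : Fib (own l') c => hu q.1)
    · simp
  let M : ∀ c : Finset V, Matrix (Fib (own l') c → Bool) (Fib (own l') c → Bool) ℂ :=
    fun c => G c * tens (fun q : Fib (own l') c => p q.1) * G c
  have hbten : (LP u l')ᴴ * tens p * LP u l' = bten (own l') M := by
    have e1 : LP u l' = bten (own l') G := hLP
    have e2 : (LP u l')ᴴ = bten (own l') G := by
      rw [e1, bten_conjTranspose]; congr 1; funext c; exact hGherm c
    rw [e2, e1, tens_eq_bten (own l'), bten_mul, bten_mul]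
  have hM1 : ∀ c, (M c)ᴴ = M c := by
    intro c
    show (G c * tens (fun q : Fib (own l') c => p q.1) * G c)ᴴ = _
    rw [Matrix.conjTranspose_mul, Matrix.conjTranspose_mul, hGherm,
      (tens_proj (p := fun q : Fib (own l') c => p q.1) (fun q => hp1 q.1)
        (fun q => hp2 q.1)).1, ← Matrix.mul_assoc]
  have hM2 : ∀ c, M c * M c = M c := by
    intro c
    have e := (tens_proj (p := fun q : Fib (own l') c => p q.1) (fun q => hp1 q.1)
        (fun q => hp2 q.1)).2
    show (G c * tens (fun q : Fib (own l') c => p q.1) * G c)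
      * (G c * tens (fun q : Fib (own l') c => p q.1) * G c) = _
    calc _ = G c * tens (fun q : Fib (own l') c => p q.1) * (G c * G c)
          * tens (fun q : Fib (own l') c => p q.1) * G c := by simp only [Matrix.mul_assoc]
      _ = G c * (tens (fun q : Fib (own l') c => p q.1)
          * tens (fun q : Fib (own l') c => p q.1)) * G c := by
          rw [hGsq, Matrix.mul_one]; simp only [Matrix.mul_assoc]
      _ = _ := by rw [e]
  have hmass : ∀ c, mass blk1 w A y (fun q => own l' q = c) ≤ B := by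
    intro c
    by_cases hc : c ∈ l'
    · rw [mass_congr (D' := fun q => q ∈ c) (fun q => own_iff hl' hc q)]
      exact (hlight c hc).le
    · have key : ∀ q, own l' q = c → c = {q} := by
        intro q hq
        unfold own at hq
        cases h : l'.find? (fun D => decide (q ∈ D)) with
        | none => rw [h] at hq; exact hq.symm
        | some D =>
          rw [h] at hq
          have : D ∈ l' := List.mem_of_find?_eq_some h
          exact absurd (hq ▸ this) hc
      by_cases hex : ∃ q, own l' q = c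
      · obtain ⟨q0, hq0⟩ := hex
        have : ∀ q, own l' q = c ↔ q = q0 := by
          intro q
          constructor
          · intro hq
            have h1 := key q hq
            have h2 := key q0 hq0
            rw [h1] at h2
            exact Finset.singleton_injective h2
          · rintro rfl; exact hq0
        rw [mass_congr (D' := fun q => q = q0) this]
        exact (mass_single_le hw q0).trans hB
      · push Not at hex
        rw [mass_congr (D' := fun _ => False) (fun q => by simp [hex q]), mass_false]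
        linarith
  have h2 := core (y := y) hw hk2 (own l') M hM1 hM2 B hB hmass k hk
  rw [hbten] at h1
  have hc0 : 0 < Real.cosh (k / Real.sqrt (⌊2 * (A.card : ℝ) / B⌋₊ + 1 : ℕ)) := Real.cosh_pos _
  have h3 : ‖(Sig blk1 w A y * bten (own l') M).trace‖
      ≤ 2 / Real.cosh (k / Real.sqrt (⌊2 * (A.card : ℝ) / B⌋₊ + 1 : ℕ)) := by
    rw [le_div_iff₀ hc0]; exact h2
  have h4 := norm_sub_norm_le
    ((Sig blk1 w A y * ((LP u l)ᴴ * tens p * LP u l)).trace)
    ((Sig blk1 w A y * bten (own l') M).trace)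
  linarith

end TwoSec

end Vale.Agent.H29.QAC
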