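import Vale.Agent.H29.QAC.Reduce

set_option linter.unusedSimpArgs false

set_option linter.unusedSectionVars false

namespace Vale.Agent.H29.QAC

open Matrix Finset

section Vec

variable {ι : Type} [Fintype ι]

theorem ip_sub_right (a b c : ι → ℂ) : ip a (b - c) = ip a b - ip a c := by
  simp only [ip, Pi.sub_apply, mul_sub, Finset.sum_sub_distrib]

theorem ip_sub_left (a b c : ι → ℂ) : ip (a - b) c = ip a c - ip b c := by
  simp only [ip, Pi.sub_apply, star_sub, sub_mul, Finset.sum_sub_distrib]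

theorem ip_smul_right (t : ℂ) (a b : ι → ℂ) : ip a (t • b) = t * ip a b := by
  simp only [ip, Pi.smul_apply, smul_eq_mul, Finset.mul_sum]
  exact Finset.sum_congr rfl fun i _ => by ring

theorem ip_smul_left (t : ℂ) (a b : ι → ℂ) : ip (t • a) b = star t * ip a b := by
  simp only [ip, Pi.smul_apply, smul_eq_mul, star_mul', Finset.mul_sum]
  exact Finset.sum_congr rfl fun i _ => by ring

theorem nrm_sub_proj {w : ι → ℂ} (hw : nrm w = 1) (a : ι → ℂ) :
    nrm (a - (ip w a) • w) ^ 2 = nrm a ^ 2 - ‖ip w a‖ ^ 2 := by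
  have key : ip (a - (ip w a) • w) (a - (ip w a) • w)
      = ip a a - star (ip w a) * ip w a := by
    rw [ip_sub_left, ip_sub_right, ip_sub_right, ip_smul_right, ip_smul_left, ip_smul_left,
      ip_smul_right, ip_unit hw, ← ip_star w a]
    ring
  rw [ip_self, ip_self, star_mul_self_eq] at key
  have : ((nrm (a - (ip w a) • w) ^ 2 : ℝ) : ℂ) = ((nrm a ^ 2 - ‖ip w a‖ ^ 2 : ℝ) : ℂ) := by
    rw [key]; push_cast; ring
  exact_mod_cast this

/-- the three-vector inequality -/
theorem three_vec {o w y : ι → ℂ} (ho : nrm o = 1) (hw : nrm w = 1) (hy : nrm y = 1) :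
    ‖ip o y‖ ^ 2 - 2 * (ip w y * star (ip o y) * ip o w).re + 2 * ‖ip w y‖ ^ 2 * ‖ip o w‖ ^ 2
      ≤ 1 - ‖ip w y‖ ^ 2 * (1 - ‖ip w y‖ ^ 2) := by
  set a := ip o y with ha
  set t := ip o w with ht
  set k := ip w y with hk
  have h1 : ‖a - k * t‖ ^ 2 ≤ (1 - ‖t‖ ^ 2) * (1 - ‖k‖ ^ 2) := by
    have e1 : ip (o - (ip w o) • w) (y - (ip w y) • w) = a - k * t := by
      rw [ip_sub_left, ip_sub_right, ip_sub_right, ip_smul_right, ip_smul_left, ip_smul_left,
        ip_smul_right, ip_unit hw]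
      rw [ha, hk, ht]; ring
    have e2 := norm_ip_le (o - (ip w o) • w) (y - (ip w y) • w)
    rw [e1] at e2
    have e3 := nrm_sub_proj hw o
    have e4 := nrm_sub_proj hw y
    have e5 : ‖ip w o‖ = ‖t‖ := by rw [ht, ← ip_star o w, norm_star]
    rw [ho, e5] at e3
    rw [hy] at e4
    calc ‖a - k * t‖ ^ 2 ≤ (nrm (o - (ip w o) • w) * nrm (y - (ip w y) • w)) ^ 2 :=
          pow_le_pow_left₀ (norm_nonneg _) e2 2
      _ = (1 - ‖t‖ ^ 2) * (1 - ‖k‖ ^ 2) := by rw [mul_pow, e3, e4, hk]; norm_num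
  have h2 : ‖a - k * t‖ ^ 2 = ‖a‖ ^ 2 - 2 * (k * star a * t).re + ‖k‖ ^ 2 * ‖t‖ ^ 2 := by
    rw [← Complex.normSq_eq_norm_sq, Complex.normSq_sub, Complex.normSq_eq_norm_sq,
      Complex.normSq_eq_norm_sq, norm_mul, mul_pow]
    have : (a * (starRingEnd ℂ) (k * t)).re = (k * star a * t).re := by
      have : a * (starRingEnd ℂ) (k * t) = (starRingEnd ℂ) (k * star a * t) := by
        simp; ring
      rw [this, Complex.conj_re]
    rw [this]; ring
  have ht1 : ‖t‖ ^ 2 ≤ 1 := by
    have := norm_ip_le o w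
    rw [ho, hw, mul_one] at this
    have h0 := norm_nonneg t
    nlinarith
  nlinarith [sq_nonneg (‖k‖ ^ 2 - ‖t‖ ^ 2), sq_nonneg ‖t‖]

end Vec

section Wt

variable {U : Type} [Fintype U] [DecidableEq U]

/-- signed one-qubit weights: live input or fixed value -/
noncomputable def zet (al : U → Prop) [DecidablePred al] (y : U → Bool) (q : U) (a : Bool) : ℝ :=
  if al q then (if a then -(1 / 2) else 1 / 2) else (if a = y q then 1 else 0)

/-- absolute value of the signed weights -/
noncomputable def xi (al : U → Prop) [DecidablePred al] (y : U → Bool) (q : U) (a : Bool) : ℝ :=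
  if al q then 1 / 2 else (if a = y q then 1 else 0)

noncomputable def kap (w : U → Bool → ℂ) (y : U → Bool) (q : U) : ℝ := ‖w q (y q)‖ ^ 2

theorem nrm_sq_bool (a : Bool → ℂ) : nrm a ^ 2 = ‖a true‖ ^ 2 + ‖a false‖ ^ 2 := by
  rw [nrm_sq, Fintype.sum_bool]

variable {al : U → Prop} [DecidablePred al] {y : U → Bool} {w : U → Bool → ℂ}

theorem unit_bool (hw : ∀ q, nrm (w q) = 1) (q : U) : ‖w q true‖ ^ 2 + ‖w q false‖ ^ 2 = 1 := by
  rw [← nrm_sq_bool, hw q]; norm_num

theorem kap_nonneg (q : U) : 0 ≤ kap w y q := sq_nonneg _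

theorem kap_le_one (hw : ∀ q, nrm (w q) = 1) (q : U) : kap w y q ≤ 1 := by
  have h := unit_bool hw q
  unfold kap
  cases y q
  · nlinarith [sq_nonneg ‖w q true‖]
  · nlinarith [sq_nonneg ‖w q false‖]

theorem tau_al (hw : ∀ q, nrm (w q) = 1) {q : U} (h : al q) :
    |tau (zet al y q) (w q)| ≤ 1 / 2 := by
  have h1 := unit_bool hw q
  simp only [tau, zet, h, if_true, Bool.false_eq_true, if_false]
  rw [abs_le]
  constructor <;> nlinarith [sq_nonneg ‖w q true‖, sq_nonneg ‖w q false‖]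

theorem tau_fix {q : U} (h : ¬ al q) : tau (zet al y q) (w q) = kap w y q := by
  simp only [tau, zet, h, if_false, kap]
  cases y q <;> simp

theorem nrm_zw_al (hw : ∀ q, nrm (w q) = 1) {q : U} (h : al q) :
    nrm (zw (zet al y q) (w q)) ^ 2 = 1 / 4 := by
  have h1 := unit_bool hw q
  rw [nrm_sq_bool]
  simp only [zw, zet, h, if_true, Bool.false_eq_true, if_false, norm_mul, Complex.norm_real,
    Real.norm_eq_abs]
  norm_num
  nlinarith

theorem nrm_zw_fix {q : U} (h : ¬ al q) :
    nrm (zw (zet al y q) (w q)) ^ 2 = kap w y q := by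
  rw [nrm_sq_bool]
  simp only [zw, zet, h, if_false, norm_mul, Complex.norm_real, Real.norm_eq_abs, kap]
  cases y q <;> simp

theorem nrm_gv_sq (hw : ∀ q, nrm (w q) = 1) (R : U → Prop) [DecidablePred R] :
    nrm (pvec (gv R (zet al y) w)) ^ 2
      = ∏ q, if R q then 1 else (if al q then 1 / 4 else kap w y q) := by
  rw [nrm_pvec, ← Finset.prod_pow]
  refine Finset.prod_congr rfl fun q _ => ?_
  simp only [gv]
  split_ifs with h1 h2
  · rw [nrm_e0]; norm_num
  · exact nrm_zw_al hw h2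
  · exact nrm_zw_fix h2

/-- weights `c_J`, `c_S` -/
noncomputable def cJ (al : U → Prop) [DecidablePred al] (w : U → Bool → ℂ) (y : U → Bool) : ℝ :=
  ∏ q, if al q then 1 else kap w y q

noncomputable def cT (D al : U → Prop) [DecidablePred D] [DecidablePred al] (w : U → Bool → ℂ)
    (y : U → Bool) : ℝ :=
  ∏ q, if D q ∧ ¬ al q then kap w y q else 1

theorem prod_mem01 {f : U → ℝ} (h0 : ∀ q, 0 ≤ f q) (h1 : ∀ q, f q ≤ 1) :
    0 ≤ ∏ q, f q ∧ ∏ q, f q ≤ 1 :=
  ⟨Finset.prod_nonneg fun q _ => h0 q, Finset.prod_le_one (fun q _ => h0 q) fun q _ => h1 q⟩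

theorem cJ_mem (hw : ∀ q, nrm (w q) = 1) : 0 ≤ cJ al w y ∧ cJ al w y ≤ 1 := by
  apply prod_mem01
  · intro q; split_ifs; exacts [zero_le_one, kap_nonneg q]
  · intro q; split_ifs; exacts [le_refl _, kap_le_one hw q]

theorem cT_mem (hw : ∀ q, nrm (w q) = 1) (D : U → Prop) [DecidablePred D] :
    0 ≤ cT D al w y ∧ cT D al w y ≤ 1 := by
  apply prod_mem01
  · intro q; split_ifs; exacts [kap_nonneg q, zero_le_one]
  · intro q; split_ifs; exacts [kap_le_one hw q, le_refl _]

theorem cT_mul_cT (D : U → Prop) [DecidablePred D] :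
    cT D al w y * cT (fun q => ¬ D q) al w y = cJ al w y := by
  simp only [cT, cJ, ← Finset.prod_mul_distrib]
  refine Finset.prod_congr rfl fun q _ => ?_
  by_cases h1 : D q <;> by_cases h2 : al q <;> simp [h1, h2]

theorem nu_small (hw : ∀ q, nrm (w q) = 1) (R : U → Prop) [DecidablePred R] (q0 : U)
    (h0 : al q0) (hR : R q0) (huniq : ∀ q, al q → q = q0) :
    4 * |alp R (zet al y) w| * Real.sqrt (nrm (pvec (gv R (zet al y) w)) ^ 2
        - ome R (zet al y) w ^ 2)
      ≤ 2 * Real.sqrt (cJ al w y * (1 - cT (fun q => ¬ R q) al w y)) := by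
  have hal : ∀ q, al q → R q := fun q hq => by rw [huniq q hq]; exact hR
  have e1 : |alp R (zet al y) w| ≤ 1 / 2 * cT R al w y := by
    have : (1 / 2 : ℝ) = ∏ q, if q = q0 then (1 / 2 : ℝ) else 1 := by
      rw [Finset.prod_ite_eq' Finset.univ q0]; simp
    rw [alp, Finset.abs_prod, cT, this, ← Finset.prod_mul_distrib]
    refine Finset.prod_le_prod (fun q _ => abs_nonneg _) fun q _ => ?_
    by_cases hq : al q
    · have : q = q0 := huniq q hq
      subst this
      simp only [hR, h0, if_true, not_true, and_false, if_false, mul_one]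
      exact tau_al hw h0
    · have hne : q ≠ q0 := fun h => hq (h ▸ h0)
      simp only [hq, not_false_iff, and_true, hne, if_false, one_mul]
      split_ifs with hr
      · rw [tau_fix hq, abs_of_nonneg (kap_nonneg q)]
      · simp
  have e2 : nrm (pvec (gv R (zet al y) w)) ^ 2 = cT (fun q => ¬ R q) al w y := by
    rw [nrm_gv_sq hw, cT]
    refine Finset.prod_congr rfl fun q _ => ?_
    by_cases hr : R q
    · simp [hr]
    · have : ¬ al q := fun h => hr (hal q h)
      simp [hr, this]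
  have e3 : ome R (zet al y) w = cT (fun q => ¬ R q) al w y := by
    rw [ome, cT]
    refine Finset.prod_congr rfl fun q _ => ?_
    by_cases hr : R q
    · simp [hr]
    · have : ¬ al q := fun h => hr (hal q h)
      simp [hr, this, tau_fix this]
  rw [e2, e3]
  obtain ⟨r0, r1⟩ := cT_mem (al := al) (y := y) hw R
  obtain ⟨s0, s1⟩ := cT_mem (al := al) (y := y) hw (fun q => ¬ R q)
  have hJ := cT_mul_cT (al := al) (w := w) (y := y) R
  set r := cT R al w y
  set s := cT (fun q => ¬ R q) al w y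
  have e4 : 4 * |alp R (zet al y) w| * Real.sqrt (s - s ^ 2) ≤ 2 * (r * Real.sqrt (s - s ^ 2)) := by
    have := mul_le_mul_of_nonneg_right e1 (Real.sqrt_nonneg (s - s ^ 2))
    linarith
  refine e4.trans ?_
  refine mul_le_mul_of_nonneg_left ?_ (by norm_num)
  rw [← hJ]
  apply Real.le_sqrt_of_sq_le
  rw [mul_pow, Real.sq_sqrt (by nlinarith)]
  have : 0 ≤ s * (1 - s) := mul_nonneg s0 (by linarith)
  nlinarith [mul_nonneg r0 this, mul_nonneg (mul_nonneg r0 (sub_nonneg.mpr r1)) this]

theorem nu_large (hw : ∀ q, nrm (w q) = 1) (R : U → Prop) [DecidablePred R] :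
    4 * |alp R (zet al y) w| * Real.sqrt (nrm (pvec (gv R (zet al y) w)) ^ 2
        - ome R (zet al y) w ^ 2)
      ≤ 4 * ∏ q, if al q then (1 / 2 : ℝ) else 1 := by
  have e1 : |alp R (zet al y) w| ≤ ∏ q, if R q ∧ al q then (1 / 2 : ℝ) else 1 := by
    rw [alp, Finset.abs_prod]
    refine Finset.prod_le_prod (fun q _ => abs_nonneg _) fun q _ => ?_
    by_cases hr : R q <;> by_cases hq : al q <;> simp only [hr, hq, if_true, if_false, and_true,
      and_false, true_and, false_and]
    · exact tau_al hw hq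
    · rw [tau_fix hq, abs_of_nonneg (kap_nonneg q)]; exact kap_le_one hw q
    · simp
    · simp
  have e2 : Real.sqrt (nrm (pvec (gv R (zet al y) w)) ^ 2 - ome R (zet al y) w ^ 2)
      ≤ ∏ q, if ¬ R q ∧ al q then (1 / 2 : ℝ) else 1 := by
    apply Real.sqrt_le_iff.mpr
    refine ⟨Finset.prod_nonneg fun q _ => by split_ifs <;> norm_num, ?_⟩
    have : nrm (pvec (gv R (zet al y) w)) ^ 2
        ≤ (∏ q, if ¬ R q ∧ al q then (1 / 2 : ℝ) else 1) ^ 2 := by
      rw [nrm_gv_sq hw, ← Finset.prod_pow]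
      refine Finset.prod_le_prod (fun q _ => ?_) fun q _ => ?_
      · split_ifs
        · norm_num
        · norm_num
        · exact kap_nonneg q
      · by_cases hr : R q <;> by_cases hq : al q <;> simp only [hr, hq, if_true, if_false,
          and_true, and_false, true_and, false_and, not_true, not_false_iff]
        · norm_num
        · norm_num
        · norm_num
        · rw [one_pow]; exact kap_le_one hw q
    nlinarith [sq_nonneg (ome R (zet al y) w)]
  have e3 : (∏ q, if R q ∧ al q then (1 / 2 : ℝ) else 1) * (∏ q, if ¬ R q ∧ al q then (1 / 2 : ℝ) else 1)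
      = ∏ q, if al q then (1 / 2 : ℝ) else 1 := by
    rw [← Finset.prod_mul_distrib]
    refine Finset.prod_congr rfl fun q _ => ?_
    by_cases hr : R q <;> by_cases hq : al q <;> simp [hr, hq]
  rw [← e3, mul_assoc]
  refine mul_le_mul_of_nonneg_left ?_ (by norm_num)
  exact mul_le_mul e1 e2 (Real.sqrt_nonneg _)
    (Finset.prod_nonneg fun q _ => by split_ifs <;> norm_num)

end Wt

end Vale.Agent.H29.QAC
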